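import Vale.Agent.P321.Slip

/-! Concentration for averages of translates and the averaging lemma. -/

open Finset

namespace Vale.Agent.P321

variable {M : Type*} [Monoid M]

theorem hoeffding_core {ρ : Alg M} (hρ : Prob ρ) {φ : M → ℝ} (hφ : ∀ w, |φ w| ≤ 1)
    (hφ0 : pair ρ φ = 0) (J : ℕ) : ∀ (b : ℕ → ℝ) (u : ℝ) (h : M → ℝ), (∀ j, |b j| ≤ 1) →
      (∀ w, 0 ≤ h w) → (∀ w, h w ≤ 1) →
      u * pair (ρ ^ J) h + ∑ j ∈ range J, b j * pair (ρ ^ j * dens φ ρ * ρ ^ (J - 1 - j)) h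
        ≤ Real.exp (u + ∑ j ∈ range J, b j ^ 2) := by
  induction J with
  | zero =>
    intro b u h _ h0 h1
    simp only [pow_zero, pair_one, range_zero, sum_empty, add_zero]
    have := Real.add_one_le_exp u
    have := Real.exp_pos u
    rcases le_total 0 u with hu | hu
    · nlinarith [h1 1]
    · nlinarith [h0 1]
  | succ J ih =>
    intro b u h hb h0 h1
    have e1 : u * pair (ρ ^ (J + 1)) h
        + ∑ j ∈ range (J + 1), b j * pair (ρ ^ j * dens φ ρ * ρ ^ (J + 1 - 1 - j)) h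
        = pair ρ fun w => (u + b 0 * φ w) * pair (ρ ^ J) (fun o => h (w * o))
          + ∑ j ∈ range J, b (j + 1) *
            pair (ρ ^ j * dens φ ρ * ρ ^ (J - 1 - j)) (fun o => h (w * o)) := by
      rw [Finset.sum_range_succ', pair_add_right, pair_sum_right]
      simp only [add_mul, pair_add_right, mul_assoc (b 0), pair_mul_right]
      rw [pow_succ' ρ J, pair_mul, pow_zero, one_mul, pair_mul, pair_dens]
      have e2 : ∀ j ∈ range J, b (j + 1) * pair (ρ ^ (j + 1) * dens φ ρ * ρ ^ (J + 1 - 1 - (j + 1))) h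
          = b (j + 1) * pair ρ fun w =>
            pair (ρ ^ j * dens φ ρ * ρ ^ (J - 1 - j)) (fun o => h (w * o)) := by
        intro j _
        rw [pow_succ' ρ j, mul_assoc, mul_assoc, pair_mul, ← mul_assoc,
          show J + 1 - 1 - (j + 1) = J - 1 - j by omega]
      rw [Finset.sum_congr rfl e2]
      simp only [smul_eq_mul, Nat.add_sub_cancel, Nat.sub_zero]
      ring
    rw [e1]
    refine (pair_mono hρ.nonneg fun w => ih (fun j => b (j + 1)) (u + b 0 * φ w) _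
      (fun j => hb _) (fun o => h0 _) (fun o => h1 _)).trans ?_
    have e3 : ∀ w, Real.exp (u + b 0 * φ w + ∑ j ∈ range J, b (j + 1) ^ 2)
        ≤ Real.exp (u + ∑ j ∈ range J, b (j + 1) ^ 2) * ((1 + b 0 ^ 2) + b 0 * φ w) := by
      intro w
      rw [add_right_comm, Real.exp_add]
      refine mul_le_mul_of_nonneg_left ?_ (Real.exp_pos _).le
      have h2 : |b 0 * φ w| ≤ 1 := by
        rw [abs_mul]; exact mul_le_one₀ (hb 0) (abs_nonneg _) (hφ w)
      have h3 := (abs_le.mp (Real.abs_exp_sub_one_sub_id_le h2)).2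
      have h4 : (b 0 * φ w) ^ 2 ≤ b 0 ^ 2 := by
        rw [mul_pow]
        have : φ w ^ 2 ≤ 1 := by rw [← sq_abs]; nlinarith [hφ w, abs_nonneg (φ w)]
        nlinarith [sq_nonneg (b 0)]
      linarith
    refine (pair_mono hρ.nonneg e3).trans ?_
    rw [pair_mul_right, pair_add_right, hρ.pair_const, pair_mul_right, hφ0, mul_zero, add_zero,
      Finset.sum_range_succ', ← add_assoc, Real.exp_add _ (b 0 ^ 2)]
    refine mul_le_mul_of_nonneg_left ?_ (Real.exp_pos _).le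
    linarith [Real.add_one_le_exp (b 0 ^ 2)]

theorem Bd.exists_dens_smul {γ ρ : Alg M} {β : ℝ} (h : Bd γ (β • ρ)) (hγ : mass γ = 0) :
    ∃ φ : M → ℝ, (∀ w, |φ w| ≤ 1) ∧ pair ρ φ = 0 ∧ γ = β • dens φ ρ := by
  obtain ⟨φ, h1, h2⟩ := h.exists_dens
  have h3 : γ = β • dens φ ρ := by
    rw [h2]
    exact ext_pair fun k => by rw [pair_dens, pair_smul_left, pair_smul_left, pair_dens]
  by_cases hβ : β = 0
  · refine ⟨fun _ => 0, fun _ => by simp, by simp, ?_⟩
    rw [h3, hβ, zero_smul, zero_smul]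
  · refine ⟨φ, h1, ?_, h3⟩
    rw [h3, mass_smul, mass, pair_dens] at hγ
    simpa [hβ] using hγ

theorem exp_neg_le_half_pow (n : ℕ) : Real.exp (-n) ≤ (1 / 2) ^ n := by
  rw [show (-n : ℝ) = n * (-1) by ring, Real.exp_nat_mul]
  refine pow_le_pow_left₀ (Real.exp_pos _).le ?_ n
  rw [Real.exp_neg, one_div]
  exact inv_anti₀ (by norm_num) (by linarith [Real.add_one_le_exp 1])

theorem hoeffding_dom {ρ ρ' γ : Alg M} (hρ : Prob ρ) (hρ' : Prob ρ') {β ξ : ℝ} (hβ : 0 ≤ β)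
    (hξ : 0 ≤ ξ) (hγ : Bd γ (β • ρ)) (hγ0 : mass γ = 0) (Ξ : ℕ → Alg M)
    (hΞ : ∀ j, Bd (Ξ j) (ξ • ρ')) {R i : ℕ} (hR : 1 ≤ R) (hi : R ≤ i) :
    Dom (((i : ℝ) ^ 2)⁻¹ • ∑ j ∈ range (i ^ 2), ρ ^ j * γ * ρ ^ (i ^ 2 - 1 - j) * Ξ j)
      ((2 * R / i * β * ξ) • (ρ ^ (i ^ 2) * ρ')) (2 * β * ξ * (1 / 2) ^ (R * R)) := by
  obtain ⟨φ, hφ1, hφ0, rfl⟩ := hγ.exists_dens_smul hγ0
  have hx : ∀ j, ∃ x : M → ℝ, (∀ w, |x w| ≤ 1) ∧ Ξ j = ξ • dens x ρ' := by
    intro j
    obtain ⟨x, h1, h2⟩ := (hΞ j).exists_dens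
    refine ⟨x, h1, ?_⟩
    rw [h2]
    exact ext_pair fun k => by rw [pair_dens, pair_smul_left, pair_smul_left, pair_dens]
  choose x hx1 hx2 using hx
  have hi0 : (0 : ℝ) < i := by exact_mod_cast (lt_of_lt_of_le hR hi : 0 < i)
  have hR0 : (1 : ℝ) ≤ R := by exact_mod_cast hR
  have hRi : (R : ℝ) ≤ i := by exact_mod_cast hi
  -- one-sided estimate
  have one : ∀ (c : ℕ → ℝ) (h : M → ℝ), (∀ j, |c j| ≤ 1) → (∀ w, 0 ≤ h w) → (∀ w, h w ≤ 1) →
      ((i : ℝ) ^ 2)⁻¹ * ∑ j ∈ range (i ^ 2), c j * pair (ρ ^ j * dens φ ρ * ρ ^ (i ^ 2 - 1 - j)) h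
        ≤ 2 * R / i * pair (ρ ^ (i ^ 2)) h + (1 / 2) ^ (R * R) := by
    intro c h hc h0 h1
    have hb : ∀ j, |(R : ℝ) / i * c j| ≤ R / i := by
      intro j
      rw [abs_mul, abs_of_nonneg (by positivity)]
      exact mul_le_of_le_one_right (by positivity) (hc j)
    have hRi' : (R : ℝ) / i ≤ 1 := (div_le_one hi0).mpr hRi
    have h2 := hoeffding_core hρ hφ1 hφ0 (i ^ 2) (fun j => R / i * c j) (-2 * R ^ 2) h
      (fun j => (hb j).trans hRi') h0 h1
    have h3 : ∑ j ∈ range (i ^ 2), ((R : ℝ) / i * c j) ^ 2 ≤ R ^ 2 := by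
      calc _ ≤ ∑ j ∈ range (i ^ 2), ((R : ℝ) / i) ^ 2 :=
            Finset.sum_le_sum fun j _ => by
              rw [← sq_abs]; exact pow_le_pow_left₀ (abs_nonneg _) (hb j) 2
        _ = R ^ 2 := by
            rw [Finset.sum_const, Finset.card_range, nsmul_eq_mul]; push_cast; field_simp
    have h4 : Real.exp (-2 * R ^ 2 + ∑ j ∈ range (i ^ 2), ((R : ℝ) / i * c j) ^ 2)
        ≤ (1 / 2) ^ (R * R) := by
      refine le_trans (Real.exp_le_exp.mpr ?_) (exp_neg_le_half_pow (R * R))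
      push_cast; nlinarith
    simp only [mul_assoc ((R : ℝ) / i), ← Finset.mul_sum] at h2
    generalize (∑ j ∈ range (i ^ 2), c j * pair (ρ ^ j * dens φ ρ * ρ ^ (i ^ 2 - 1 - j)) h) = S at *
    generalize pair (ρ ^ (i ^ 2)) h = P at *
    have h5 := h2.trans h4
    have h6 : (0 : ℝ) ≤ (1 / 2) ^ (R * R) := by positivity
    generalize ((1 / 2 : ℝ)) ^ (R * R) = z at *
    have h7 : ((i : ℝ) ^ 2)⁻¹ * S - 2 * R / i * P = ((R : ℝ) * i)⁻¹ * (-2 * R ^ 2 * P + R / i * S) := by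
      field_simp; ring
    have h8 : ((R : ℝ) * i)⁻¹ ≤ 1 := inv_le_one_of_one_le₀ (by nlinarith)
    have h9 : ((R : ℝ) * i)⁻¹ * (-2 * R ^ 2 * P + R / i * S) ≤ ((R : ℝ) * i)⁻¹ * z :=
      mul_le_mul_of_nonneg_left h5 (by positivity)
    nlinarith
  have two : ∀ (c : ℕ → ℝ) (h : M → ℝ), (∀ j, |c j| ≤ 1) → (∀ w, |h w| ≤ 1) →
      ((i : ℝ) ^ 2)⁻¹ * ∑ j ∈ range (i ^ 2), c j * pair (ρ ^ j * dens φ ρ * ρ ^ (i ^ 2 - 1 - j)) h
        ≤ 2 * R / i * pair (ρ ^ (i ^ 2)) (fun w => |h w|) + 2 * (1 / 2) ^ (R * R) := by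
    intro c h hc hh
    have h1 := one c (fun w => max (h w) 0) hc (fun w => le_max_right _ _)
      (fun w => max_le (le_of_abs_le (hh w)) zero_le_one)
    have h2 := one (fun j => -c j) (fun w => max (-h w) 0) (fun j => by simpa using hc j)
      (fun w => le_max_right _ _)
      (fun w => max_le (by linarith [neg_abs_le (h w), hh w]) zero_le_one)
    have e1 : ∀ α : Alg M, pair α h
        = pair α (fun w => max (h w) 0) - pair α (fun w => max (-h w) 0) := by
      intro α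
      rw [← pair_sub_right]; congr 1; ext w
      rcases le_total 0 (h w) with h0 | h0
      · rw [max_eq_left h0, max_eq_right (by linarith)]; ring
      · rw [max_eq_right h0, max_eq_left (by linarith)]; ring
    have e2 : ∀ α : Alg M, pair α (fun w => |h w|)
        = pair α (fun w => max (h w) 0) + pair α (fun w => max (-h w) 0) := by
      intro α
      rw [← pair_add_right]; congr 1; ext w
      rcases le_total 0 (h w) with h0 | h0
      · rw [max_eq_left h0, max_eq_right (by linarith), abs_of_nonneg h0]; ring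
      · rw [max_eq_right h0, max_eq_left (by linarith), abs_of_nonpos h0]; ring
    simp only [neg_mul, Finset.sum_neg_distrib] at h2
    rw [e2]
    simp only [e1 (_ * _ * _), mul_sub, Finset.sum_sub_distrib]
    linarith
  refine dom_of_pair (((hρ.pow _).mul hρ').nonneg.smul (by positivity)) fun k hk => ?_
  have e3 : pair (((i : ℝ) ^ 2)⁻¹ • ∑ j ∈ range (i ^ 2),
        ρ ^ j * (β • dens φ ρ) * ρ ^ (i ^ 2 - 1 - j) * Ξ j) k
      = β * ξ * pair ρ' fun o => ((i : ℝ) ^ 2)⁻¹ * ∑ j ∈ range (i ^ 2), x j o *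
        pair (ρ ^ j * dens φ ρ * ρ ^ (i ^ 2 - 1 - j)) (fun w => k (w * o)) := by
    rw [pair_smul_left, pair_sum_left, pair_mul_right, pair_sum_right, smul_eq_mul,
      mul_left_comm, Finset.mul_sum (range (i ^ 2)) _ (β * ξ)]
    congr 1
    refine Finset.sum_congr rfl fun j _ => ?_
    rw [hx2, mul_smul_comm, mul_smul_comm, smul_mul_assoc, smul_mul_assoc, pair_smul_left,
      pair_smul_left, pair_mul', pair_dens]
    simp only [smul_eq_mul]; ring
  rw [e3, pair_smul_left, pair_mul', smul_eq_mul]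
  have h4 := pair_mono hρ'.nonneg fun o => two (fun j => x j o) (fun w => k (w * o))
    (fun j => hx1 j o) fun w => hk _
  rw [pair_add_right, hρ'.pair_const, pair_mul_right ρ' (2 * R / i : ℝ)] at h4
  have h5 := mul_le_mul_of_nonneg_left h4 (mul_nonneg hβ hξ)
  linarith

/-! ### The averaging operators -/

noncomputable def avg (s : Alg M) (J D : ℕ) (Γ : Alg M) : Alg M :=
  (J : ℝ)⁻¹ • ∑ j ∈ range J, s ^ (j * D) * Γ * s ^ ((J - j) * D)

noncomputable def dev (s : Alg M) (J D : ℕ) (Γ : Alg M) : Alg M := Γ * s ^ (J * D) - avg s J D Γ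

theorem avg_sub (s : Alg M) (J D : ℕ) (Γ Γ' : Alg M) :
    avg s J D (Γ - Γ') = avg s J D Γ - avg s J D Γ' := by
  simp [avg, mul_sub, sub_mul, Finset.sum_sub_distrib, smul_sub]

theorem avg_pad (s : Alg M) (J D a b : ℕ) (Γ : Alg M) :
    avg s J D (s ^ a * Γ * s ^ b) = s ^ a * avg s J D Γ * s ^ b := by
  simp only [avg, mul_smul_comm, smul_mul_assoc, Finset.mul_sum, Finset.sum_mul]
  congr 1
  refine Finset.sum_congr rfl fun j _ => ?_
  simp only [← mul_assoc, ← pow_add]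
  simp only [mul_assoc, ← pow_add]
  rw [add_comm (j * D), add_comm b]

theorem dev_pad (s : Alg M) (J D a b : ℕ) (Γ : Alg M) :
    dev s J D (s ^ a * Γ * s ^ b) = s ^ a * dev s J D Γ * s ^ b := by
  rw [dev, dev, avg_pad, mul_sub, sub_mul]
  simp only [mul_assoc, ← pow_add]
  rw [add_comm b]

theorem avg_dev (s : Alg M) (J D : ℕ) (Γ : Alg M) :
    avg s J D (dev s J D Γ) = dev s J D (avg s J D Γ) := by
  have := avg_pad s J D 0 (J * D) Γ
  simp only [pow_zero, one_mul] at this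
  rw [dev, avg_sub, this, dev]

theorem Dom.sum_smul {ι : Type*} (t : Finset ι) {γ : ι → Alg M} {ρ : Alg M}
    {a ζ : ℝ} (h : ∀ i ∈ t, Dom (γ i) (a • ρ) ζ) :
    Dom (∑ i ∈ t, γ i) ((t.card * a) • ρ) (t.card * ζ) := by
  classical
  induction t using Finset.induction_on with
  | empty => simpa using (bd_zero (ρ := (0 : Alg M)) fun w => by simp).dom
  | insert i t hi ih =>
    rw [Finset.sum_insert hi, Finset.card_insert_of_notMem hi]
    have := (h i (Finset.mem_insert_self _ _)).add_smul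
      (ih fun j hj => h j (Finset.mem_insert_of_mem hj))
    push_cast
    rwa [add_mul, add_mul, one_mul, one_mul, add_comm _ a, add_comm _ ζ]

theorem Dom.avg {s Γ : Alg M} (hs : Prob s) {J D n : ℕ} (hJ : 0 < J) {a ζ : ℝ}
    (h : Dom Γ (a • s ^ n) ζ) : Dom (avg s J D Γ) (a • s ^ (n + J * D)) ζ := by
  have h1 : ∀ j ∈ range J, Dom (s ^ (j * D) * Γ * s ^ ((J - j) * D)) (a • s ^ (n + J * D)) ζ := by
    intro j hj
    have := (h.mul_left (hs.pow (j * D))).mul_right (hs.pow ((J - j) * D))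
    rw [← pow_add, ← pow_add] at this
    convert this using 3
    have hj' := (Finset.mem_range.mp hj).le
    obtain ⟨l, rfl⟩ := Nat.exists_eq_add_of_le hj'
    rw [Nat.add_sub_cancel_left]; ring
  have h2 := (Dom.sum_smul _ h1).smul (c := (J : ℝ)⁻¹) (by positivity)
  have hJ' : (J : ℝ) ≠ 0 := by positivity
  rw [Finset.card_range, smul_smul, ← mul_assoc, ← mul_assoc, inv_mul_cancel₀ hJ', one_mul,
    one_mul] at h2
  exact h2

theorem Dom.dev {s Γ : Alg M} (hs : Prob s) {J D n : ℕ} (hJ : 0 < J) {a ζ : ℝ}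
    (h : Dom Γ (a • s ^ n) ζ) : Dom (dev s J D Γ) ((2 * a) • s ^ (n + J * D)) (2 * ζ) := by
  have h1 := h.mul_right (hs.pow (J * D))
  rw [← pow_add] at h1
  rw [two_mul, two_mul]
  exact h1.sub_smul (h.avg hs hJ)

theorem Dom.dev_iterate {s Γ : Alg M} (hs : Prob s) {J D n : ℕ} (hJ : 0 < J) {a ζ : ℝ}
    (h : Dom Γ (a • s ^ n) ζ) (r : ℕ) :
    Dom ((Vale.Agent.P321.dev s J D)^[r] Γ) ((2 ^ r * a) • s ^ (n + r * (J * D))) (2 ^ r * ζ) := by
  induction r with
  | zero => simpa using h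
  | succ r ih =>
    rw [Function.iterate_succ_apply']
    have := ih.dev hs (D := D) hJ
    rwa [show (2 : ℝ) * (2 ^ r * a) = 2 ^ (r + 1) * a by ring,
      show (2 : ℝ) * (2 ^ r * ζ) = 2 ^ (r + 1) * ζ by ring,
      show n + r * (J * D) + J * D = n + (r + 1) * (J * D) by ring] at this

theorem norm_pad_dev {s : Alg M} {τ : ℕ} (h : Slip s τ) (hs : Prob s) {k H J D : ℕ} (hk : 0 < k)
    (hH : k ^ 2 * τ ≤ H) (hJ : 0 < J) (Γ : Alg M) :
    ‖s ^ H * dev s J D Γ * s ^ H‖ ≤ 2 * (J * D) / k * ‖Γ‖ := by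
  have hJ' : (J : ℝ) ≠ 0 := by positivity
  have e : s ^ H * dev s J D Γ * s ^ H = (J : ℝ)⁻¹ • ∑ j ∈ range J,
      -(s ^ (H + j * D) * Γ * s ^ ((J - j) * D + H) - s ^ H * Γ * s ^ ((J - j) * D + H + j * D)) := by
    rw [dev, avg, mul_sub, sub_mul, mul_smul_comm, smul_mul_assoc, Finset.mul_sum, Finset.sum_mul]
    simp only [neg_sub, Finset.sum_sub_distrib, smul_sub]
    congr 1
    · rw [Finset.sum_congr rfl (g := fun _ => s ^ H * (Γ * s ^ (J * D)) * s ^ H), Finset.sum_const,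
        Finset.card_range, ← Nat.cast_smul_eq_nsmul ℝ, smul_smul, inv_mul_cancel₀ hJ', one_smul]
      intro j hj
      obtain ⟨l, rfl⟩ := Nat.exists_eq_add_of_le (Finset.mem_range.mp hj).le
      rw [Nat.add_sub_cancel_left]
      simp only [mul_assoc, ← pow_add]
      congr 3; ring
    · congr 1
      refine Finset.sum_congr rfl fun j _ => ?_
      simp only [pow_add, mul_assoc]
  rw [e, norm_smul, Real.norm_eq_abs, abs_of_nonneg (by positivity)]
  have h1 : ∀ j ∈ range J,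
      ‖-(s ^ (H + j * D) * Γ * s ^ ((J - j) * D + H) - s ^ H * Γ * s ^ ((J - j) * D + H + j * D))‖
        ≤ 2 * (J * D) / k * ‖Γ‖ := by
    intro j hj
    rw [norm_neg]
    refine (h.shift hs hk hH (by omega) _ Γ).trans ?_
    have : (j : ℝ) ≤ J := by exact_mod_cast (Finset.mem_range.mp hj).le
    push_cast
    gcongr
  refine (mul_le_mul_of_nonneg_left ((norm_sum_le _ _).trans (Finset.sum_le_sum h1))
    (by positivity)).trans (le_of_eq ?_)
  rw [Finset.sum_const, Finset.card_range, nsmul_eq_mul, ← mul_assoc, inv_mul_cancel₀ hJ', one_mul]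

theorem norm_pad_dev_iterate {s : Alg M} {τ : ℕ} (h : Slip s τ) (hs : Prob s) {k H J D : ℕ}
    (hk : 0 < k) (hH : k ^ 2 * τ ≤ H) (hJ : 0 < J) (Γ : Alg M) (r : ℕ) :
    ‖s ^ (r * H) * (dev s J D)^[r] Γ * s ^ (r * H)‖ ≤ (2 * (J * D) / k) ^ r * ‖Γ‖ := by
  induction r with
  | zero => simp
  | succ r ih =>
    have e : s ^ ((r + 1) * H) * (dev s J D)^[r + 1] Γ * s ^ ((r + 1) * H)
        = s ^ H * dev s J D (s ^ (r * H) * (dev s J D)^[r] Γ * s ^ (r * H)) * s ^ H := by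
      rw [Function.iterate_succ_apply', dev_pad]
      simp only [← mul_assoc, ← pow_add]
      simp only [mul_assoc, ← pow_add]
      rw [show (r + 1) * H = H + r * H by ring, add_comm (r * H) H]
    rw [e, pow_succ' _ r, mul_assoc _ _ ‖Γ‖]
    exact (norm_pad_dev h hs hk hH hJ _).trans (mul_le_mul_of_nonneg_left ih (by positivity))

theorem averaging {s Γ : Alg M} {τ : ℕ} (h : Slip s τ) (hs : Prob s) {R J D n A B : ℕ}
    (hJ : 0 < J) (hD : 0 < D) {a ζ : ℝ} (ha : 0 ≤ a)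
    (hΓ : Dom (avg s J D Γ) (a • s ^ (n + J * D)) ζ)
    (hA : R * ((2 * (J * D) * 2 ^ R) ^ 2 * τ) ≤ A)
    (hB : R * ((2 * (J * D) * 2 ^ R) ^ 2 * τ) + R * (J * D) ≤ B) :
    Dom (s ^ A * Γ * s ^ B) ((2 ^ R * a) • s ^ (A + n + B))
      (2 ^ R * ζ + (1 / 2) ^ (R * R) * ‖Γ‖) := by
  have hζ := hΓ.err_nonneg
  have h1 : ∀ r : ℕ, Dom (Γ * s ^ (r * (J * D)) - (dev s J D)^[r] Γ)
      (((2 ^ r - 1) * a) • s ^ (n + r * (J * D))) ((2 ^ r - 1) * ζ) := by
    intro r
    induction r with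
    | zero => simpa using (bd_zero (ρ := (0 : Alg M)) fun w => by simp).dom
    | succ r ih =>
      have h2 := ih.mul_right (hs.pow (J * D))
      have h3 := hΓ.dev_iterate hs (D := D) hJ r
      rw [← (Function.Commute.iterate_right (f := avg s J D) (g := dev s J D)
        (avg_dev s J D) r).eq] at h3
      rw [← pow_add] at h2
      rw [show n + J * D + r * (J * D) = n + r * (J * D) + J * D by ring] at h3
      have h4 := h2.add_smul h3
      rw [Function.iterate_succ_apply', dev]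
      rw [show ((2 : ℝ) ^ r - 1) * a + 2 ^ r * a = (2 ^ (r + 1) - 1) * a by ring,
        show ((2 : ℝ) ^ r - 1) * ζ + 2 ^ r * ζ = (2 ^ (r + 1) - 1) * ζ by ring,
        show n + r * (J * D) + J * D = n + (r + 1) * (J * D) by ring] at h4
      convert h4 using 1
      rw [sub_mul, mul_assoc, ← pow_add]
      rw [show (r + 1) * (J * D) = r * (J * D) + J * D by ring]
      abel
  obtain ⟨H, hH⟩ : ∃ H, H = (2 * (J * D) * 2 ^ R) ^ 2 * τ := ⟨_, rfl⟩
  rw [← hH] at hA hB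
  obtain ⟨A', rfl⟩ := Nat.exists_eq_add_of_le' hA
  obtain ⟨B', rfl⟩ := Nat.exists_eq_add_of_le hB
  have h5 := norm_pad_dev_iterate h hs (k := 2 * (J * D) * 2 ^ R) (H := H) (D := D)
    (by positivity) hH.ge hJ Γ R
  have h6 : (2 * ((J : ℝ) * D) / ((2 * (J * D) * 2 ^ R : ℕ) : ℝ)) ^ R = (1 / 2) ^ (R * R) := by
    rw [pow_mul]
    congr 1
    have : (J : ℝ) ≠ 0 := by positivity
    have : (D : ℝ) ≠ 0 := by positivity
    push_cast
    rw [one_div, inv_pow]
    field_simp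
  rw [h6] at h5
  have h7 := ((h1 R).mul_left (hs.pow (A' + R * H))).mul_right (hs.pow (R * H + B'))
  rw [← pow_add, ← pow_add] at h7
  have h8 : ‖s ^ (A' + R * H) * Γ * s ^ (R * H + R * (J * D) + B')
      - s ^ (A' + R * H) * (Γ * s ^ (R * (J * D)) - (dev s J D)^[R] Γ) * s ^ (R * H + B')‖
      ≤ (1 / 2) ^ (R * R) * ‖Γ‖ := by
    have e : s ^ (A' + R * H) * Γ * s ^ (R * H + R * (J * D) + B')
        - s ^ (A' + R * H) * (Γ * s ^ (R * (J * D)) - (dev s J D)^[R] Γ) * s ^ (R * H + B')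
        = s ^ A' * (s ^ (R * H) * (dev s J D)^[R] Γ * s ^ (R * H) * s ^ B') := by
      rw [show R * H + R * (J * D) + B' = R * (J * D) + (R * H + B') by ring]
      simp only [pow_add]
      noncomm_ring
    rw [e]
    exact ((hs.pow _).norm_mul_le _).trans (((hs.pow _).norm_mul_le' _).trans h5)
  have h9 := h7.of_norm_sub h8
  rw [show A' + R * H + (n + R * (J * D)) + (R * H + B')
    = A' + R * H + n + (R * H + R * (J * D) + B') by ring] at h9
  exact (h9.mono (hs.pow _).nonneg (by nlinarith)).mono_err (by nlinarith)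

end Vale.Agent.P321
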