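import Vale.Agent.P321.Double

/-! The seed and the first level. -/

open Finset

namespace Vale.Agent.P321

theorem chi_of_bd_norm {M : Type*} {γ ρ : Alg M} {β η : ℝ} (h : Bd γ (β • ρ)) (hη : ‖γ‖ ≤ η) :
    Chi γ ρ (η * β) := by
  intro k
  obtain ⟨φ, h1, h2⟩ := h.exists_dens
  have h3 : (pair (β • ρ) fun w => |φ w|) ≤ η := by
    refine le_trans (le_of_eq ?_) ((pair_le_norm γ (h := fun w => if 0 ≤ φ w then 1 else -1)
      fun w => by split_ifs <;> simp).trans hη)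
    conv_rhs => rw [h2]
    rw [pair_dens]
    congr 1; ext w
    split_ifs with h0
    · simp [abs_of_nonneg h0]
    · simp [abs_of_neg (not_le.mp h0)]
  have h4 : (pair (β • ρ) fun w => |φ w| * k w ^ 2) ≤ pair (β • ρ) fun w => k w ^ 2 :=
    pair_mono h.nonneg fun w => mul_le_of_le_one_left (sq_nonneg _) (h1 w)
  have h5 := pair_cs h.nonneg (b := fun w => φ w • k w) (fun w => abs_nonneg (φ w))
    (fun w => mul_nonneg (abs_nonneg (φ w)) (sq_nonneg (k w))) fun w _ => by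
      rw [smul_eq_mul, mul_pow, ← mul_assoc, abs_mul_abs_self, sq]
  conv_lhs => rw [h2]
  rw [pair_dens, mul_assoc, ← smul_eq_mul β, ← pair_smul_left]
  exact h5.trans (mul_le_mul h3 h4 (pair_nonneg h.nonneg fun w =>
    mul_nonneg (abs_nonneg (φ w)) (sq_nonneg (k w))) ((norm_nonneg _).trans hη))

theorem Dom.rev {M : Type*} {y t : Alg M} {E : ℝ} (h : Dom (y - t) ((1 / 2 : ℝ) • t) E)
    (hy : Nonneg y) : Dom t ((2 : ℝ) • y) (2 * E) := by
  obtain ⟨γ, h1, h2⟩ := h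
  have h3 : Bd t ((2 : ℝ) • (t + γ)) := Bd.rev (by simpa using h1)
  refine dom_of_pair (hy.smul zero_le_two) fun k hk => ?_
  have h4 := (le_abs_self _).trans (h3.abs_pair_le k)
  have h5 := (pair_le_norm (-(y - t - γ)) (h := fun w => |k w|) fun w => by simpa using hk w)
  rw [norm_neg, show -(y - t - γ) = (t + γ) - y by abel, pair_sub_left] at h5
  rw [pair_smul_left, smul_eq_mul] at h4 ⊢
  linarith

variable {M : Type*} [Monoid M]

theorem seed_alg {A B : Alg M} (hA : Prob A) (hB : Prob B) {q : ℝ} (hq : 0 < q) (hq1 : q ≤ 1)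
    (hA' : Nonneg (A - q • 1)) (hB' : Nonneg (B - q • 1)) :
    ∃ (H J τ : ℕ) (B₀ : ℝ), 1 ≤ τ ∧ Slip ((A * B) ^ (H + 1 + J)) τ ∧
      Bd ((A * B) ^ H * A * (A * B) ^ J - (A * B) ^ (H + 1 + J))
        ((q⁻¹ + 1) • (A * B) ^ (H + 1 + J)) ∧ 0 ≤ B₀ ∧ B₀ * (1 + B₀) ≤ 1 / 10 ^ 8 ∧
      Chi ((A * B) ^ H * A * (A * B) ^ J - (A * B) ^ (H + 1 + J)) ((A * B) ^ (H + 1 + J)) B₀ := by
  have hW := hA.mul hB
  have h1 : Nonneg (A * B - (q * q) • 1) := by
    have := (hA'.mul hB.nonneg).add (hB'.smul hq.le)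
    convert this using 1
    rw [sub_mul, smul_mul_assoc, one_mul, smul_sub, smul_smul]; abel
  have h2 : Nonneg ((1 : Alg M) - (q * q) • 1) := by
    have := (prob_one (M := M)).nonneg.smul (c := 1 - q * q) (by nlinarith)
    rwa [sub_smul, one_smul] at this
  have h3 := norm_sub_le_of_common h1 h2
  rw [hW.mass_eq, prob_one.mass_eq, mass_smul, prob_one.mass_eq] at h3
  obtain ⟨τ, hτ⟩ := exists_nat_ge (8 / (q * q))
  have hτ' : Slip (A * B) (τ + 1) := by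
    refine slip_of_overlap hW (m := 0) (ε := q * q) (by positivity) (by nlinarith)
      (by simpa using h3.trans (by linarith)) ?_
    rw [div_le_iff₀ (by positivity)] at hτ
    push_cast; nlinarith [mul_pos hq hq]
  have h4 : Bd A (q⁻¹ • (A * B)) := by
    intro w
    have := (hA.nonneg.mul hB') w
    rw [mul_sub, mul_smul_comm, mul_one] at this
    simp only [MonoidAlgebra.coeff_sub, MonoidAlgebra.coeff_smul, Finsupp.sub_apply,
      Finsupp.smul_apply, smul_eq_mul] at this ⊢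
    rw [abs_of_nonneg (hA.nonneg w), inv_mul_eq_div, le_div_iff₀ hq]
    linarith
  obtain ⟨β, hβ⟩ : ∃ β, β = q⁻¹ + 1 := ⟨_, rfl⟩
  have hβ0 : 0 < β := by rw [hβ]; positivity
  have h5 : Bd (A - A * B) (β • (A * B)) := by
    rw [hβ, add_smul, one_smul]; exact h4.sub hW.nonneg.bd
  rw [← hβ]
  generalize A * B = W at *
  have hδ : mass (A - W) = 0 := by rw [mass_sub, hA.mass_eq, hW.mass_eq, sub_self]
  obtain ⟨j, hj⟩ := exists_nat_ge (4 * 10 ^ 8 * β ^ 2)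
  have hj0 : (0 : ℝ) < j := lt_of_lt_of_le (by positivity) hj
  have hj1 : 0 < j := by exact_mod_cast hj0
  obtain ⟨H, hH⟩ : ∃ H, H = (2 * j ^ 3) ^ 2 * (τ + 1) := ⟨_, rfl⟩
  have h6 := norm_pad_dev hτ' hW (k := 2 * j ^ 3) (H := H) (J := j ^ 2) (D := 1) (by positivity)
    hH.ge (by positivity) (A - W)
  have h7 := (chi_sum_translates hW hδ (h5.chi hW) (sq_nonneg β) (j ^ 2)).norm_sq_le (hW.pow _)
    (by positivity)
  have h8 : ‖avg W (j ^ 2) 1 (A - W)‖ ≤ β / j := by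
    have e : avg W (j ^ 2) 1 (A - W) = ((j ^ 2 : ℕ) : ℝ)⁻¹ •
        ((∑ r ∈ range (j ^ 2), W ^ r * (A - W) * W ^ (j ^ 2 - 1 - r)) * W) := by
      rw [avg, Finset.sum_mul]
      congr 1
      refine Finset.sum_congr rfl fun r hr => ?_
      have := Finset.mem_range.mp hr
      rw [mul_one, mul_one, mul_assoc _ _ W, ← pow_succ]
      congr 2; omega
    rw [e, norm_smul, Real.norm_eq_abs, abs_of_nonneg (by positivity)]
    refine (mul_le_mul_of_nonneg_left ((hW.norm_mul_le' _).trans h7) (by positivity)).trans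
      (le_of_eq ?_)
    push_cast
    rw [← mul_pow, Real.sqrt_sq (by positivity)]
    field_simp
  have e : W ^ H * A * W ^ (j ^ 2 + H) - W ^ (H + 1 + (j ^ 2 + H))
      = W ^ H * (A - W) * W ^ (j ^ 2 + H) := by
    rw [pow_add W (H + 1), pow_succ]; noncomm_ring
  have h9 : ‖W ^ H * (A - W) * W ^ (j ^ 2 + H)‖ ≤ 2 * β / j := by
    have e2 : W ^ H * (A - W) * W ^ (j ^ 2 + H)
        = W ^ H * dev W (j ^ 2) 1 (A - W) * W ^ H + W ^ H * avg W (j ^ 2) 1 (A - W) * W ^ H := by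
      rw [dev, mul_one, pow_add]; noncomm_ring
    rw [e2]
    refine (norm_add_le _ _).trans ?_
    have a1 := ((hW.pow H).norm_mul_le' _).trans (((hW.pow H).norm_mul_le _).trans h8)
    have a2 : 2 * (((j ^ 2 : ℕ) : ℝ) * (1 : ℕ)) / ((2 * j ^ 3 : ℕ) : ℝ) * ‖A - W‖ ≤ β / j := by
      refine (mul_le_mul_of_nonneg_left (h5.norm_le_of_prob hW) (by positivity)).trans
        (le_of_eq ?_)
      push_cast; field_simp
    rw [mul_div_assoc]
    linarith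
  have h10 : Bd (W ^ H * (A - W) * W ^ (j ^ 2 + H)) (β • W ^ (H + 1 + (j ^ 2 + H))) := by
    have := (h5.mul_left (hW.pow H).nonneg).mul_right (hW.pow (j ^ 2 + H)).nonneg
    rwa [← pow_succ, ← pow_add] at this
  refine ⟨H, j ^ 2 + H, (H + 1 + (j ^ 2 + H)) * (τ + 1), 2 * β / j * β,
    Nat.mul_pos (by omega) (by omega), hτ'.pow (by omega), by rwa [e], by positivity, ?_,
    by rw [e]; exact chi_of_bd_norm h10 h9⟩
  have a1 : 2 * β / j * β ≤ 1 / (2 * 10 ^ 8) := by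
    rw [div_mul_eq_mul_div, div_le_div_iff₀ hj0 (by norm_num)]; nlinarith
  have a2 : 0 ≤ 2 * β / j * β := by positivity
  nlinarith

theorem dipole {u s : Alg M} (hu : Prob u) (hs : Prob s) {β : ℝ} (hβ : 0 ≤ β)
    (h : Bd (u - s) (β • s)) {τ R i H P Q : ℕ} (hτ : Slip s τ) (hR : 1 ≤ R) (hi : R ≤ i)
    (hH : H = R * ((2 * (i ^ 2 * 1) * 2 ^ R) ^ 2 * τ)) (hP : 2 * H ≤ P)
    (hQ : 2 * (H + R * (i ^ 2 * 1)) ≤ Q) {a : ℝ} (ha : a = 2 ^ R * (2 * R / i * β))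
    (ha' : a ≤ 1 / 2) :
    Dom (s ^ (P + 1) * u * s ^ Q - s ^ P * u * s ^ (Q + 1))
      ((4 * 2 ^ R * a / i ^ 2) • (s ^ P * u * s ^ (Q + 1)))
      (((2 ^ R * 2 + 2 ^ R * 2) * (2 ^ R * 2 + 1) + 2) * β * (1 / 2) ^ (R * R)) := by
  have hi0 : 0 < i := by omega
  have hi1 : (1 : ℝ) ≤ i := by exact_mod_cast hi0
  have hδ : mass (u - s) = 0 := by rw [mass_sub, hu.mass_eq, hs.mass_eq, sub_self]
  have hn := h.norm_le_of_prob hs
  have he : (0 : ℝ) ≤ (1 / 2) ^ (R * R) := by positivity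
  have ha0 : 0 ≤ a := by rw [ha]; positivity
  have h1 := hoeffding_dom hs hs hβ zero_le_one h hδ (fun _ => s)
    (fun _ => by simpa using hs.nonneg.bd) hR hi
  have h2 : Dom (avg s (i ^ 2) 1 (u - s)) ((2 * R / i * β) • s ^ (1 + i ^ 2 * 1))
      (2 * β * (1 / 2) ^ (R * R)) := by
    rw [mul_one, mul_one, ← pow_succ] at h1
    rw [mul_one, add_comm 1]
    convert h1 using 1
    rw [avg]
    push_cast
    congr 1
    refine Finset.sum_congr rfl fun r hr => ?_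
    have := Finset.mem_range.mp hr
    rw [mul_one, mul_one, mul_assoc _ _ s, ← pow_succ]
    congr 2; omega
  obtain ⟨E, hE⟩ : ∃ E : ℝ, E = (2 ^ R * 2 + 1) * β * (1 / 2) ^ (R * R) := ⟨_, rfl⟩
  have hE0 : 0 ≤ E := by rw [hE]; positivity
  have h3 : ∀ A B, H ≤ A → H + R * (i ^ 2 * 1) ≤ B →
      Dom (s ^ A * (u - s) * s ^ B) (a • s ^ (A + 1 + B)) E := by
    intro A B hA hB
    rw [ha]
    refine (averaging hτ hs (by positivity) one_pos (by positivity) h2 (hH ▸ hA)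
      (hH ▸ hB)).mono_err ?_
    have := mul_le_mul_of_nonneg_left hn he
    rw [hE]; linarith
  obtain ⟨A₂, rfl⟩ : ∃ A₂, P = A₂ + H := ⟨P - H, by omega⟩
  obtain ⟨B₁, hB₁⟩ : ∃ B, B = H + R * (i ^ 2 * 1) := ⟨_, rfl⟩
  rw [← hB₁] at h3 hQ
  obtain ⟨B₂, rfl⟩ : ∃ B₂, Q = B₁ + B₂ := ⟨Q - B₁, by omega⟩
  obtain ⟨G, hG⟩ : ∃ G, G = s ^ H * (u - s) * s ^ B₁ := ⟨_, rfl⟩
  have hGn : ‖G‖ ≤ β := hG ▸ ((hs.pow _).norm_mul_le' _).trans (((hs.pow _).norm_mul_le _).trans hn)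
  have h4 : Dom (avg s (i ^ 2) 1 (s * G - G * s))
      ((((i ^ 2 : ℕ) : ℝ)⁻¹ * (a + a)) • s ^ ((H + 1 + B₁ + 1) + i ^ 2 * 1))
      (((i ^ 2 : ℕ) : ℝ)⁻¹ * (E + E)) := by
    have a1 := h3 (i ^ 2 + H) (B₁ + 1) (by omega) (by omega)
    have a2 := h3 H (B₁ + (i ^ 2 + 1)) (by omega) (by omega)
    rw [show i ^ 2 + H + 1 + (B₁ + 1) = (H + 1 + B₁ + 1) + i ^ 2 * 1 by ring] at a1
    rw [show H + 1 + (B₁ + (i ^ 2 + 1)) = (H + 1 + B₁ + 1) + i ^ 2 * 1 by ring] at a2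
    have a3 := (a1.sub_smul a2).smul (c := ((i ^ 2 : ℕ) : ℝ)⁻¹) (by positivity)
    rw [smul_smul] at a3
    convert a3 using 1
    rw [avg]
    congr 1
    have a4 := Finset.sum_range_sub (fun j => s ^ j * G * s ^ (i ^ 2 + 1 - j)) (i ^ 2)
    rw [Nat.add_sub_cancel_left, Nat.sub_zero, pow_zero, one_mul, pow_one] at a4
    rw [pow_add s (i ^ 2) H, pow_add s B₁, pow_add s B₁, pow_one, mul_assoc (s ^ i ^ 2) (s ^ H),
      ← mul_assoc _ (s ^ B₁), ← mul_assoc _ (s ^ B₁), mul_assoc (s ^ i ^ 2) _ (s ^ B₁), ← hG, ← a4]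
    refine Finset.sum_congr rfl fun j hj => ?_
    have := Finset.mem_range.mp hj
    rw [mul_one, mul_one, show i ^ 2 + 1 - (j + 1) = i ^ 2 - j by omega,
      show i ^ 2 + 1 - j = (i ^ 2 - j) + 1 by omega, pow_succ s j, pow_succ' s (i ^ 2 - j)]
    noncomm_ring
  have h5 := averaging hτ hs (by positivity) one_pos (by positivity) h4 (A := A₂) (B := B₂) (R := R)
    (by rw [← hH]; omega) (by rw [← hH]; omega)
  have h6 := h3 (A₂ + H) (B₁ + B₂ + 1) (by omega) (by omega)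
  have e1 : s ^ (A₂ + H) * (u - s) * s ^ (B₁ + B₂ + 1)
      = s ^ (A₂ + H) * u * s ^ (B₁ + B₂ + 1) - s ^ (A₂ + H + 1 + (B₁ + B₂ + 1)) := by
    rw [pow_add s (A₂ + H + 1), pow_succ s (A₂ + H)]; noncomm_ring
  rw [e1] at h6
  have hy := ((hs.pow (A₂ + H)).mul hu).mul (hs.pow (B₁ + B₂ + 1))
  have hc : 0 ≤ 2 ^ R * (((i ^ 2 : ℕ) : ℝ)⁻¹ * (a + a)) := by positivity
  have h7 := ((h6.mono (hs.pow _).nonneg ha').rev hy.nonneg).smul hc
  rw [show A₂ + (H + 1 + B₁ + 1) + B₂ = A₂ + H + 1 + (B₁ + B₂ + 1) by ring] at h5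
  have h8 := h5.trans h7
  rw [smul_smul] at h8
  have hΓ : ‖s * G - G * s‖ ≤ β + β :=
    (norm_sub_le _ _).trans (add_le_add ((hs.norm_mul_le _).trans hGn) ((hs.norm_mul_le' _).trans hGn))
  have hinv : ((i ^ 2 : ℕ) : ℝ)⁻¹ ≤ 1 := by
    push_cast; exact inv_le_one_of_one_le₀ (one_le_pow₀ hi1)
  have hinv0 : 0 ≤ ((i ^ 2 : ℕ) : ℝ)⁻¹ := by positivity
  refine Dom.mono_err (ζ := _) (by
    convert h8 using 1
    · rw [hG, add_right_comm A₂ H 1, pow_add s (A₂ + 1), pow_succ s A₂, pow_add s A₂,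
        add_right_comm B₁ B₂ 1, pow_add s (B₁ + 1), pow_succ s B₁, pow_add s B₁]
      have c1 : s * s ^ H * s * s ^ B₁ = s ^ H * s * s ^ B₁ * s := by
        simp only [← pow_succ, ← pow_succ', ← pow_add]; congr 1; ring
      linear_combination (norm := noncomm_ring) s ^ A₂ * c1 * s ^ B₂
    · congr 1; push_cast; field_simp; ring) ?_
  have b1 := mul_le_mul_of_nonneg_left hΓ he
  have b2 : ((i ^ 2 : ℕ) : ℝ)⁻¹ * (E + E) ≤ E + E := mul_le_of_le_one_left (by positivity) hinv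
  have b3 : ((i ^ 2 : ℕ) : ℝ)⁻¹ * (a + a) ≤ 1 := mul_le_one₀ hinv (by positivity) (by linarith)
  have b4 : (0 : ℝ) ≤ 2 ^ R := by positivity
  have b5 := mul_le_mul_of_nonneg_left b2 b4
  have b6 := mul_le_mul_of_nonneg_right (mul_le_mul_of_nonneg_left b3 b4) (show 0 ≤ 2 * E by positivity)
  calc _ ≤ 2 ^ R * (E + E) + (1 / 2) ^ (R * R) * (β + β) + 2 ^ R * 1 * (2 * E) := by linarith
    _ = _ := by rw [hE]; ring

end Vale.Agent.P321
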