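import Mathlib

/-! The l1 monoid algebra: pairing with test functions, positivity, norm, domination. -/

open Finset

namespace Vale.Agent.P321

variable {M : Type*}

abbrev Alg (M : Type*) := MonoidAlgebra ℝ M

section pair
variable {E : Type*} [AddCommGroup E] [Module ℝ E]

noncomputable def pair (γ : Alg M) (h : M → E) : E := ∑ w ∈ γ.coeff.support, γ.coeff w • h w

theorem pair_eq_sum (γ : Alg M) (h : M → E) (S : Finset M) (hS : γ.coeff.support ⊆ S) :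
    pair γ h = ∑ w ∈ S, γ.coeff w • h w := by
  refine Finset.sum_subset hS fun w _ hw => ?_
  rw [Finsupp.notMem_support_iff.mp hw, zero_smul]

theorem pair_eq_lc (γ : Alg M) (h : M → E) :
    pair γ h = Finsupp.linearCombination ℝ h γ.coeff := by
  rw [Finsupp.linearCombination_apply]; rfl

@[simp] theorem pair_zero_left (h : M → E) : pair (0 : Alg M) h = 0 := by simp [pair]

theorem pair_add_left (α β : Alg M) (h : M → E) : pair (α + β) h = pair α h + pair β h := by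
  simp [pair_eq_lc]

theorem pair_sub_left (α β : Alg M) (h : M → E) : pair (α - β) h = pair α h - pair β h := by
  simp [pair_eq_lc]

theorem pair_neg_left (α : Alg M) (h : M → E) : pair (-α) h = -pair α h := by
  simp [pair_eq_lc]

theorem pair_smul_left (c : ℝ) (α : Alg M) (h : M → E) : pair (c • α) h = c • pair α h := by
  simp [pair_eq_lc]

theorem pair_sum_left {ι : Type*} (s : Finset ι) (α : ι → Alg M) (h : M → E) :
    pair (∑ i ∈ s, α i) h = ∑ i ∈ s, pair (α i) h := by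
  simp [pair_eq_lc]

theorem pair_single (w : M) (a : ℝ) (h : M → E) :
    pair (MonoidAlgebra.single w a) h = a • h w := by
  simp [pair_eq_lc]

theorem pair_add_right (α : Alg M) (h k : M → E) :
    pair α (fun w => h w + k w) = pair α h + pair α k := by
  simp [pair, Finset.sum_add_distrib]

theorem pair_sub_right (α : Alg M) (h k : M → E) :
    pair α (fun w => h w - k w) = pair α h - pair α k := by
  simp [pair, smul_sub, Finset.sum_sub_distrib]

theorem pair_smul_right (α : Alg M) (c : ℝ) (h : M → E) :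
    pair α (fun w => c • h w) = c • pair α h := by
  simp only [pair, Finset.smul_sum]
  exact Finset.sum_congr rfl fun w _ => smul_comm _ _ _

theorem pair_sum_right {ι : Type*} (α : Alg M) (s : Finset ι) (h : ι → M → E) :
    pair α (fun w => ∑ i ∈ s, h i w) = ∑ i ∈ s, pair α (h i) := by
  simp only [pair, Finset.smul_sum]
  exact Finset.sum_comm

theorem pair_congr (α : Alg M) {h k : M → E} (hk : ∀ w, α.coeff w ≠ 0 → h w = k w) :
    pair α h = pair α k :=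
  Finset.sum_congr rfl fun w hw => by rw [hk w (Finsupp.mem_support_iff.mp hw)]

@[simp] theorem pair_zero_right (α : Alg M) : pair α (fun _ => (0 : E)) = 0 := by simp [pair]

theorem pair_comm {N : Type*} (α : Alg M) (β : Alg N) (h : M → N → E) :
    pair α (fun w => pair β (fun o => h w o)) = pair β (fun o => pair α (fun w => h w o)) := by
  simp only [pair, Finset.smul_sum]
  rw [Finset.sum_comm]
  exact Finset.sum_congr rfl fun _ _ => Finset.sum_congr rfl fun _ _ => smul_comm _ _ _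

theorem pair_map {F : Type*} [AddCommGroup F] [Module ℝ F] (L : E →ₗ[ℝ] F) (α : Alg M)
    (h : M → E) : L (pair α h) = pair α (fun w => L (h w)) := by
  simp [pair]

theorem pair_one [One M] (h : M → E) : pair (1 : Alg M) h = h 1 := by
  rw [MonoidAlgebra.one_def, pair_single, one_smul]

theorem pair_mul [Monoid M] (α β : Alg M) (h : M → E) :
    pair (α * β) h = pair α (fun w => pair β (fun o => h (w * o))) := by
  induction α using MonoidAlgebra.induction_linear with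
  | zero => simp
  | add a b ha hb => rw [add_mul, pair_add_left, pair_add_left, ha, hb]
  | single w a =>
    rw [pair_single]
    induction β using MonoidAlgebra.induction_linear with
    | zero => simp
    | add c d hc hd => rw [mul_add, pair_add_left, pair_add_left, hc, hd, smul_add]
    | single o b => rw [MonoidAlgebra.single_mul_single, pair_single, pair_single, smul_smul]

end pair

theorem pair_mul_right {K : Type*} [Ring K] [Algebra ℝ K] (α : Alg M) (c : K) (h : M → K) :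
    pair α (fun w => c * h w) = c * pair α h := by
  simp only [pair, Finset.mul_sum]
  exact Finset.sum_congr rfl fun w _ => (mul_smul_comm _ _ _).symm

theorem pair_right_mul {K : Type*} [Ring K] [Algebra ℝ K] (α : Alg M) (c : K) (h : M → K) :
    pair α (fun w => h w * c) = pair α h * c := by
  simp only [pair, Finset.sum_mul]
  exact Finset.sum_congr rfl fun w _ => (smul_mul_assoc _ _ _).symm

open Classical in
theorem coeff_eq_pair (α : Alg M) (u : M) :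
    α.coeff u = pair α (fun w => if w = u then (1 : ℝ) else 0) := by
  rw [pair_eq_sum α _ (insert u α.coeff.support) (Finset.subset_insert _ _)]
  simp

theorem ext_pair {α β : Alg M} (h : ∀ k : M → ℝ, pair α k = pair β k) : α = β := by
  apply MonoidAlgebra.coeff_injective
  ext u
  rw [coeff_eq_pair, coeff_eq_pair, h]

def Nonneg (α : Alg M) : Prop := ∀ w, 0 ≤ α.coeff w

noncomputable def mass (α : Alg M) : ℝ := pair α fun _ => (1 : ℝ)

structure Prob (α : Alg M) : Prop where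
  nonneg : Nonneg α
  mass_eq : mass α = 1

theorem pair_mono_on {α : Alg M} (hα : Nonneg α) {h k : M → ℝ}
    (hk : ∀ w, α.coeff w ≠ 0 → h w ≤ k w) : pair α h ≤ pair α k :=
  Finset.sum_le_sum fun w hw =>
    mul_le_mul_of_nonneg_left (hk w (Finsupp.mem_support_iff.mp hw)) (hα w)

theorem pair_mono {α : Alg M} (hα : Nonneg α) {h k : M → ℝ} (hk : ∀ w, h w ≤ k w) :
    pair α h ≤ pair α k := pair_mono_on hα fun w _ => hk w

theorem pair_nonneg {α : Alg M} (hα : Nonneg α) {h : M → ℝ} (hk : ∀ w, 0 ≤ h w) :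
    0 ≤ pair α h := by
  simpa using pair_mono hα (h := fun _ => 0) hk

theorem pair_const {E : Type*} [AddCommGroup E] [Module ℝ E] (α : Alg M) (c : E) :
    pair α (fun _ => c) = mass α • c := by
  simp [pair, mass, Finset.sum_smul]

theorem Prob.pair_const {E : Type*} [AddCommGroup E] [Module ℝ E] {α : Alg M} (hα : Prob α)
    (c : E) : pair α (fun _ => c) = c := by
  rw [Vale.Agent.P321.pair_const, hα.mass_eq, one_smul]

theorem Prob.pair_le {α : Alg M} (hα : Prob α) {h : M → ℝ} {c : ℝ}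
    (hc : ∀ w, α.coeff w ≠ 0 → h w ≤ c) : pair α h ≤ c :=
  (pair_mono_on hα.nonneg hc).trans (hα.pair_const c).le

theorem mass_add (α β : Alg M) : mass (α + β) = mass α + mass β := pair_add_left _ _ _
theorem mass_sub (α β : Alg M) : mass (α - β) = mass α - mass β := pair_sub_left _ _ _
theorem mass_smul (c : ℝ) (α : Alg M) : mass (c • α) = c * mass α := pair_smul_left _ _ _
@[simp] theorem mass_zero : mass (0 : Alg M) = 0 := pair_zero_left _
theorem mass_mul [Monoid M] (α β : Alg M) : mass (α * β) = mass α * mass β := by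
  unfold mass
  rw [pair_mul, pair_const]; rfl
theorem Nonneg.mass_nonneg {α : Alg M} (hα : Nonneg α) : 0 ≤ mass α :=
  pair_nonneg hα fun _ => zero_le_one

theorem nonneg_of_pair {α : Alg M} (h : ∀ k : M → ℝ, (∀ w, 0 ≤ k w) → 0 ≤ pair α k) :
    Nonneg α := by
  classical
  intro u
  rw [coeff_eq_pair]
  exact h _ fun w => by split_ifs <;> norm_num

theorem Nonneg.mul [Monoid M] {α β : Alg M} (hα : Nonneg α) (hβ : Nonneg β) : Nonneg (α * β) :=
  nonneg_of_pair fun k hk => by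
    rw [pair_mul]
    exact pair_nonneg hα fun w => pair_nonneg hβ fun o => hk _

theorem Nonneg.add {α β : Alg M} (hα : Nonneg α) (hβ : Nonneg β) : Nonneg (α + β) :=
  fun w => by simpa using add_nonneg (hα w) (hβ w)

theorem Nonneg.smul {α : Alg M} (hα : Nonneg α) {c : ℝ} (hc : 0 ≤ c) : Nonneg (c • α) :=
  fun w => by simpa using mul_nonneg hc (hα w)

theorem nonneg_single (w : M) {a : ℝ} (ha : 0 ≤ a) : Nonneg (MonoidAlgebra.single w a) :=
  nonneg_of_pair fun k hk => by rw [pair_single]; exact mul_nonneg ha (hk w)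

theorem nonneg_sum {ι : Type*} (s : Finset ι) {α : ι → Alg M} (h : ∀ i ∈ s, Nonneg (α i)) :
    Nonneg (∑ i ∈ s, α i) :=
  nonneg_of_pair fun k hk => by
    rw [pair_sum_left]; exact Finset.sum_nonneg fun i hi => pair_nonneg (h i hi) hk

theorem prob_single (w : M) : Prob (MonoidAlgebra.single w (1 : ℝ)) :=
  ⟨nonneg_single w zero_le_one, by simp [mass, pair_single]⟩

theorem prob_one [One M] : Prob (1 : Alg M) := prob_single 1

theorem Prob.mul [Monoid M] {α β : Alg M} (hα : Prob α) (hβ : Prob β) : Prob (α * β) :=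
  ⟨hα.nonneg.mul hβ.nonneg, by rw [mass_mul, hα.mass_eq, hβ.mass_eq, one_mul]⟩

theorem Prob.pow [Monoid M] {α : Alg M} (hα : Prob α) (n : ℕ) : Prob (α ^ n) := by
  induction n with
  | zero => simpa using prob_one
  | succ n ih => rw [pow_succ]; exact ih.mul hα

/-- Cauchy-Schwarz for the pairing with a nonnegative element. -/
theorem pair_mul_sq_le {α : Alg M} (hα : Nonneg α) (h k : M → ℝ) :
    (pair α fun w => h w * k w) ^ 2 ≤ pair α (fun w => h w ^ 2) * pair α (fun w => k w ^ 2) := by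
  have := Finset.sum_mul_sq_le_sq_mul_sq α.coeff.support
    (fun w => Real.sqrt (α.coeff w) * h w) (fun w => Real.sqrt (α.coeff w) * k w)
  have e : ∀ w, Real.sqrt (α.coeff w) * Real.sqrt (α.coeff w) = α.coeff w :=
    fun w => Real.mul_self_sqrt (hα w)
  have e1 : (pair α fun w => h w * k w) = ∑ w ∈ α.coeff.support,
      Real.sqrt (α.coeff w) * h w * (Real.sqrt (α.coeff w) * k w) := by
    refine Finset.sum_congr rfl fun w _ => ?_
    simp only [smul_eq_mul]; linear_combination (-(h w * k w)) * e w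
  have e2 : ∀ h : M → ℝ, (pair α fun w => h w ^ 2) = ∑ w ∈ α.coeff.support,
      (Real.sqrt (α.coeff w) * h w) ^ 2 := by
    intro h
    refine Finset.sum_congr rfl fun w _ => ?_
    simp only [smul_eq_mul]; linear_combination (-(h w ^ 2)) * e w
  rw [e1, e2, e2]
  exact this

theorem norm_pair_le {E : Type*} [SeminormedAddCommGroup E] [NormedSpace ℝ E] {α : Alg M}
    (hα : Nonneg α) (h : M → E) : ‖pair α h‖ ≤ pair α fun w => ‖h w‖ := by
  refine (norm_sum_le _ _).trans (Finset.sum_le_sum fun w _ => ?_)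
  rw [norm_smul, Real.norm_eq_abs, abs_of_nonneg (hα w), smul_eq_mul]

theorem norm_pair_sq_le {E : Type*} [SeminormedAddCommGroup E] [NormedSpace ℝ E] {α : Alg M}
    (hα : Nonneg α) (h : M → E) : ‖pair α h‖ ^ 2 ≤ mass α * pair α fun w => ‖h w‖ ^ 2 := by
  have h1 := norm_pair_le hα h
  have h2 := pair_mul_sq_le hα (fun _ => 1) (fun w => ‖h w‖)
  simp only [one_mul, one_pow] at h2
  exact (pow_le_pow_left₀ (norm_nonneg _) h1 2).trans h2

/-! ### The l1 norm -/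

noncomputable def nrm (γ : Alg M) : ℝ := ∑ w ∈ γ.coeff.support, |γ.coeff w|

theorem abs_pair_le_nrm (γ : Alg M) {h : M → ℝ} {C : ℝ} (hC : ∀ w, |h w| ≤ C) :
    |pair γ h| ≤ C * nrm γ := by
  unfold pair nrm
  rw [Finset.mul_sum]
  refine (Finset.abs_sum_le_sum_abs _ _).trans (Finset.sum_le_sum fun w _ => ?_)
  rw [smul_eq_mul, abs_mul, mul_comm]
  exact mul_le_mul_of_nonneg_right (hC w) (abs_nonneg _)

theorem nrm_le_of_pair {γ : Alg M} {ζ : ℝ}
    (h : ∀ k : M → ℝ, (∀ w, |k w| ≤ 1) → pair γ k ≤ ζ) : nrm γ ≤ ζ := by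
  have := h (fun w => if 0 ≤ γ.coeff w then 1 else -1) fun w => by split_ifs <;> simp
  refine le_trans (le_of_eq ?_) this
  refine Finset.sum_congr rfl fun w _ => ?_
  simp only
  split_ifs with h0
  · simp [abs_of_nonneg h0]
  · simp [abs_of_neg (not_le.mp h0)]

theorem pair_le_nrm (γ : Alg M) {h : M → ℝ} (hC : ∀ w, |h w| ≤ 1) : pair γ h ≤ nrm γ := by
  have := abs_pair_le_nrm γ hC
  rw [one_mul] at this
  exact (le_abs_self _).trans this

noncomputable instance algSeminormedAddCommGroup : SeminormedAddCommGroup (Alg M) :=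
  AddGroupSeminorm.toSeminormedAddCommGroup
    { toFun := nrm
      map_zero' := by simp [nrm]
      add_le' := fun α β => nrm_le_of_pair fun k hk => by
        rw [pair_add_left]; exact add_le_add (pair_le_nrm _ hk) (pair_le_nrm _ hk)
      neg' := fun α => by simp [nrm] }

theorem norm_eq_nrm (γ : Alg M) : ‖γ‖ = nrm γ := rfl

theorem abs_pair_le (γ : Alg M) {h : M → ℝ} {C : ℝ} (hC : ∀ w, |h w| ≤ C) :
    |pair γ h| ≤ C * ‖γ‖ := abs_pair_le_nrm γ hC

theorem pair_le_norm (γ : Alg M) {h : M → ℝ} (hC : ∀ w, |h w| ≤ 1) : pair γ h ≤ ‖γ‖ :=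
  pair_le_nrm γ hC

theorem norm_le_of_pair {γ : Alg M} {ζ : ℝ}
    (h : ∀ k : M → ℝ, (∀ w, |k w| ≤ 1) → pair γ k ≤ ζ) : ‖γ‖ ≤ ζ := nrm_le_of_pair h

noncomputable instance algSeminormedRing [Monoid M] : SeminormedRing (Alg M) :=
  { (inferInstance : SeminormedAddCommGroup (Alg M)), (inferInstance : Ring (Alg M)) with
    norm_mul_le := fun α β => norm_le_of_pair fun k hk => by
      rw [pair_mul, mul_comm]
      refine (le_abs_self _).trans (abs_pair_le α fun w => ?_)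
      simpa using abs_pair_le β (C := 1) fun o => hk (w * o) }

noncomputable instance algNormedSpace : NormedSpace ℝ (Alg M) where
  norm_smul_le c α := norm_le_of_pair fun k hk => by
    rw [pair_smul_left, smul_eq_mul]
    refine (le_abs_self _).trans ?_
    rw [abs_mul, Real.norm_eq_abs]
    exact mul_le_mul_of_nonneg_left (by simpa using abs_pair_le α hk) (abs_nonneg _)

theorem Nonneg.norm_eq {α : Alg M} (hα : Nonneg α) : ‖α‖ = mass α :=
  Finset.sum_congr rfl fun w _ => by simp [abs_of_nonneg (hα w)]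

theorem Prob.norm_eq {α : Alg M} (hα : Prob α) : ‖α‖ = 1 := hα.nonneg.norm_eq.trans hα.mass_eq

theorem abs_mass_le (α : Alg M) : |mass α| ≤ ‖α‖ := by
  simpa [mass] using abs_pair_le α (h := fun _ => 1) (C := 1) fun _ => by simp

theorem Prob.norm_mul_le [Monoid M] {α : Alg M} (hα : Prob α) (γ : Alg M) : ‖α * γ‖ ≤ ‖γ‖ := by
  simpa [hα.norm_eq] using _root_.norm_mul_le α γ

theorem Prob.norm_mul_le' [Monoid M] {α : Alg M} (hα : Prob α) (γ : Alg M) : ‖γ * α‖ ≤ ‖γ‖ := by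
  simpa [hα.norm_eq] using _root_.norm_mul_le γ α

/-! ### Domination -/

def Bd (γ ρ : Alg M) : Prop := ∀ w, |γ.coeff w| ≤ ρ.coeff w

theorem Bd.nonneg {γ ρ : Alg M} (h : Bd γ ρ) : Nonneg ρ := fun w => (abs_nonneg _).trans (h w)

theorem Nonneg.bd {α : Alg M} (h : Nonneg α) : Bd α α := fun w => (abs_of_nonneg (h w)).le

theorem bd_zero {ρ : Alg M} (h : Nonneg ρ) : Bd 0 ρ := fun w => by simpa using h w

theorem Bd.norm_pair_le {E : Type*} [SeminormedAddCommGroup E] [NormedSpace ℝ E] {γ ρ : Alg M}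
    (h : Bd γ ρ) (k : M → E) : ‖pair γ k‖ ≤ pair ρ fun w => ‖k w‖ := by
  classical
  rw [pair_eq_sum γ _ (γ.coeff.support ∪ ρ.coeff.support) Finset.subset_union_left,
    pair_eq_sum ρ _ (γ.coeff.support ∪ ρ.coeff.support) Finset.subset_union_right]
  refine (norm_sum_le _ _).trans (Finset.sum_le_sum fun w _ => ?_)
  rw [norm_smul, Real.norm_eq_abs, smul_eq_mul]
  exact mul_le_mul_of_nonneg_right (h w) (norm_nonneg _)

theorem Bd.abs_pair_le {γ ρ : Alg M} (h : Bd γ ρ) (k : M → ℝ) :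
    |pair γ k| ≤ pair ρ fun w => |k w| := h.norm_pair_le k

theorem bd_of_pair {γ ρ : Alg M} (h : ∀ k : M → ℝ, |pair γ k| ≤ pair ρ fun w => |k w|) :
    Bd γ ρ := by
  classical
  intro u
  rw [coeff_eq_pair, coeff_eq_pair ρ]
  refine (h _).trans (le_of_eq ?_)
  congr 1; ext w; split_ifs <;> simp

theorem Bd.mul [Monoid M] {γ₁ ρ₁ γ₂ ρ₂ : Alg M} (h₁ : Bd γ₁ ρ₁) (h₂ : Bd γ₂ ρ₂) :
    Bd (γ₁ * γ₂) (ρ₁ * ρ₂) :=
  bd_of_pair fun k => by
    rw [pair_mul, pair_mul]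
    exact (h₁.abs_pair_le _).trans (pair_mono h₁.nonneg fun w => h₂.abs_pair_le _)

theorem Bd.add {γ₁ ρ₁ γ₂ ρ₂ : Alg M} (h₁ : Bd γ₁ ρ₁) (h₂ : Bd γ₂ ρ₂) :
    Bd (γ₁ + γ₂) (ρ₁ + ρ₂) := fun w => by
  simpa using (abs_add_le _ _).trans (add_le_add (h₁ w) (h₂ w))

theorem Bd.neg {γ ρ : Alg M} (h : Bd γ ρ) : Bd (-γ) ρ := fun w => by simpa using h w

theorem Bd.sub {γ₁ ρ₁ γ₂ ρ₂ : Alg M} (h₁ : Bd γ₁ ρ₁) (h₂ : Bd γ₂ ρ₂) :
    Bd (γ₁ - γ₂) (ρ₁ + ρ₂) := by
  rw [sub_eq_add_neg]; exact h₁.add h₂.neg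

theorem Bd.smul {γ ρ : Alg M} (h : Bd γ ρ) {c : ℝ} (hc : 0 ≤ c) : Bd (c • γ) (c • ρ) := fun w => by
  simpa [abs_mul, abs_of_nonneg hc] using mul_le_mul_of_nonneg_left (h w) hc

theorem Bd.trans {γ ρ₁ ρ₂ : Alg M} (h₁ : Bd γ ρ₁) (h₂ : Bd ρ₁ ρ₂) : Bd γ ρ₂ :=
  fun w => (h₁ w).trans ((le_abs_self _).trans (h₂ w))

theorem Bd.mono {γ ρ : Alg M} {a b : ℝ} (h : Bd γ (a • ρ)) (hρ : Nonneg ρ) (hab : a ≤ b) :
    Bd γ (b • ρ) := fun w => by
  have := h w
  simp only [MonoidAlgebra.coeff_smul, Finsupp.smul_apply, smul_eq_mul] at this ⊢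
  exact this.trans (mul_le_mul_of_nonneg_right hab (hρ w))

theorem Bd.norm_le {γ ρ : Alg M} (h : Bd γ ρ) : ‖γ‖ ≤ mass ρ :=
  norm_le_of_pair fun k hk =>
    (le_abs_self _).trans ((h.abs_pair_le k).trans (pair_mono h.nonneg hk))

theorem Bd.norm_le_of_prob {γ ρ : Alg M} {a : ℝ} (h : Bd γ (a • ρ)) (hρ : Prob ρ) : ‖γ‖ ≤ a := by
  simpa [mass_smul, hρ.mass_eq] using h.norm_le

/-- products with scalar weights -/
theorem Bd.mul_smul [Monoid M] {γ₁ ρ₁ γ₂ ρ₂ : Alg M} {a b : ℝ} (h₁ : Bd γ₁ (a • ρ₁))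
    (h₂ : Bd γ₂ (b • ρ₂)) : Bd (γ₁ * γ₂) ((a * b) • (ρ₁ * ρ₂)) := by
  have := h₁.mul h₂
  rwa [smul_mul_smul_comm] at this

theorem Bd.mul_left [Monoid M] {γ ρ α : Alg M} {a : ℝ} (h : Bd γ (a • ρ)) (hα : Nonneg α) :
    Bd (α * γ) (a • (α * ρ)) := by
  have := hα.bd.mul h
  rwa [mul_smul_comm] at this

theorem Bd.mul_right [Monoid M] {γ ρ α : Alg M} {a : ℝ} (h : Bd γ (a • ρ)) (hα : Nonneg α) :
    Bd (γ * α) (a • (ρ * α)) := by
  have := h.mul hα.bd
  rwa [smul_mul_assoc] at this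

theorem Bd.add_smul {γ₁ γ₂ ρ : Alg M} {a b : ℝ} (h₁ : Bd γ₁ (a • ρ)) (h₂ : Bd γ₂ (b • ρ)) :
    Bd (γ₁ + γ₂) ((a + b) • ρ) := by
  rw [_root_.add_smul]; exact h₁.add h₂

/-- If `α` is within `a ≤ 1/2` of `ρ`, then `ρ ≤ 2 α`. -/
theorem Bd.rev {α ρ : Alg M} (h : Bd (α - ρ) ((1 / 2 : ℝ) • ρ)) : Bd ρ ((2 : ℝ) • α) := fun w => by
  have := h w
  simp only [MonoidAlgebra.coeff_smul, Finsupp.smul_apply, smul_eq_mul, MonoidAlgebra.coeff_sub,
    Finsupp.sub_apply] at this ⊢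
  have h0 := abs_nonneg (α.coeff w - ρ.coeff w)
  have h1 := abs_le.mp this
  rw [abs_le]; constructor <;> linarith

theorem Bd.of_sub {α ρ : Alg M} {a : ℝ} (h : Bd (α - ρ) (a • ρ)) (hρ : Nonneg ρ) :
    Bd α ((1 + a) • ρ) := by
  have := Bd.add_smul (a := 1) (by simpa using hρ.bd) h
  simpa using this

theorem Bd.nonneg_of_sub {α ρ : Alg M} {a : ℝ} (h : Bd (α - ρ) (a • ρ)) (hρ : Nonneg ρ)
    (ha : a ≤ 1) : Nonneg α := fun w => by
  have := h w
  simp only [MonoidAlgebra.coeff_smul, Finsupp.smul_apply, smul_eq_mul, MonoidAlgebra.coeff_sub,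
    Finsupp.sub_apply] at this
  have h1 := abs_le.mp this
  nlinarith [hρ w]

/-- pointwise multiplication by a density -/
noncomputable def dens (φ : M → ℝ) (ρ : Alg M) : Alg M :=
  MonoidAlgebra.ofCoeff (Finsupp.onFinset ρ.coeff.support (fun w => ρ.coeff w * φ w)
    fun w hw => Finsupp.mem_support_iff.mpr fun h => hw (by simp [h]))

@[simp] theorem dens_coeff (φ : M → ℝ) (ρ : Alg M) (w : M) :
    (dens φ ρ).coeff w = ρ.coeff w * φ w := rfl

theorem pair_dens {E : Type*} [AddCommGroup E] [Module ℝ E] (φ : M → ℝ) (ρ : Alg M) (h : M → E) :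
    pair (dens φ ρ) h = pair ρ fun w => φ w • h w := by
  have hs : (dens φ ρ).coeff.support ⊆ ρ.coeff.support := fun w hw =>
    Finsupp.mem_support_iff.mpr fun h0 => Finsupp.mem_support_iff.mp hw (by simp [h0])
  rw [pair_eq_sum (dens φ ρ) _ ρ.coeff.support hs]
  exact Finset.sum_congr rfl fun w _ => by rw [dens_coeff, smul_smul]

theorem eq_dens_of_ac {γ ρ : Alg M} (h : ∀ w, ρ.coeff w = 0 → γ.coeff w = 0) :
    γ = dens (fun w => γ.coeff w / ρ.coeff w) ρ := by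
  apply MonoidAlgebra.coeff_injective
  ext w
  rw [dens_coeff]
  by_cases h0 : ρ.coeff w = 0
  · simp [h0, h w h0]
  · field_simp

theorem Bd.exists_dens {γ ρ : Alg M} (h : Bd γ ρ) :
    ∃ φ : M → ℝ, (∀ w, |φ w| ≤ 1) ∧ γ = dens φ ρ := by
  refine ⟨fun w => γ.coeff w / ρ.coeff w, fun w => ?_, eq_dens_of_ac fun w h0 => ?_⟩
  · rw [abs_div, abs_of_nonneg (h.nonneg w)]
    exact div_le_one_of_le₀ (h w) (h.nonneg w)
  · have := h w
    rw [h0] at this
    exact abs_nonpos_iff.mp this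

def Dom (γ ρ : Alg M) (ζ : ℝ) : Prop := ∃ γ', Bd γ' ρ ∧ ‖γ - γ'‖ ≤ ζ

theorem Bd.dom {γ ρ : Alg M} (h : Bd γ ρ) : Dom γ ρ 0 := ⟨γ, h, by simp⟩

theorem Dom.nonneg {γ ρ : Alg M} {ζ : ℝ} (h : Dom γ ρ ζ) : Nonneg ρ := h.choose_spec.1.nonneg

theorem Dom.err_nonneg {γ ρ : Alg M} {ζ : ℝ} (h : Dom γ ρ ζ) : 0 ≤ ζ :=
  (norm_nonneg _).trans h.choose_spec.2

theorem Dom.pair_le {γ ρ : Alg M} {ζ : ℝ} (h : Dom γ ρ ζ) {k : M → ℝ} (hk : ∀ w, |k w| ≤ 1) :
    pair γ k ≤ pair ρ (fun w => |k w|) + ζ := by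
  obtain ⟨γ', h1, h2⟩ := h
  have h3 := (pair_le_norm (γ - γ') hk).trans h2
  rw [pair_sub_left] at h3
  have h4 := (le_abs_self _).trans (h1.abs_pair_le k)
  linarith

theorem dom_of_pair {γ ρ : Alg M} {ζ : ℝ} (hρ : Nonneg ρ)
    (h : ∀ k : M → ℝ, (∀ w, |k w| ≤ 1) → pair γ k ≤ pair ρ (fun w => |k w|) + ζ) : Dom γ ρ ζ := by
  classical
  let φ : M → ℝ := fun w => if |γ.coeff w| ≤ ρ.coeff w then 1 else ρ.coeff w / |γ.coeff w|
  refine ⟨dens φ γ, fun w => ?_, ?_⟩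
  · rw [dens_coeff]
    simp only [φ]
    split_ifs with h0
    · simpa using h0
    · have h1 : 0 < |γ.coeff w| := lt_of_le_of_lt (hρ w) (not_le.mp h0)
      rw [abs_mul, abs_div, abs_abs, abs_of_nonneg (hρ w), mul_div_cancel₀ _ h1.ne']
  · let k : M → ℝ := fun w =>
      if |γ.coeff w| ≤ ρ.coeff w then 0 else if 0 ≤ γ.coeff w then 1 else -1
    have hk := h k fun w => by simp only [k]; split_ifs <;> simp
    let S := γ.coeff.support ∪ ρ.coeff.support
    rw [pair_eq_sum γ _ S Finset.subset_union_left,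
      pair_eq_sum ρ _ S Finset.subset_union_right, ← sub_le_iff_le_add',
      ← Finset.sum_sub_distrib] at hk
    refine le_trans (le_of_eq ?_) hk
    have hsub : (γ - dens φ γ).coeff.support ⊆ S := by
      intro w hw
      refine Finset.mem_union_left _ (Finsupp.mem_support_iff.mpr fun h0 => ?_)
      exact Finsupp.mem_support_iff.mp hw (by simp [h0])
    rw [norm_eq_nrm, nrm, Finset.sum_subset hsub fun w _ hw => by
      rw [Finsupp.notMem_support_iff.mp hw, abs_zero]]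
    refine Finset.sum_congr rfl fun w _ => ?_
    simp only [MonoidAlgebra.coeff_sub, Finsupp.sub_apply, dens_coeff, φ, k, smul_eq_mul]
    split_ifs with h0 h1
    · simp
    · have h2 : ρ.coeff w < γ.coeff w := by
        rw [abs_of_nonneg h1] at h0; exact not_le.mp h0
      have h3 : 0 < γ.coeff w := lt_of_le_of_lt (hρ w) h2
      rw [abs_of_nonneg h1, mul_div_cancel₀ _ h3.ne', abs_of_pos (by linarith)]
      simp
    · have h1' := not_le.mp h1
      rw [abs_of_neg h1'] at h0 ⊢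
      have h2 := not_le.mp h0
      have h3 : γ.coeff w * (ρ.coeff w / -γ.coeff w) = -ρ.coeff w := by
        field_simp [h1'.ne]
      rw [h3, abs_of_neg (by linarith)]
      simp
      ring

theorem Dom.of_norm_sub {γ γ' ρ : Alg M} {ζ ζ' : ℝ} (h : Dom γ' ρ ζ) (h' : ‖γ - γ'‖ ≤ ζ') :
    Dom γ ρ (ζ + ζ') := by
  obtain ⟨γ'', h1, h2⟩ := h
  refine ⟨γ'', h1, ?_⟩
  calc ‖γ - γ''‖ = ‖(γ' - γ'') + (γ - γ')‖ := by congr 1; abel
    _ ≤ _ := (norm_add_le _ _).trans (add_le_add h2 h')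

theorem Dom.mono_err {γ ρ : Alg M} {ζ ζ' : ℝ} (h : Dom γ ρ ζ) (h' : ζ ≤ ζ') : Dom γ ρ ζ' := by
  obtain ⟨γ', h1, h2⟩ := h
  exact ⟨γ', h1, h2.trans h'⟩

theorem Dom.trans_bd {γ ρ₁ ρ₂ : Alg M} {ζ : ℝ} (h : Dom γ ρ₁ ζ) (h' : Bd ρ₁ ρ₂) : Dom γ ρ₂ ζ := by
  obtain ⟨γ', h1, h2⟩ := h
  exact ⟨γ', h1.trans h', h2⟩

theorem Dom.mono {γ ρ : Alg M} {a b ζ : ℝ} (h : Dom γ (a • ρ) ζ) (hρ : Nonneg ρ) (hab : a ≤ b) :
    Dom γ (b • ρ) ζ := by
  obtain ⟨γ', h1, h2⟩ := h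
  exact ⟨γ', h1.mono hρ hab, h2⟩

theorem Dom.trans {γ ρ₁ ρ₂ : Alg M} {ζ ζ' : ℝ} (h : Dom γ ρ₁ ζ) (h' : Dom ρ₁ ρ₂ ζ') :
    Dom γ ρ₂ (ζ + ζ') :=
  dom_of_pair h'.nonneg fun k hk => by
    have h1 := h.pair_le hk
    have h2 := h'.pair_le (k := fun w => |k w|) fun w => by simpa using hk w
    simp only [abs_abs] at h2
    linarith

theorem Dom.add {γ₁ ρ₁ γ₂ ρ₂ : Alg M} {ζ₁ ζ₂ : ℝ} (h₁ : Dom γ₁ ρ₁ ζ₁) (h₂ : Dom γ₂ ρ₂ ζ₂) :
    Dom (γ₁ + γ₂) (ρ₁ + ρ₂) (ζ₁ + ζ₂) := by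
  obtain ⟨a, ha1, ha2⟩ := h₁
  obtain ⟨b, hb1, hb2⟩ := h₂
  refine ⟨a + b, ha1.add hb1, ?_⟩
  calc ‖γ₁ + γ₂ - (a + b)‖ = ‖(γ₁ - a) + (γ₂ - b)‖ := by congr 1; abel
    _ ≤ _ := (norm_add_le _ _).trans (add_le_add ha2 hb2)

theorem Dom.neg {γ ρ : Alg M} {ζ : ℝ} (h : Dom γ ρ ζ) : Dom (-γ) ρ ζ := by
  obtain ⟨a, ha1, ha2⟩ := h
  refine ⟨-a, ha1.neg, ?_⟩
  rw [← norm_neg, show -(-γ - -a) = γ - a by abel]; exact ha2

theorem Dom.add_smul {γ₁ γ₂ ρ : Alg M} {a b ζ₁ ζ₂ : ℝ} (h₁ : Dom γ₁ (a • ρ) ζ₁)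
    (h₂ : Dom γ₂ (b • ρ) ζ₂) : Dom (γ₁ + γ₂) ((a + b) • ρ) (ζ₁ + ζ₂) := by
  rw [_root_.add_smul]; exact h₁.add h₂

theorem Dom.sub_smul {γ₁ γ₂ ρ : Alg M} {a b ζ₁ ζ₂ : ℝ} (h₁ : Dom γ₁ (a • ρ) ζ₁)
    (h₂ : Dom γ₂ (b • ρ) ζ₂) : Dom (γ₁ - γ₂) ((a + b) • ρ) (ζ₁ + ζ₂) := by
  rw [sub_eq_add_neg]; exact h₁.add_smul h₂.neg

theorem Dom.smul {γ ρ : Alg M} {ζ c : ℝ} (h : Dom γ ρ ζ) (hc : 0 ≤ c) :
    Dom (c • γ) (c • ρ) (c * ζ) := by
  obtain ⟨a, ha1, ha2⟩ := h
  refine ⟨c • a, ha1.smul hc, ?_⟩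
  rw [← smul_sub, norm_smul, Real.norm_eq_abs, abs_of_nonneg hc]
  exact mul_le_mul_of_nonneg_left ha2 hc

theorem Dom.mul_left [Monoid M] {γ ρ α : Alg M} {a ζ : ℝ} (h : Dom γ (a • ρ) ζ) (hα : Prob α) :
    Dom (α * γ) (a • (α * ρ)) ζ := by
  obtain ⟨γ', h1, h2⟩ := h
  refine ⟨α * γ', h1.mul_left hα.nonneg, ?_⟩
  rw [← mul_sub]; exact (hα.norm_mul_le _).trans h2

theorem Dom.mul_right [Monoid M] {γ ρ α : Alg M} {a ζ : ℝ} (h : Dom γ (a • ρ) ζ) (hα : Prob α) :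
    Dom (γ * α) (a • (ρ * α)) ζ := by
  obtain ⟨γ', h1, h2⟩ := h
  refine ⟨γ' * α, h1.mul_right hα.nonneg, ?_⟩
  rw [← sub_mul]; exact (hα.norm_mul_le' _).trans h2

theorem Dom.norm_le {γ ρ : Alg M} {a ζ : ℝ} (h : Dom γ (a • ρ) ζ) (hρ : Prob ρ) :
    ‖γ‖ ≤ a + ζ := by
  obtain ⟨γ', h1, h2⟩ := h
  calc ‖γ‖ = ‖γ' + (γ - γ')‖ := by congr 1; abel
    _ ≤ _ := (norm_add_le _ _).trans (add_le_add (h1.norm_le_of_prob hρ) h2)

/-- Truncation keeping total mass zero. -/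
theorem Dom.exists_mass_zero {γ ρ : Alg M} {a ζ : ℝ} (h : Dom γ (a • ρ) ζ) (hρ : Prob ρ)
    (hγ : mass γ = 0) : ∃ γ', Bd γ' ((2 * a) • ρ) ∧ mass γ' = 0 ∧ ‖γ - γ'‖ ≤ 2 * ζ := by
  obtain ⟨γ', h1, h2⟩ := h
  have hm1 : |mass γ'| ≤ a := (abs_mass_le _).trans (h1.norm_le_of_prob hρ)
  have hm2 : |mass γ'| ≤ ζ := by
    have := (abs_mass_le _).trans h2
    rwa [mass_sub, hγ, zero_sub, abs_neg] at this
  refine ⟨γ' - mass γ' • ρ, ?_, ?_, ?_⟩
  · have h3 : Bd (mass γ' • ρ) (a • ρ) := fun w => by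
      simp only [MonoidAlgebra.coeff_smul, Finsupp.smul_apply, smul_eq_mul]
      rw [abs_mul, abs_of_nonneg (hρ.nonneg w)]
      exact mul_le_mul_of_nonneg_right hm1 (hρ.nonneg w)
    rw [two_mul, _root_.add_smul]
    exact h1.sub h3
  · rw [mass_sub, mass_smul, hρ.mass_eq]; ring
  · calc ‖γ - (γ' - mass γ' • ρ)‖ = ‖(γ - γ') + mass γ' • ρ‖ := by congr 1; abel
      _ ≤ ‖γ - γ'‖ + ‖mass γ' • ρ‖ := norm_add_le _ _
      _ ≤ ζ + ζ := by
        rw [norm_smul, hρ.norm_eq, mul_one]; exact add_le_add h2 hm2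
      _ = 2 * ζ := by ring

/-! ### Overlap -/

/-- The common part of two nonnegative elements. -/
theorem exists_common {α β : Alg M} (hα : Nonneg α) (hβ : Nonneg β) :
    ∃ ν, Nonneg ν ∧ Nonneg (α - ν) ∧ Nonneg (β - ν) ∧
      2 * mass ν = mass α + mass β - ‖α - β‖ ∧
      ∀ w, ν.coeff w = min (α.coeff w) (β.coeff w) := by
  classical
  let ν : Alg M := MonoidAlgebra.ofCoeff (Finsupp.zipWith min (by simp) α.coeff β.coeff)
  have hν : ∀ w, ν.coeff w = min (α.coeff w) (β.coeff w) := fun w => rfl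
  have h1 : Nonneg (α - ν) := fun w => by simp [hν]
  have h2 : Nonneg (β - ν) := fun w => by simp [hν]
  refine ⟨ν, fun w => by rw [hν]; exact le_min (hα w) (hβ w), h1, h2, ?_, hν⟩
  have h3 : ‖α - β‖ = ‖(α - ν) + (β - ν)‖ := by
    let S := α.coeff.support ∪ β.coeff.support
    have hS : ∀ γ : Alg M, (∀ w, α.coeff w = 0 → β.coeff w = 0 → γ.coeff w = 0) →
        ‖γ‖ = ∑ w ∈ S, |γ.coeff w| := by
      intro γ hγ
      rw [norm_eq_nrm, nrm]
      refine Finset.sum_subset (fun w hw => ?_) fun w _ hw => by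
        rw [Finsupp.notMem_support_iff.mp hw, abs_zero]
      by_contra hc
      simp only [S, Finset.mem_union, Finsupp.mem_support_iff, not_or, not_not] at hc
      exact Finsupp.mem_support_iff.mp hw (hγ w hc.1 hc.2)
    rw [hS _ fun w h1 h2 => by simp [h1, h2], hS _ fun w h1 h2 => by simp [hν, h1, h2]]
    refine Finset.sum_congr rfl fun w _ => ?_
    simp only [MonoidAlgebra.coeff_sub, MonoidAlgebra.coeff_add, Finsupp.sub_apply,
      Finsupp.add_apply, hν]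
    rcases le_total (α.coeff w) (β.coeff w) with h | h
    · rw [min_eq_left h, abs_sub_comm]; congr 1; ring
    · rw [min_eq_right h]; congr 1; ring
  rw [h3, (h1.add h2).norm_eq, mass_add, mass_sub, mass_sub]
  ring

theorem norm_sub_le_of_common {α β ν : Alg M} (h1 : Nonneg (α - ν)) (h2 : Nonneg (β - ν)) :
    ‖α - β‖ ≤ mass α + mass β - 2 * mass ν := by
  calc ‖α - β‖ = ‖(α - ν) - (β - ν)‖ := by congr 1; abel
    _ ≤ ‖α - ν‖ + ‖β - ν‖ := norm_sub_le _ _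
    _ = _ := by rw [h1.norm_eq, h2.norm_eq, mass_sub, mass_sub]; ring

theorem overlap_mul [Monoid M] {α₁ β₁ α₂ β₂ : Alg M} (ha₁ : Prob α₁) (hb₁ : Prob β₁)
    (ha₂ : Prob α₂) (hb₂ : Prob β₂) {e₁ e₂ : ℝ} (he₂ : 0 ≤ e₂)
    (h₁ : ‖α₁ - β₁‖ ≤ 2 - 2 * e₁) (h₂ : ‖α₂ - β₂‖ ≤ 2 - 2 * e₂) :
    ‖α₁ * α₂ - β₁ * β₂‖ ≤ 2 - 2 * (e₁ * e₂) := by
  obtain ⟨ν₁, n1, a1, b1, m1, -⟩ := exists_common ha₁.nonneg hb₁.nonneg
  obtain ⟨ν₂, n2, a2, b2, m2, -⟩ := exists_common ha₂.nonneg hb₂.nonneg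
  rw [ha₁.mass_eq, hb₁.mass_eq] at m1
  rw [ha₂.mass_eq, hb₂.mass_eq] at m2
  have hA : Nonneg (α₁ * α₂ - ν₁ * ν₂) := by
    have := (a1.mul ha₂.nonneg).add (n1.mul a2)
    convert this using 1; noncomm_ring
  have hB : Nonneg (β₁ * β₂ - ν₁ * ν₂) := by
    have := (b1.mul hb₂.nonneg).add (n1.mul b2)
    convert this using 1; noncomm_ring
  refine (norm_sub_le_of_common hA hB).trans ?_
  rw [(ha₁.mul ha₂).mass_eq, (hb₁.mul hb₂).mass_eq, mass_mul]
  have : e₁ * e₂ ≤ mass ν₁ * mass ν₂ :=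
    mul_le_mul (by linarith) (by linarith) he₂ n1.mass_nonneg
  linarith

end Vale.Agent.P321
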