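import Vale.Agent.P321.Lattice

/-! The lattice lemma, part two: closing the recursion. -/

open Finset

namespace Vale.Agent.P321

variable {M : Type*} [Monoid M]

structure Walk (s : Alg M) (N : ℕ) [NeZero N] (Z : ZMod N → ℕ → Alg M) (T : ℝ) : Prop where
  zero : ∀ P, Z P 0 = 1
  add : ∀ P n m, Z P (n + m) = Z P n * Z (P + n) m
  prob : ∀ P n, Prob (Z P n)
  bes : ∀ n ≤ N, ∀ h : M → ℝ,
    ∑ r, (pair (Z r n - s ^ n) h) ^ 2 ≤ T * pair (s ^ n) fun w => h w ^ 2

noncomputable def uu (U : Alg NN) (i : ℕ) : ℤ → ℝ := cv (U ^ i) fun m => if m = 0 then 1 else 0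

theorem uu_neg (U : Alg NN) (i : ℕ) (n : ℤ) (hn : n < 0) : uu U i n = 0 :=
  cv_neg _ (fun m hm => if_neg hm.ne) n hn

theorem uu_succ (U : Alg NN) (i : ℕ) (n : ℤ) :
    uu U (i + 1) n = pair U fun c => uu U i (n - (c.toAdd : ℕ)) := by
  rw [uu, pow_succ, cv_mul]; rfl

theorem uu_nonneg {U : Alg NN} (hU : Prob U) (i : ℕ) (n : ℤ) : 0 ≤ uu U i n :=
  pair_nonneg (hU.pow i).nonneg fun _ => by dsimp only; split_ifs <;> norm_num

theorem sum_uu_le {U : Alg NN} (hU : Prob U) (i L : ℕ) : ∑ n ∈ range L, uu U i n ≤ 1 := by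
  refine (sum_cv_le (hU.pow i) (fun _ => by split_ifs <;> norm_num)
    (fun m hm => if_neg hm.ne) L).trans ?_
  simp only [Nat.cast_eq_zero, Finset.sum_ite_eq', Finset.mem_range]
  split_ifs <;> norm_num

theorem pair_smul_const {M N : Type*} (U : Alg N) (f : N → ℝ) (γ : Alg M) :
    pair U f • γ = pair U fun c => f c • γ :=
  pair_map (LinearMap.toSpanSingleton ℝ (Alg M) γ) U f

noncomputable def XX {N : ℕ} (s : Alg M) (Z : ZMod N → ℕ → Alg M) (φ : ZMod N) (U : Alg NN)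
    (a : ℕ) (κ : ℝ) (i : ℕ) (n : ℤ) : Alg M :=
  uu U i n • (Z φ (i * a + n.toNat) - κ • s ^ (i * a + n.toNat))

variable {N : ℕ} [NeZero N] {s : Alg M} {Z : ZMod N → ℕ → Alg M} {T : ℝ}

theorem XX_succ (hZ : Walk s N Z T) (φ : ZMod N) (U : Alg NN) (a : ℕ) (κ : ℝ) (i : ℕ) (j : ℤ) :
    XX s Z φ U a κ (i + 1) j = pair U fun c =>
      XX s Z φ U a κ i (j - (c.toAdd : ℕ)) * s ^ (a + c.toAdd)
      + XX s Z φ U a 0 i (j - (c.toAdd : ℕ))
        * (Z (φ + (i * a : ℕ) + ((j - (c.toAdd : ℕ) : ℤ) : ZMod N)) (a + c.toAdd)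
          - s ^ (a + c.toAdd)) := by
  rw [XX, uu_succ, pair_smul_const]
  refine congrArg _ (funext fun c => ?_)
  generalize (c.toAdd : ℕ) = c
  rcases lt_or_ge (j - c) 0 with h | h
  · simp [XX, uu_neg U i _ h]
  · obtain ⟨p, hp⟩ := Int.eq_ofNat_of_zero_le h
    have e1 : j.toNat = p + c := by omega
    have e2 : (i + 1) * a + (p + c) = (i * a + p) + (a + c) := by ring
    simp only [XX, hp, Int.toNat_natCast, e1, e2, zero_smul, sub_zero, Int.cast_natCast]
    rw [hZ.add φ (i * a + p), pow_add s (i * a + p), smul_mul_assoc, smul_mul_assoc, ← smul_add]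
    congr 1
    rw [Nat.cast_add (i * a) p, ← add_assoc, sub_mul, smul_mul_assoc, mul_sub]
    abel

theorem core_step (hs : Prob s) (hZ : Walk s N Z T) (hT : 0 ≤ T) (φ : ZMod N) {U : Alg NN}
    (hU : Prob U) {a : ℕ} {ν : Alg M} (hν : Nonneg ν) (hν1 : 1 / 2 ≤ mass ν)
    (hν2 : ∀ c, U.coeff c ≠ 0 → Nonneg (s ^ (a + c.toAdd) - ν))
    (ha : ∀ c, U.coeff c ≠ 0 → a + c.toAdd ≤ N) {α : Alg NN} (hα : Prob α) {m : ℝ} (hm0 : 0 ≤ m)
    (hm : ∀ r : ZMod N, (pair α fun Q => if ((Q.toAdd : ℕ) : ZMod N) = r then (1 : ℝ) else 0) ≤ m)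
    {ρ : Alg M} (hρ : Nonneg ρ) (κ : ℝ) (i : ℕ) (g : ℝ → ℤ → M → ℝ)
    (hg : ∀ κ n, XX s Z φ U a κ i n = dens (g κ n) ρ) (n : ℤ) :
    Chi (cv α (XX s Z φ U a κ (i + 1)) n) (ρ * pair U fun c => s ^ (a + c.toAdd))
      (pair ρ fun w => 1 / 4 * (cv (α * U) (fun j => g κ j w) n) ^ 2
        + 3 / 4 * (pair U fun c => (cv α (fun j => g κ j w) (n - (c.toAdd : ℕ))) ^ 2)
        + 3 * (T * m * pair U fun c => cv α (fun j => g 0 j w ^ 2) (n - (c.toAdd : ℕ)))) := by
  have hμ := prob_pair hU (f := fun c => s ^ (a + c.toAdd)) fun c => hs.pow _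
  have hcv : ∀ w n, 0 ≤ cv α (fun j => g 0 j w ^ 2) n :=
    fun w n => pair_nonneg hα.nonneg fun _ => sq_nonneg _
  have hBb : ∀ w, 0 ≤ T * m * pair U fun c => cv α (fun j => g 0 j w ^ 2) (n - (c.toAdd : ℕ)) :=
    fun w => mul_nonneg (mul_nonneg hT hm0) (pair_nonneg hU.nonneg fun c => hcv _ _)
  refine chi_bind hρ hμ.nonneg (fun w k =>
    (pair U fun c => cv α (fun j => g κ j w) (n - (c.toAdd : ℕ)) * pair (s ^ (a + c.toAdd)) k)
    + pair U fun c => cv α (fun j => g 0 j w *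
      pair (Z (φ + (i * a : ℕ) + j) (a + c.toAdd) - s ^ (a + c.toAdd)) k) (n - (c.toAdd : ℕ)))
    _ (fun w => ?_) (fun h => ?_) (fun w k => ?_)
  · have := pair_nonneg hU.nonneg
      (h := fun c => (cv α (fun j => g κ j w) (n - (c.toAdd : ℕ))) ^ 2) fun _ => sq_nonneg _
    have := hBb w
    positivity
  · simp only [cv, pair_pair, XX_succ hZ, pair_add_left, pair_mul, hg, pair_dens, smul_eq_mul,
      ← pair_right_mul α, pair_add_right]
    congr 1
    · rw [pair_comm α U]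
      simp only [pair_comm α ρ]
      rw [pair_comm U ρ]
      simp only [sub_right_comm]
    · rw [pair_comm α U]
      simp only [pair_comm α ρ]
      rw [pair_comm U ρ]
      simp only [sub_right_comm]
  · rw [cv_mul]
    refine stage hU (fun c => hs.pow _) hν hν1 hν2 _ k (hBb w) ?_
    generalize pair (pair U fun c : NN => s ^ (a + c.toAdd)) k = kb
    rw [pair_pair, ← pair_mul_right U (T * m)]
    refine pair_cs hU.nonneg (fun c => mul_nonneg (mul_nonneg hT hm0) (hcv _ _))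
      (fun c => pair_nonneg (hs.pow _).nonneg fun _ => sq_nonneg _) fun c hc => ?_
    have h1 := fold_bound hα.nonneg hm (fun j => g 0 j w)
      (fun r => pair (Z r (a + c.toAdd) - s ^ (a + c.toAdd)) k) (φ + (i * a : ℕ))
      (n - (c.toAdd : ℕ))
    refine h1.trans ?_
    have h2 := hZ.bes _ (ha c hc) fun o => k o - kb
    have h3 : ∀ r, mass (Z r (a + c.toAdd) - s ^ (a + c.toAdd)) = 0 := fun r => by
      rw [mass_sub, (hZ.prob _ _).mass_eq, (hs.pow _).mass_eq, sub_self]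
    simp only [pair_sub_const_of_mass_zero (h3 _)] at h2
    refine (mul_le_mul_of_nonneg_left h2 (mul_nonneg hm0 (hcv _ _))).trans (le_of_eq ?_)
    ring

theorem core (hs : Prob s) (hZ : Walk s N Z T) (hT : 0 ≤ T) (φ : ZMod N) {U : Alg NN}
    (hU : Prob U) {a : ℕ} {ν : Alg M} (hν : Nonneg ν) (hν1 : 1 / 2 ≤ mass ν)
    (hν2 : ∀ c, U.coeff c ≠ 0 → Nonneg (s ^ (a + c.toAdd) - ν))
    (ha : ∀ c, U.coeff c ≠ 0 → a + c.toAdd ≤ N) {m : ℕ → ℝ}
    (hm : ∀ F, ∀ r : ZMod N,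
      (pair (U ^ F) fun Q => if ((Q.toAdd : ℕ) : ZMod N) = r then (1 : ℝ) else 0) ≤ m F)
    {I : ℕ} (L : ℕ) {S : ℝ} (hS : ∑ F ∈ range I, m F ≤ S) (hTS : 24 * T * S ≤ 1) :
    ∑ i ∈ range I, ∑ P ∈ range L, (uu U i P) ^ 2 * ‖Z φ (i * a + P) - s ^ (i * a + P)‖ ^ 2
      ≤ 96 * T * S ^ 2 := by
  obtain ⟨μ, hμe⟩ : ∃ μ, μ = pair U fun c : NN => s ^ (a + c.toAdd) := ⟨_, rfl⟩
  have hμ : Prob μ := hμe ▸ prob_pair hU fun c => hs.pow _
  have hm0 : ∀ F, 0 ≤ m F := fun F =>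
    (pair_nonneg (hU.pow F).nonneg fun _ => by split_ifs <;> norm_num).trans (hm F 0)
  obtain ⟨g, hg⟩ : ∃ g : ℕ → ℝ → ℤ → M → ℝ,
    ∀ i κ n w, g i κ n w = (XX s Z φ U a κ i n).coeff w / (μ ^ i).coeff w := ⟨_, fun _ _ _ _ => rfl⟩
  have hgneg : ∀ i κ w n, n < 0 → g i κ n w = 0 := by
    intro i κ w n hn
    simp [hg, XX, uu_neg U i n hn]
  have hcvg : ∀ i κ (α : Alg NN) n w, cv α (fun j => g i κ j w) n
      = (cv α (XX s Z φ U a κ i) n).coeff w / (μ ^ i).coeff w := by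
    intro i κ α n w
    simp only [cv, coeff_pair, hg, div_eq_mul_inv, pair_right_mul]
  have hac : ∀ i κ n w, (μ ^ i).coeff w = 0 → (XX s Z φ U a κ i n).coeff w = 0 := by
    intro i
    induction i with
    | zero =>
      intro κ n w hw
      by_cases hn : n = 0
      · subst hn
        rw [pow_zero] at hw
        simp [XX, hZ.zero, hw]
      · simp [XX, uu, cv_one, hn]
    | succ i ih =>
      intro κ n w hw
      have h1 := core_step hs hZ hT φ hU hν hν1 hν2 ha prob_one (hm0 0) (by simpa using hm 0)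
        (hμ.pow i).nonneg κ i (g i) (fun κ n => by
          rw [eq_dens_of_ac (ih κ n)]; congr 1; ext w; rw [hg]) n
      rw [cv_one, ← hμe, ← pow_succ] at h1
      exact h1.ac w hw
  obtain ⟨V, hV⟩ : ∃ V : ℝ → ℕ → ℕ → ℝ, ∀ κ i F, V κ i F
    = ∑ n ∈ range L, pair (μ ^ i) fun w => (cv (U ^ F) (fun j => g i κ j w) n) ^ 2 :=
    ⟨_, fun _ _ _ => rfl⟩
  have hV0 : ∀ κ i F, 0 ≤ V κ i F := fun κ i F => by
    rw [hV]; exact Finset.sum_nonneg fun n _ => pair_nonneg (hμ.pow i).nonneg fun _ => sq_nonneg _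
  have hrec : ∀ κ i F, V κ (i + 1) F
      ≤ 1 / 4 * V κ i (F + 1) + 3 / 4 * V κ i F + 3 * T * m F * V 0 i 0 := by
    intro κ i F
    have h1 := fun n : ℤ => core_step hs hZ hT φ hU hν hν1 hν2 ha (hU.pow F) (hm0 F) (hm F)
        (hμ.pow i).nonneg κ i (g i) (fun κ n => by
          rw [eq_dens_of_ac (hac i κ n)]; congr 1; ext w; rw [hg]) n
    rw [← hμe, ← pow_succ, ← pow_succ] at h1
    have hcv : ∀ w n, 0 ≤ cv (U ^ F) (fun j => g i 0 j w ^ 2) n :=
      fun w n => pair_nonneg (hU.pow F).nonneg fun _ => sq_nonneg _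
    have h2 := fun n : ℤ => (h1 n).chi2_le (hμ.pow _).nonneg
      (pair_nonneg (hμ.pow _).nonneg fun w => by
        have := pair_nonneg hU.nonneg
          (h := fun c => (cv (U ^ F) (fun j => g i κ j w) (n - (c.toAdd : ℕ))) ^ 2)
          fun _ => sq_nonneg _
        have := pair_nonneg hU.nonneg
          (h := fun c => cv (U ^ F) (fun j => g i 0 j w ^ 2) (n - (c.toAdd : ℕ)))
          fun _ => hcv _ _
        have := hm0 F
        positivity)
    simp only [← hcvg] at h2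
    rw [hV]
    refine (Finset.sum_le_sum fun (n : ℕ) _ => h2 n).trans ?_
    simp only [hV, ← pair_sum_right, ← pair_mul_right, ← pair_add_right]
    refine pair_mono (hμ.pow _).nonneg fun w => ?_
    simp only [pair_add_right, pair_mul_right, Finset.sum_add_distrib, ← Finset.mul_sum, pow_zero,
      cv_one]
    have h3 := sum_cv_le hU (f := fun n => (cv (U ^ F) (fun j => g i κ j w) n) ^ 2)
      (fun _ => sq_nonneg _)
      (fun n hn => by rw [cv_neg _ (hgneg i κ w) n hn]; ring) L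
    have h4 := sum_cv_le hU (f := cv (U ^ F) (fun j => g i 0 j w ^ 2)) (hcv w)
      (cv_neg _ fun n hn => by rw [hgneg i 0 w n hn]; ring) L
    have h5 := sum_cv_le (hU.pow F) (f := fun j => g i 0 j w ^ 2) (fun _ => sq_nonneg _)
      (fun n hn => by rw [hgneg i 0 w n hn]; ring) L
    have h6 := mul_le_mul_of_nonneg_left (h4.trans h5) (mul_nonneg hT (hm0 F))
    simp only [cv] at h3 h6 ⊢
    linarith
  have hpot : ∀ κ i, i ≤ I → ∑ F ∈ range (I - i), V κ i F + 1 / 4 * ∑ j ∈ range i, V κ j 0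
      ≤ ∑ F ∈ range I, V κ 0 F + 3 * T * S * ∑ j ∈ range i, V 0 j 0 := by
    intro κ i
    induction i with
    | zero => simp
    | succ i ih =>
      intro hi
      have h1 := ih (by omega)
      obtain ⟨l, hl⟩ : ∃ l, I - i = l + 1 := ⟨I - i - 1, by omega⟩
      rw [show I - (i + 1) = l by omega, Finset.sum_range_succ, Finset.sum_range_succ]
      rw [hl] at h1
      have h2 := Finset.sum_le_sum (s := range l) fun F _ => hrec κ i F
      simp only [Finset.sum_add_distrib, ← Finset.mul_sum, ← Finset.sum_mul] at h2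
      have h3 := Finset.sum_range_succ' (V κ i) l
      have h4 := Finset.sum_range_succ (V κ i) l
      have h5 : ∑ F ∈ range l, m F ≤ S :=
        (Finset.sum_le_sum_of_subset_of_nonneg (Finset.range_subset_range.mpr (by omega))
          fun F _ _ => hm0 F).trans hS
      have h6 := mul_le_mul_of_nonneg_right (mul_le_mul_of_nonneg_left h5 hT) (hV0 0 i 0)
      have h7 := hV0 κ i l
      linarith
  have hinit : ∀ κ F, V κ 0 F = (1 - κ) ^ 2 * ∑ n ∈ range L, (uu U F n) ^ 2 := by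
    intro κ F
    rw [hV, Finset.mul_sum]
    refine Finset.sum_congr rfl fun n _ => ?_
    rw [pow_zero, pair_one, ← mul_pow, uu, cv, cv, ← pair_mul_right]
    congr 2
    ext Q
    rw [hg]
    by_cases h : (n : ℤ) - (Q.toAdd : ℕ) = 0
    · simp [h, XX, uu, cv_one, hZ.zero]
    · simp [h, XX, uu, cv_one]
  have h0 : ∑ F ∈ range I, V 0 0 F ≤ S := by
    refine le_trans (Finset.sum_le_sum fun F _ => ?_) hS
    rw [hinit]
    have h1 : ∀ n : ℕ, uu U F n ≤ m F := fun n => by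
      refine le_trans (pair_mono (hU.pow F).nonneg fun Q => ?_) (hm F n)
      dsimp only
      split_ifs with h1 h2
      · rfl
      · exact absurd (by rw [show (Q.toAdd : ℕ) = n by omega]) h2
      · norm_num
      · rfl
    calc _ = ∑ n ∈ range L, uu U F n * uu U F n := by simp [sq]
      _ ≤ ∑ n ∈ range L, m F * uu U F n :=
        Finset.sum_le_sum fun n _ => mul_le_mul_of_nonneg_right (h1 n) (uu_nonneg hU _ _)
      _ ≤ m F := by
        rw [← Finset.mul_sum]; exact mul_le_of_le_one_right (hm0 F) (sum_uu_le hU F L)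
  have hA := hpot 0 I le_rfl
  have hB := hpot 1 I le_rfl
  simp only [hinit 1, Nat.sub_self, range_zero, sum_empty, sub_self] at hA hB
  have hW : 0 ≤ ∑ j ∈ range I, V 0 j 0 := Finset.sum_nonneg fun j _ => hV0 _ _ _
  have hS0 : 0 ≤ S := (Finset.sum_nonneg fun F _ => hm0 F).trans hS
  have hC : ∑ j ∈ range I, V 0 j 0 ≤ 8 * S := by nlinarith
  have hD : ∑ j ∈ range I, V 1 j 0 ≤ 96 * T * S ^ 2 := by
    have := mul_le_mul_of_nonneg_left hC (mul_nonneg hT hS0)
    simp only [ne_eq, OfNat.ofNat_ne_zero, not_false_eq_true, zero_pow, zero_mul,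
      Finset.sum_const_zero] at hB
    nlinarith
  refine le_trans (Finset.sum_le_sum fun i _ => ?_) hD
  rw [hV]
  refine Finset.sum_le_sum fun P _ => ?_
  have h1 := norm_sq_le_chi2 (hac i 1 P) (hμ.pow i)
  simp only [pow_zero, cv_one, hg]
  refine le_trans (le_of_eq ?_) h1
  rw [XX, norm_smul, mul_pow, Real.norm_eq_abs, sq_abs, one_smul, Int.toNat_natCast]

end Vale.Agent.P321
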