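import Mathlib

namespace Vale.Agent.P321

/-- The subsequence of `x` formed by the positions `i` with `k i = true`, in their order. -/
def subseq {n : ℕ} (x k : Fin n → Bool) : List Bool := ((List.finRange n).filter k).map x

/-- Probability that exactly the positions marked `true` survive the deletion channel. -/
noncomputable def maskProb (q : ℝ) {n : ℕ} (k : Fin n → Bool) : ℝ :=
  ∏ i, if k i then 1 - q else q

/-- Probability that the randomized estimator outputs `x` on `m` independent traces of `x`;
`est t y` is the probability of output `y` on the input `t`. -/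
noncomputable def successProb (q : ℝ) {n m : ℕ}
    (est : (Fin m → List Bool) → (Fin n → Bool) → ℝ) (x : Fin n → Bool) : ℝ :=
  ∑ K : Fin m → Fin n → Bool, (∏ j, maskProb q (K j)) * est (fun j => subseq x (K j)) x

/-- Some randomized estimator succeeds with probability at least 2/3 for every string. -/
def Reconstructs (q : ℝ) (n m : ℕ) : Prop :=
  ∃ est : (Fin m → List Bool) → (Fin n → Bool) → ℝ,
    (∀ t y, 0 ≤ est t y) ∧ (∀ t, ∑ y, est t y = 1) ∧ ∀ x, 2 / 3 ≤ successProb q est x

/-- Worst-case sample complexity of trace reconstruction. -/
noncomputable def sampleComplexity (q : ℝ) (n : ℕ) : ℕ := sInf {m | Reconstructs q n m}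

end Vale.Agent.P321
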