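import Vale.Agent.P321.Step

/-! Two levels of the recursion, the second with the averaging gain. -/

open Finset

namespace Vale.Agent.P321

variable {M : Type*} [Monoid M]

theorem nat_facts {R b N₁ N₁' τ₁ N₂ N₂' : ℕ} (hR : 1 ≤ R) (hb : (2 ^ R) ^ 56 ≤ b)
    (hN₁ : N₁ = R * ((2 * 4 ^ R) ^ 2 * b ^ 21)) (hN₁' : N₁' = N₁ + 2 ^ R + N₁)
    (hτ₁ : τ₁ = 128 * N₁' ^ 2) (hN₂ : N₂ = R * ((2 * 4 ^ R) ^ 2 * τ₁))
    (hN₂' : N₂' = N₂ + 2 ^ R + N₂) :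
    N₁' ≤ (2 ^ R) ^ 9 * b ^ 21 ∧ 1 ≤ τ₁ ∧ N₂' ≤ (2 ^ R) ^ 34 * b ^ 42 ∧
      128 * N₂' ^ 2 ≤ ((2 ^ R) ^ 4 * b ^ 4) ^ 21 ∧ b ^ 8 ≤ N₂ ∧
      R * ((2 * ((b ^ 2) ^ 2 * 2 ^ R) * 2 ^ R) ^ 2 * b ^ 21) + R * ((b ^ 2) ^ 2 * 2 ^ R)
        ≤ b ^ 8 * N₁' ∧ (b ^ 2) ^ 2 * 2 ^ R ≤ N₁ ∧
      N₂' * (N₁' * b ^ 21 + 1) + 2 ≤ ((2 ^ R) ^ 4 * b ^ 4) ^ 21 := by
  have hRD : R ≤ 2 ^ R := Nat.lt_two_pow_self.le
  have hD2 : 2 ≤ 2 ^ R := by simpa using Nat.pow_le_pow_right (show 0 < 2 by norm_num) hR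
  have hDb : 2 ^ R ≤ b := le_trans (Nat.le_self_pow (by norm_num) _) hb
  have hb1 : 1 ≤ b := by omega
  have hτ1 : 1 ≤ b ^ 21 := Nat.one_le_pow _ _ hb1
  have l1 : N₁' ≤ (2 ^ R) ^ 9 * b ^ 21 := by rw [hN₁', hN₁]; exact len_le hR hτ1
  have l1' : 1 ≤ N₁' := by omega
  have l2 : τ₁ ≤ (2 ^ R) ^ 25 * b ^ 42 := by
    calc τ₁ = 2 ^ 7 * N₁' ^ 2 := by rw [hτ₁]; norm_num
      _ ≤ (2 ^ R) ^ 7 * ((2 ^ R) ^ 9 * b ^ 21) ^ 2 := by gcongr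
      _ = _ := by ring
  have l2' : 1 ≤ τ₁ := by rw [hτ₁]; nlinarith
  have l3 : N₂' ≤ (2 ^ R) ^ 34 * b ^ 42 := by
    calc N₂' ≤ (2 ^ R) ^ 9 * τ₁ := by rw [hN₂', hN₂]; exact len_le hR l2'
      _ ≤ (2 ^ R) ^ 9 * ((2 ^ R) ^ 25 * b ^ 42) := by gcongr
      _ = _ := by ring
  have l4 : 128 * N₂' ^ 2 ≤ ((2 ^ R) ^ 4 * b ^ 4) ^ 21 := by
    calc 128 * N₂' ^ 2 = 2 ^ 7 * N₂' ^ 2 := by norm_num
      _ ≤ (2 ^ R) ^ 7 * ((2 ^ R) ^ 34 * b ^ 42) ^ 2 := by gcongr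
      _ = (2 ^ R) ^ 75 * b ^ 84 := by ring
      _ ≤ (2 ^ R) ^ 84 * b ^ 84 := by gcongr <;> omega
      _ = _ := by ring
  have l5 : b ^ 21 * 2 ^ R ≤ N₁ := by
    rw [hN₁]
    calc b ^ 21 * 2 ^ R = 1 * (2 ^ R * b ^ 21) := by ring
      _ ≤ R * ((2 * 4 ^ R) ^ 2 * b ^ 21) := by
        refine Nat.mul_le_mul hR (Nat.mul_le_mul_right _ ?_)
        have : 2 ^ R ≤ 4 ^ R := Nat.pow_le_pow_left (by norm_num) R
        nlinarith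
  have l6 : b ^ 8 ≤ N₂ := by
    have a1 : b ^ 8 ≤ b ^ 21 * 2 ^ R := by
      calc b ^ 8 = b ^ 8 * 1 := by ring
        _ ≤ _ := by gcongr <;> omega
    have a2 : N₁' ≤ τ₁ := by rw [hτ₁]; nlinarith
    have a3 : τ₁ ≤ N₂ := by
      rw [hN₂]
      calc τ₁ = 1 * (1 * τ₁) := by ring
        _ ≤ _ := by gcongr; exact Nat.one_le_pow _ _ (by positivity)
    omega
  have l7 : R * ((2 * ((b ^ 2) ^ 2 * 2 ^ R) * 2 ^ R) ^ 2 * b ^ 21) + R * ((b ^ 2) ^ 2 * 2 ^ R)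
      ≤ b ^ 8 * N₁' := by
    have a1 : R * ((2 * ((b ^ 2) ^ 2 * 2 ^ R) * 2 ^ R) ^ 2 * b ^ 21) = b ^ 8 * N₁ := by
      rw [hN₁, show 4 ^ R = 2 ^ R * 2 ^ R by rw [← mul_pow]; norm_num]; ring
    have a2 : R * ((b ^ 2) ^ 2 * 2 ^ R) ≤ b ^ 8 * N₁ := by
      calc R * ((b ^ 2) ^ 2 * 2 ^ R) ≤ b ^ 8 * (b ^ 21 * 2 ^ R) := by
            rw [← pow_mul]
            exact Nat.mul_le_mul ((hRD.trans hDb).trans (Nat.le_self_pow (by norm_num) _))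
              (Nat.mul_le_mul_right _ (Nat.pow_le_pow_right hb1 (by norm_num)))
        _ ≤ _ := by gcongr
    rw [a1, hN₁']; nlinarith [Nat.zero_le (b ^ 8 * 2 ^ R)]
  have l8 : (b ^ 2) ^ 2 * 2 ^ R ≤ N₁ := by
    refine le_trans ?_ l5
    rw [← pow_mul]
    exact Nat.mul_le_mul_right _ (Nat.pow_le_pow_right hb1 (by norm_num))
  have l9 : N₂' * (N₁' * b ^ 21 + 1) + 2 ≤ ((2 ^ R) ^ 4 * b ^ 4) ^ 21 := by
    have a1 : 1 ≤ N₁' * b ^ 21 := Nat.mul_pos l1' hτ1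
    have a2 : 1 ≤ N₂' := by omega
    have a3 : 1 ≤ N₂' * (N₁' * b ^ 21) := Nat.mul_pos a2 a1
    calc _ ≤ 2 ^ 2 * (N₂' * (N₁' * b ^ 21)) := by nlinarith
      _ ≤ (2 ^ R) ^ 2 * ((2 ^ R) ^ 34 * b ^ 42 * ((2 ^ R) ^ 9 * b ^ 21 * b ^ 21)) := by gcongr
      _ = (2 ^ R) ^ 45 * b ^ 84 := by ring
      _ ≤ (2 ^ R) ^ 84 * b ^ 84 :=
        Nat.mul_le_mul_right _ (Nat.pow_le_pow_right (by omega) (by norm_num))
      _ = _ := by ring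
  exact ⟨l1, l2', l3, l4, l6, l7, l8, l9⟩

theorem big_le {D b : ℝ} (hD : 2 ≤ D) (hb : D ^ 56 ≤ b) (p q : ℕ) (hq : p + q ≤ 56) :
    2 ^ q * D ^ p ≤ b := by
  calc 2 ^ q * D ^ p ≤ D ^ q * D ^ p := by gcongr
    _ = D ^ (q + p) := (pow_add _ _ _).symm
    _ ≤ D ^ 56 := pow_le_pow_right₀ (by linarith) (by omega)
    _ ≤ b := hb

theorem pw_le {b θ : ℝ} (hb : 1 ≤ b) (hθ : 0 ≤ θ) (hθb : θ * b ^ 14 ≤ 1) (p q : ℕ)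
    (hq : q ≤ 14 * p) : θ ^ p * b ^ q ≤ 1 := by
  calc θ ^ p * b ^ q ≤ θ ^ p * b ^ (14 * p) := by gcongr
    _ = (θ * b ^ 14) ^ p := by rw [mul_pow, ← pow_mul]
    _ ≤ 1 := pow_le_one₀ (by positivity) hθb

theorem small_le {D b θ : ℝ} (hD : 2 ≤ D) (hb : D ^ 56 ≤ b) (hθ : 0 ≤ θ) (hθb : θ * b ^ 14 ≤ 1)
    (X c : ℝ) (p q r t : ℕ) (h1 : X ≤ c * D ^ p * (θ ^ r * b ^ t)) (hc : 0 ≤ c)
    (h2 : p + q ≤ 56) (h3 : t + 1 ≤ 14 * r) : X ≤ c / 2 ^ q := by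
  have hb1 : 1 ≤ b := by simpa using big_le hD hb 0 0 (by norm_num)
  have a1 := pw_le hb1 hθ hθb r (t + 1) h3
  have a2 := big_le hD hb p q h2
  have a3 : 0 ≤ θ ^ r * b ^ t := by positivity
  refine h1.trans ?_
  rw [le_div_iff₀ (by positivity)]
  calc c * D ^ p * (θ ^ r * b ^ t) * 2 ^ q = c * ((2 ^ q * D ^ p) * (θ ^ r * b ^ t)) := by ring
    _ ≤ c * (b * (θ ^ r * b ^ t)) := by gcongr
    _ = c * (θ ^ r * b ^ (t + 1)) := by ring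
    _ ≤ c := mul_le_of_le_one_right hc a1

theorem real_facts {D b θ R N₁' N₂' : ℝ} (hD : 2 ≤ D) (hb : D ^ 56 ≤ b) (hθ : 0 ≤ θ)
    (hθb : θ * b ^ 14 ≤ 1) (hRD : R ≤ D) (r1 : N₁' ≤ D ^ 9 * b ^ 21)
    (r3 : N₂' ≤ D ^ 34 * b ^ 42) :
    θ ≤ 1 ∧ θ ^ 4 / b ≤ 1 ∧ 2 * D ^ 2 * θ ^ 2 * N₁' ≤ 1 / 10 ^ 8 ∧
      4 * (2 * b ^ 8 + 1 + D) * (2 * D * θ) ≤ 1 ∧ 8 * D ^ 2 * θ ^ 2 ≤ 1 ∧
      2 * D ^ 2 * (8 * D ^ 2 * θ ^ 2) ^ 2 * N₂' ≤ 1 / 10 ^ 8 ∧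
      8 * D * (2 * (12 * b ^ 8 * (2 * D * θ) + D * (4 * R / b ^ 2))
        * (4 * D ^ 2 * θ ^ 2 * (2 * D * (8 * D ^ 2 * θ ^ 2)))) ≤ θ ^ 4 / b ∧
      4 * D * ((4 * D + 2) * (4 * D ^ 2 * θ ^ 2 * (2 * D * (8 * D ^ 2 * θ ^ 2)))) ≤ 1 := by
  have small := small_le hD hb hθ hθb
  have hbig := big_le hD hb
  have rb1 : 1 ≤ b := by simpa using hbig 0 0 (by norm_num)
  have hθ1 : θ ≤ 1 := by simpa using pw_le rb1 hθ hθb 1 0 (by norm_num)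
  refine ⟨hθ1, ?_, ?_, ?_, ?_, ?_, ?_, ?_⟩
  · rw [div_le_one (by positivity)]
    exact (pow_le_one₀ hθ hθ1).trans rb1
  · refine (small _ 2 11 30 2 21 ?_ (by norm_num) (by norm_num) (by norm_num)).trans (by norm_num)
    calc _ ≤ 2 * D ^ 2 * θ ^ 2 * (D ^ 9 * b ^ 21) := by gcongr
      _ = _ := by ring
  · refine (small _ 32 1 5 1 8 ?_ (by norm_num) (by norm_num) (by norm_num)).trans (by norm_num)
    have a1 : (1 : ℝ) ≤ b ^ 8 := one_le_pow₀ rb1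
    have a2 : D ≤ b ^ 8 := by
      have : D ≤ b := by simpa using hbig 1 0 (by norm_num)
      exact this.trans (le_self_pow₀ rb1 (by norm_num))
    calc _ ≤ 4 * (2 * b ^ 8 + b ^ 8 + b ^ 8) * (2 * D * θ) := by gcongr
      _ = _ := by ring
  · exact (small _ 8 2 3 2 0 (by rw [pow_zero, mul_one]) (by norm_num) (by norm_num)
      (by norm_num)).trans (by norm_num)
  · refine (small _ 128 0 56 4 43 ?_ (by norm_num) (by norm_num) (by norm_num)).trans (by norm_num)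
    have a1 : D ^ 40 ≤ b := by simpa using hbig 40 0 (by norm_num)
    calc _ ≤ 2 * D ^ 2 * (8 * D ^ 2 * θ ^ 2) ^ 2 * (D ^ 34 * b ^ 42) := by gcongr
      _ = 128 * (D ^ 40 * (θ ^ 4 * b ^ 42)) := by ring
      _ ≤ 128 * (b * (θ ^ 4 * b ^ 42)) := by gcongr
      _ = _ := by ring
  · have a1 := small (24576 * D ^ 7 * (θ * b ^ 9)) 24576 7 16 1 9 (by simp) (by norm_num)
      (by norm_num) (by norm_num)
    have a2 := hbig 8 13 (by norm_num)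
    have a3 : 4096 * D ^ 7 * R / b ≤ 1 / 2 := by
      rw [div_le_iff₀ (by positivity)]
      have : D ^ 7 * R ≤ D ^ 7 * D := by gcongr
      linarith
    calc _ = θ ^ 4 / b * (24576 * D ^ 7 * (θ * b ^ 9) + 4096 * D ^ 7 * R / b) := by
          field_simp; ring
      _ ≤ _ := mul_le_of_le_one_right (by positivity) (by linarith)
  · refine (small _ 1280 7 11 4 0 ?_ (by norm_num) (by norm_num) (by norm_num)).trans (by norm_num)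
    calc _ ≤ 4 * D * ((4 * D + D) * (4 * D ^ 2 * θ ^ 2 * (2 * D * (8 * D ^ 2 * θ ^ 2)))) := by
          gcongr
      _ = _ := by ring

theorem level_two (tr : FreeMonoid Bool →* Alg M) (htr : ∀ w, Prob (tr w)) {R : ℕ} (hR : 1 ≤ R)
    {x₁ y₁ : FreeMonoid Bool} {u₁ Y : Alg M} {θ₁ ζ₁ a E θ₂ D : ℝ} {τ₁ N₂ N₂' A₀ L ℓ : ℕ}
    (hD : D = 2 ^ R) (hne : x₁ ≠ y₁) (hl : x₁.length = y₁.length) (hL : x₁.length ≤ ℓ)
    (pu : Prob u₁) (pY : Prob Y) (hθ₁ : 0 ≤ θ₁) (hθ₁' : θ₁ ≤ 1) (hΔ : Bd (u₁ - Y) (θ₁ • Y))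
    (s2 : Slip Y τ₁) (hτ₁ : 1 ≤ τ₁) (x1 : ‖tr x₁ - u₁‖ ≤ ζ₁) (y1 : ‖tr y₁ - Y‖ ≤ ζ₁)
    (hN₂ : N₂ = R * ((2 * 4 ^ R) ^ 2 * τ₁)) (hN₂' : N₂' = N₂ + 2 ^ R + N₂) (hA₀ : A₀ ≤ N₂)
    (hsm : 2 * D ^ 2 * θ₁ ^ 2 * N₂' ≤ 1 / 10 ^ 8) (ha0 : 0 ≤ a) (hE0 : 0 ≤ E)
    (hg : ∀ (Ξ : Alg M) (m A B : ℕ), m ≤ 2 ^ R → A₀ ≤ A → A₀ ≤ B → Bd Ξ ((2 * D * θ₁) • Y ^ m) →
      Dom (Y ^ A * (u₁ - Y) * Ξ * Y ^ B) (a • Y ^ (A + 1 + m + B)) (E * (1 / 2) ^ (R * R)))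
    (hθ₂ : 8 * D * a ≤ θ₂) (hθ₂' : θ₂ ≤ 1) (hE1 : 4 * D * E ≤ 1) (l4 : 128 * N₂' ^ 2 ≤ L)
    (l5 : N₂' * ℓ ≤ L) (r9 : N₂' * ζ₁ + 2 * (1 / 2) ^ (R * R) ≤ L * (1 / 2) ^ (R * R)) :
    Inv tr ((1 / 2) ^ (R * R)) L θ₂ := by
  have hDc : ((2 ^ R : ℕ) : ℝ) = D := by rw [hD]; push_cast; rfl
  have hD0 : 0 < D := by rw [hD]; positivity
  have he : (0 : ℝ) ≤ (1 / 2) ^ (R * R) := by positivity
  obtain ⟨t1, t2, t3, t4⟩ := step_common pu pY hθ₁ hΔ s2 hτ₁ hR hN₂ hN₂' (by rwa [← hD])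
  have x2 := norm_nxt_sub tr htr x₁ y₁ pu pY x1 y1 R N₂ true
  have y2 := norm_nxt_sub tr htr x₁ y₁ pu pY x1 y1 R N₂ false
  have pY₂ := prob_nxt pu pY R N₂ false
  rw [← hD] at t1 t3
  rw [← hN₂'] at x2 y2
  have hq := fun c => dom_QQ pY hθ₁ hΔ (D := 2 ^ R) (A₀ := A₀)
    (by rw [hDc]; linarith [mul_nonneg hD0.le hθ₁]) ha0 (mul_nonneg hE0 he)
    (fun Ξ m A B h1 h2 h3 h4 => hg Ξ m A B h1 h2 h3 (by rwa [hDc] at h4)) (tm R c)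
    (tm_length R c).le N₂ N₂ hA₀ hA₀
  simp only [tm_length, hDc, ← hN₂'] at hq
  have hq2 := ((hq true).sub_smul (hq false)).trans_bd
    ((t3.mono (pY.pow _).nonneg (by linarith)).rev.smul (by positivity))
  rw [smul_smul, ← sub_mul, ← mul_sub] at hq2
  obtain ⟨γ', g1, g2, g3⟩ := hq2.exists_mass_zero pY₂ (by
    rw [mass_mul, mass_mul, mass_sub, mass_QQ pu pY, mass_QQ pu pY]; ring)
  have g1' := g1.mono pY₂.nonneg (b := θ₂) (by linarith)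
  have a1 := mul_le_of_le_one_left he hE1
  have a2 := mul_le_of_le_one_right he hθ₁'
  refine ⟨nxt x₁ y₁ R N₂ true, nxt x₁ y₁ R N₂ false, nxt u₁ Y R N₂ false + γ', nxt u₁ Y R N₂ false,
    nxt_ne hl hne R N₂, by rw [length_nxt hl, length_nxt hl], ?_,
    prob_add_of_bd pY₂ g1' g2 hθ₂', pY₂, by simpa using g1', t2.mono l4, ?_, by linarith⟩
  · rw [length_nxt hl, ← hN₂']
    exact (Nat.mul_le_mul_left _ hL).trans l5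
  · generalize Y ^ N₂ * (QQ u₁ Y (tm R true) - QQ u₁ Y (tm R false)) * Y ^ N₂ = G at *
    generalize nxt u₁ Y R N₂ true = X₂ at *
    generalize nxt u₁ Y R N₂ false = Y₂ at *
    rw [show tr (nxt x₁ y₁ R N₂ true) - (Y₂ + γ')
      = (tr (nxt x₁ y₁ R N₂ true) - X₂) + (X₂ - Y₂ - G) + (G - γ') by abel]
    refine norm_add₃_le.trans ?_
    linarith

theorem double_step (tr : FreeMonoid Bool →* Alg M) (htr : ∀ w, Prob (tr w)) {R b : ℕ}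
    (hR : 1 ≤ R) (hb : (2 ^ R) ^ 56 ≤ b) {θ : ℝ} (hθ : 0 ≤ θ) (hθb : θ * b ^ 14 ≤ 1)
    (h : Inv tr ((1 / 2) ^ (R * R)) (b ^ 21) θ) :
    Inv tr ((1 / 2) ^ (R * R)) (((2 ^ R) ^ 4 * b ^ 4) ^ 21) (θ ^ 4 / b) := by
  obtain ⟨x, y, u, s, hxy, hl, hL, hu, hs, hbd, hτ, ex, ey⟩ := h
  have hRD : R ≤ 2 ^ R := Nat.lt_two_pow_self.le
  have hD2 : 2 ≤ 2 ^ R := by simpa using Nat.pow_le_pow_right (show 0 < 2 by norm_num) hR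
  have hDb : 2 ^ R ≤ b := le_trans (Nat.le_self_pow (by norm_num) _) hb
  have hτ1 : 1 ≤ b ^ 21 := Nat.one_le_pow _ _ (by omega)
  obtain ⟨N₁, hN₁⟩ : ∃ N, N = R * ((2 * 4 ^ R) ^ 2 * b ^ 21) := ⟨_, rfl⟩
  obtain ⟨N₁', hN₁'⟩ : ∃ N, N = N₁ + 2 ^ R + N₁ := ⟨_, rfl⟩
  obtain ⟨τ₁, hτ₁⟩ : ∃ τ, τ = 128 * N₁' ^ 2 := ⟨_, rfl⟩
  obtain ⟨N₂, hN₂⟩ : ∃ N, N = R * ((2 * 4 ^ R) ^ 2 * τ₁) := ⟨_, rfl⟩
  obtain ⟨N₂', hN₂'⟩ : ∃ N, N = N₂ + 2 ^ R + N₂ := ⟨_, rfl⟩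
  obtain ⟨l1, l2', l3, l4, l6, l7, l8, l9⟩ := nat_facts hR hb hN₁ hN₁' hτ₁ hN₂ hN₂'
  obtain ⟨D, hD⟩ : ∃ D : ℝ, D = 2 ^ R := ⟨_, rfl⟩
  have hDc : ((2 ^ R : ℕ) : ℝ) = D := by rw [hD]; push_cast; rfl
  have rD2 : 2 ≤ D := by rw [← hDc]; exact_mod_cast hD2
  obtain ⟨hθ1, f2, f3, f4, f5, f6, f7, f8⟩ := real_facts (R := R) (N₁' := N₁') (N₂' := N₂') rD2
    (by rw [← hDc]; exact_mod_cast hb) hθ hθb (by rw [← hDc]; exact_mod_cast hRD)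
    (by rw [← hDc]; exact_mod_cast l1) (by rw [← hDc]; exact_mod_cast l3)
  have he : (0 : ℝ) ≤ (1 / 2) ^ (R * R) := by positivity
  obtain ⟨s1, s2, s3, s4⟩ := step_common hu hs hθ hbd hτ hτ1 hR hN₁ hN₁' (by rwa [← hD])
  have x1 := norm_nxt_sub tr htr x y hu hs ex ey R N₁ true
  have y1 := norm_nxt_sub tr htr x y hu hs ex ey R N₁ false
  have pY := prob_nxt hu hs R N₁ false
  rw [← hD] at s1 s3
  rw [← hτ₁] at s2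
  rw [← hN₁'] at x1 y1
  have hγ : Bd (QQ u s (tm R true) - QQ u s (tm R false)) ((4 * D ^ 2 * θ ^ 2) • s ^ 2 ^ R) := by
    have a := fun c => bd_QQ hs hθ hbd (D := 2 ^ R)
      (by rw [hDc]; linarith [mul_nonneg (show 0 ≤ D by linarith) hθ]) (tm R c) (tm_length R c).le
    simp only [tm_length, hDc] at a
    have := (a true).add_smul (a false).neg
    rw [← sub_eq_add_neg] at this
    convert this using 2; ring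
  have hγ0 : mass (QQ u s (tm R true) - QQ u s (tm R false)) = 0 := by
    rw [mass_sub, mass_QQ hu hs, mass_QQ hu hs, sub_self]
  generalize QQ u s (tm R true) - QQ u s (tm R false) = γ at *
  generalize nxt u s R N₁ true = X at *
  generalize nxt u s R N₁ false = Y at *
  have hrev : Bd (s ^ N₁') ((2 : ℝ) • Y) := (s3.mono (hs.pow _).nonneg (by linarith)).rev
  have hΔ : Bd (s ^ N₁ * γ * s ^ N₁) ((8 * D ^ 2 * θ ^ 2) • Y) := by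
    have := (hγ.mul_left (hs.pow N₁).nonneg).mul_right (hs.pow N₁).nonneg
    rw [← pow_add, ← pow_add, ← hN₁'] at this
    have := this.trans (hrev.smul (by positivity))
    rw [smul_smul] at this
    convert this using 2; ring
  have hΔ0 : mass (s ^ N₁ * γ * s ^ N₁) = 0 := by rw [mass_mul, mass_mul, hγ0]; ring
  have pu := prob_add_of_bd pY hΔ hΔ0 f5
  have hg := gain hs pY hτ hN₁' (β := 4 * D ^ 2 * θ ^ 2) (ε := 2 * D * θ)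
    (ξ := 2 * D * (8 * D ^ 2 * θ ^ 2)) (by positivity) (by positivity) (by positivity) hγ hγ0 s3
    (by positivity) hR (i := b ^ 2) ((hRD.trans hDb).trans (Nat.le_self_pow (by norm_num) _)) l8
    (A₀ := b ^ 8) (Dm := 2 ^ R) l7 (by rw [hDc]; push_cast; exact f4)
  have x1' : ‖tr (nxt x y R N₁ true) - (Y + s ^ N₁ * γ * s ^ N₁)‖
      ≤ N₁' * ((b ^ 21 : ℕ) * (1 / 2) ^ (R * R)) + (1 / 2) ^ (R * R) := by
    rw [show tr (nxt x y R N₁ true) - (Y + s ^ N₁ * γ * s ^ N₁)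
      = (tr (nxt x y R N₁ true) - X) + (X - Y - s ^ N₁ * γ * s ^ N₁) by abel]
    refine (norm_add_le _ _).trans (add_le_add x1 (s4.trans ?_))
    exact mul_le_of_le_one_right he hθ1
  have eΔ : s ^ N₁ * γ * s ^ N₁ = (Y + s ^ N₁ * γ * s ^ N₁) - Y := by abel
  generalize Y + s ^ N₁ * γ * s ^ N₁ = u₁ at *
  rw [eΔ] at hΔ hg
  rw [← hD] at hg
  push_cast at hg
  refine level_two tr htr hR hD (nxt_ne hl hxy R N₁) (by rw [length_nxt hl, length_nxt hl])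
    (ℓ := N₁' * b ^ 21) (by rw [length_nxt hl, ← hN₁']; gcongr) pu pY (by positivity) f5 hΔ s2 l2'
    x1' (y1.trans (by linarith)) hN₂ hN₂' l6 f6 (by positivity) (by positivity) hg f7 f2 f8 l4
    (le_trans (by rw [mul_add]; omega) l9) ?_
  have a1 : ((N₂' * (N₁' * b ^ 21 + 1) + 2 : ℕ) : ℝ)
    ≤ ((((2 ^ R) ^ 4 * b ^ 4) ^ 21 : ℕ) : ℝ) := by exact_mod_cast l9
  refine le_trans (le_of_eq ?_) (mul_le_mul_of_nonneg_right a1 he)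
  push_cast; ring

end Vale.Agent.P321
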