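import Vale.Agent.P321.Trace
import Vale.Agent.P321.Defs

/-! From close trace laws to the sample complexity bound. -/

open Finset

namespace Vale.Agent.P321

theorem sum_cons {α : Type*} [Fintype α] {n : ℕ} (f : (Fin (n + 1) → α) → ℝ) :
    ∑ k, f k = ∑ a, ∑ k : Fin n → α, f (Fin.cons a k) := by
  rw [← Fintype.sum_prod_type', ← Equiv.sum_comp (Fin.consEquiv fun _ => α)]
  rfl

theorem subseq_cons {n : ℕ} (x : Fin (n + 1) → Bool) (b : Bool) (k : Fin n → Bool) :
    subseq x (Fin.cons b k) = (if b then [x 0] else []) ++ subseq (fun i => x i.succ) k := by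
  simp only [subseq, List.finRange_succ, List.filter_cons, Fin.cons_zero, List.filter_map]
  cases b <;> simp [Function.comp_def]

theorem sum_mask (q : ℝ) {n : ℕ} (x : Fin n → Bool) (f : List Bool → ℝ) :
    ∑ k, maskProb q k * f (subseq x k)
      = pair (tr q (FreeMonoid.ofList (List.ofFn x))) fun w => f w.toList := by
  induction n generalizing f with
  | zero => simp [maskProb, subseq, pair_one]
  | succ n ih =>
    rw [sum_cons, List.ofFn_succ, FreeMonoid.ofList_cons, map_mul, pair_mul, tr_of, pair_add_left,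
      pair_smul_left, pair_smul_left, pair_one, pair_single, Fintype.sum_bool]
    simp only [maskProb, Fin.prod_univ_succ, Fin.cons_zero, Fin.cons_succ, subseq_cons, mul_assoc,
      ← Finset.mul_sum] at ih ⊢
    rw [ih (fun i => x i.succ) fun l => f ((if True then [x 0] else []) ++ l),
      ih (fun i => x i.succ) fun l => f ((if false = true then [x 0] else []) ++ l)]
    simp [add_comm]

theorem maskProb_nonneg {q : ℝ} (hq : 0 ≤ q) (hq1 : q ≤ 1) {n : ℕ} (k : Fin n → Bool) :
    0 ≤ maskProb q k :=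
  Finset.prod_nonneg fun i _ => by split_ifs <;> linarith

theorem sum_maskProb {q : ℝ} (hq : 0 ≤ q) (hq1 : q ≤ 1) (n : ℕ) :
    ∑ k : Fin n → Bool, maskProb q k = 1 := by
  have := sum_mask q (fun _ : Fin n => false) fun _ => 1
  rw [(prob_tr hq hq1 _).pair_const] at this
  simpa using this

noncomputable def Em (q : ℝ) {n m : ℕ} (x : Fin n → Bool) (F : (Fin m → List Bool) → ℝ) : ℝ :=
  ∑ K : Fin m → Fin n → Bool, (∏ j, maskProb q (K j)) * F fun j => subseq x (K j)

theorem Em_succ (q : ℝ) {n m : ℕ} (x : Fin n → Bool) (F : (Fin (m + 1) → List Bool) → ℝ) :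
    Em q x F = ∑ k, maskProb q k * Em q x fun t => F (Fin.cons (subseq x k) t) := by
  simp only [Em]
  rw [sum_cons]
  refine Finset.sum_congr rfl fun k _ => ?_
  rw [Finset.mul_sum]
  refine Finset.sum_congr rfl fun K _ => ?_
  rw [Fin.prod_univ_succ, Fin.cons_zero, mul_assoc]
  congr 3
  ext1 j
  refine Fin.cases rfl (fun _ => rfl) j

theorem Em_one {q : ℝ} (hq : 0 ≤ q) (hq1 : q ≤ 1) {n : ℕ} (x : Fin n → Bool) (m : ℕ) :
    Em q x (m := m) (fun _ => 1) = 1 := by
  induction m with
  | zero => simp [Em]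
  | succ m ih => rw [Em_succ]; simp [ih, sum_maskProb hq hq1]

theorem Em_mono {q : ℝ} (hq : 0 ≤ q) (hq1 : q ≤ 1) {n m : ℕ} (x : Fin n → Bool)
    {F G : (Fin m → List Bool) → ℝ} (h : ∀ t, F t ≤ G t) : Em q x F ≤ Em q x G :=
  Finset.sum_le_sum fun _ _ => mul_le_mul_of_nonneg_left (h _)
    (Finset.prod_nonneg fun _ _ => maskProb_nonneg hq hq1 _)

theorem Em_sub (q : ℝ) {n m : ℕ} (x : Fin n → Bool) (F G : (Fin m → List Bool) → ℝ) :
    Em q x (fun t => F t - G t) = Em q x F - Em q x G := by
  simp [Em, mul_sub, Finset.sum_sub_distrib]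

theorem Em_tv {q : ℝ} (hq : 0 ≤ q) (hq1 : q ≤ 1) {n : ℕ} (x y : Fin n → Bool) (m : ℕ)
    (F : (Fin m → List Bool) → ℝ) (h0 : ∀ t, 0 ≤ F t) (h1 : ∀ t, F t ≤ 1) :
    Em q x F - Em q y F
      ≤ m * ‖tr q (FreeMonoid.ofList (List.ofFn x)) - tr q (FreeMonoid.ofList (List.ofFn y))‖ := by
  induction m with
  | zero =>
    simp only [Em, Nat.cast_zero, zero_mul, sub_nonpos]
    exact Finset.sum_le_sum fun K _ => le_of_eq (by congr 2; exact Subsingleton.elim _ _)
  | succ m ih =>
    rw [Em_succ, Em_succ]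
    have a1 : ∑ k, maskProb q k * Em q x (fun t => F (Fin.cons (subseq x k) t))
        ≤ ∑ k, maskProb q k * (Em q y (fun t => F (Fin.cons (subseq x k) t)) + m *
          ‖tr q (FreeMonoid.ofList (List.ofFn x)) - tr q (FreeMonoid.ofList (List.ofFn y))‖) :=
      Finset.sum_le_sum fun k _ => mul_le_mul_of_nonneg_left
        (by linarith [ih (fun t => F (Fin.cons (subseq x k) t)) (fun _ => h0 _) fun _ => h1 _])
        (maskProb_nonneg hq hq1 _)
    simp only [mul_add, Finset.sum_add_distrib, ← Finset.sum_mul, sum_maskProb hq hq1] at a1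
    rw [sum_mask q x fun l => Em q y fun t => F (Fin.cons l t)] at a1
    rw [sum_mask q y fun l => Em q y fun t => F (Fin.cons l t)]
    have a2 := pair_le_norm (tr q (FreeMonoid.ofList (List.ofFn x))
      - tr q (FreeMonoid.ofList (List.ofFn y)))
      (h := fun w => Em q y fun t => F (Fin.cons w.toList t)) fun w => by
        have b1 := Em_mono hq hq1 y (F := fun _ => 0) fun t => h0 (Fin.cons w.toList t)
        have b2 := Em_mono hq hq1 y fun t => h1 (Fin.cons w.toList t)
        rw [Em_one hq hq1] at b2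
        have b3 : Em q y (m := m) (fun _ => 0) = 0 := by simp [Em]
        rw [abs_le]; constructor <;> linarith
    rw [pair_sub_left] at a2
    push_cast; linarith

theorem Reconstructs.lower {q : ℝ} (hq : 0 ≤ q) (hq1 : q ≤ 1) {n m : ℕ} (h : Reconstructs q n m)
    {x y : FreeMonoid Bool} (hxy : x ≠ y) (hx : x.length = n) (hy : y.length = n) :
    1 / 3 ≤ m * ‖tr q x - tr q y‖ := by
  obtain ⟨est, h0, h1, h2⟩ := h
  have hf : ∀ w : FreeMonoid Bool, w.length = n →
      ∃ f : Fin n → Bool, FreeMonoid.ofList (List.ofFn f) = w := by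
    rintro w rfl
    exact ⟨w.toList.get, congrArg FreeMonoid.ofList (List.ofFn_get w.toList)⟩
  obtain ⟨f, rfl⟩ := hf x hx
  obtain ⟨g, rfl⟩ := hf y hy
  have hfg : f ≠ g := fun h => hxy (by rw [h])
  have h3 : ∀ t, est t f + est t g ≤ 1 := fun t => by
    rw [← h1 t, ← Finset.sum_pair hfg]
    exact Finset.sum_le_sum_of_subset_of_nonneg (Finset.subset_univ _) fun _ _ _ => h0 _ _
  have h4 := Em_tv hq hq1 f g m (fun t => est t f) (fun t => h0 _ _)
    fun t => by linarith [h3 t, h0 t g]
  have h5 := Em_mono hq hq1 g (F := fun t => est t f) (G := fun t => 1 - est t g)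
    fun t => by linarith [h3 t]
  rw [Em_sub, Em_one hq hq1] at h5
  have h6 : 2 / 3 ≤ Em q f fun t => est t f := h2 f
  have h7 : 2 / 3 ≤ Em q g fun t => est t g := h2 g
  linarith

theorem exists_reconstructs {q : ℝ} (hq : 0 ≤ q) (hq1 : q < 1) (n : ℕ) :
    ∃ m, Reconstructs q n m := by
  classical
  have hp : 0 < (1 - q) ^ n := pow_pos (by linarith) n
  obtain ⟨m, hm⟩ := exists_pow_lt_of_lt_one (show (0 : ℝ) < 1 / 3 by norm_num)
    (show 1 - (1 - q) ^ n < 1 by linarith)
  let out : (Fin m → List Bool) → (Fin n → Bool) := fun t =>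
    if h : ∃ y : Fin n → Bool, ∃ j, t j = List.ofFn y then h.choose else fun _ => false
  refine ⟨m, fun t y => if y = out t then 1 else 0, fun t y => by dsimp only; split_ifs <;> norm_num,
    fun t => by simp, fun x => ?_⟩
  have e0 : (List.finRange n).map x = List.ofFn x := by rw [List.ofFn_eq_map]
  have h1 : ∀ K : Fin m → Fin n → Bool, 1 - (∏ j, if K j = fun _ => true then (0 : ℝ) else 1)
      ≤ if x = out fun j => subseq x (K j) then 1 else 0 := by
    intro K
    by_cases hK : ∃ j, K j = fun _ => true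
    · obtain ⟨j, hj⟩ := hK
      have h2 : ∃ y : Fin n → Bool, ∃ j, subseq x (K j) = List.ofFn y :=
        ⟨x, j, by simp [subseq, hj, e0]⟩
      have h3 : x = out fun j => subseq x (K j) := by
        simp only [out, dif_pos h2]
        obtain ⟨i, hi⟩ := h2.choose_spec
        have h4 : (subseq x (K i)).Sublist (List.ofFn x) := e0 ▸ List.filter_sublist.map x
        have h5 := h4.eq_of_length (by rw [hi]; simp)
        exact List.ofFn_injective (h5.symm.trans hi)
      rw [if_pos h3, Finset.prod_eq_zero (f := fun j => if K j = fun _ => true then (0 : ℝ) else 1)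
        (Finset.mem_univ j) (if_pos hj), sub_zero]
    · push Not at hK
      simp only [hK, if_false, Finset.prod_const_one, sub_self]
      split_ifs <;> norm_num
  have h2 : ∑ K : Fin m → Fin n → Bool, (∏ j, maskProb q (K j))
      * (1 - ∏ j, if K j = fun _ => true then (0 : ℝ) else 1) = 1 - (1 - (1 - q) ^ n) ^ m := by
    simp only [mul_sub, mul_one, Finset.sum_sub_distrib, ← Finset.prod_mul_distrib]
    rw [← Fintype.piFinset_univ, ← Finset.prod_univ_sum (fun _ => univ) fun _ k => maskProb q k,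
      ← Finset.prod_univ_sum (fun _ => univ)
        fun _ k => maskProb q k * if k = fun _ => true then (0 : ℝ) else 1]
    have h3 : ∑ k : Fin n → Bool, maskProb q k * (if k = fun _ => true then (0 : ℝ) else 1)
        = 1 - (1 - q) ^ n := by
      have : ∀ k : Fin n → Bool, maskProb q k * (if k = fun _ => true then (0 : ℝ) else 1)
          = maskProb q k - if k = fun _ => true then maskProb q k else 0 := by
        intro k; split_ifs <;> simp
      simp only [this, Finset.sum_sub_distrib, sum_maskProb hq hq1.le, Finset.sum_ite_eq',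
        Finset.mem_univ, if_true]
      simp [maskProb]
    rw [h3, sum_maskProb hq hq1.le]
    simp
  have h3 : 1 - (1 - (1 - q) ^ n) ^ m
      ≤ successProb q (fun t y => if y = out t then 1 else 0) x := by
    rw [← h2]
    exact Finset.sum_le_sum fun K _ => mul_le_mul_of_nonneg_left (h1 K)
      (Finset.prod_nonneg fun _ _ => maskProb_nonneg hq hq1.le _)
  linarith

theorem superpoly {q : ℝ} (hq : 0 < q) (hq1 : q < 1) : ∀ᶠ n : ℕ in Filter.atTop,
    (n : ℝ) ^ (1 / 30000 * Real.log (Real.log n)) ≤ sampleComplexity q n := by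
  obtain ⟨k₀, hk₀⟩ := exists_close hq hq1
  filter_upwards [Filter.eventually_ge_atTop (2 ^ (1218 * 32 ^ (k₀ + 4)))] with n hn
  have hex : ∃ k, n < 2 ^ (1218 * 32 ^ (k + 1)) := by
    refine ⟨n, lt_of_lt_of_le Nat.lt_two_pow_self (Nat.pow_le_pow_right (by norm_num) ?_)⟩
    have := (Nat.lt_pow_self (show 1 < 32 by norm_num) (n := n + 1)).le
    omega
  obtain ⟨k, hk1, hk2⟩ : ∃ k, n < 2 ^ (1218 * 32 ^ (k + 1)) ∧ ∀ j < k, ¬n < 2 ^ (1218 * 32 ^ (j + 1)) :=
    ⟨Nat.find hex, Nat.find_spec hex, fun j hj => Nat.find_min hex hj⟩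
  have hk3 : k₀ + 4 ≤ k := by
    have a1 := (Nat.pow_lt_pow_iff_right (show 1 < 2 by norm_num)).mp (hn.trans_lt hk1)
    have a2 := (Nat.pow_lt_pow_iff_right (show 1 < 32 by norm_num)).mp
      (Nat.lt_of_mul_lt_mul_left a1)
    omega
  have hk4 := not_lt.mp (hk2 (k - 1) (by omega))
  rw [show k - 1 + 1 = k by omega] at hk4
  obtain ⟨x, y, hxy, hx, hy, hd⟩ := hk₀ k (by omega) n hk4
  have h0 : sampleComplexity q n ∈ {m | Reconstructs q n m} :=
    Nat.sInf_mem (exists_reconstructs hq.le hq1 n)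
  have h1 := Reconstructs.lower hq.le hq1.le h0 hxy hx hy
  have h2 : (2 : ℝ) ^ (14 * k * 32 ^ k) ≤ 9 * sampleComplexity q n := by
    have := h1.trans (mul_le_mul_of_nonneg_left hd (Nat.cast_nonneg _))
    rw [mul_div_assoc', div_le_div_iff₀ (by norm_num) (by positivity)] at this
    linarith
  have hn2 : 2 ≤ n := le_trans (Nat.le_self_pow (by positivity) 2) hn
  have hn1 : (2 : ℝ) ≤ n := by exact_mod_cast hn2
  have hnle : (n : ℝ) ≤ 2 ^ (1218 * 32 ^ (k + 1)) := by exact_mod_cast hk1.le
  have hl2 : Real.log 2 ≤ 1 := by linarith [Real.log_two_lt_d9]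
  have h3 : Real.log n ≤ 2 ^ (5 * (k + 4)) := by
    refine (Real.log_le_log (by linarith) hnle).trans ?_
    rw [Real.log_pow, pow_mul]
    push_cast
    have : (0 : ℝ) < 32 ^ (k + 1) := by positivity
    rw [show k + 4 = k + 1 + 3 by ring, pow_add _ (k + 1)]
    norm_num
    nlinarith
  have h4 : Real.log (Real.log n) ≤ 10 * k := by
    refine (Real.log_le_log (Real.log_pos (by linarith)) h3).trans ?_
    rw [Real.log_pow]
    have : (4 : ℝ) ≤ k := by exact_mod_cast (show 4 ≤ k by omega)
    push_cast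
    nlinarith
  have h5 : (n : ℝ) ^ (1 / 30000 * Real.log (Real.log n)) ≤ 2 ^ (13 * k * 32 ^ k) := by
    calc (n : ℝ) ^ (1 / 30000 * Real.log (Real.log n)) ≤ (n : ℝ) ^ (1 / 30000 * (10 * k : ℝ)) :=
          Real.rpow_le_rpow_of_exponent_le (by linarith) (by linarith)
      _ ≤ ((2 : ℝ) ^ (1218 * 32 ^ (k + 1))) ^ (1 / 30000 * (10 * k : ℝ)) :=
          Real.rpow_le_rpow (by linarith) hnle (by positivity)
      _ ≤ _ := by
          rw [← Real.rpow_natCast, ← Real.rpow_mul (by norm_num), ← Real.rpow_natCast]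
          refine Real.rpow_le_rpow_of_exponent_le (by norm_num) ?_
          push_cast
          have : (0 : ℝ) ≤ k * 32 ^ k := by positivity
          rw [pow_succ]
          nlinarith
  have h6 : (9 : ℝ) * 2 ^ (13 * k * 32 ^ k) ≤ 2 ^ (14 * k * 32 ^ k) := by
    rw [show 14 * k * 32 ^ k = k * 32 ^ k + 13 * k * 32 ^ k by ring, pow_add]
    refine mul_le_mul_of_nonneg_right ?_ (by positivity)
    have a1 : 4 ≤ k * 32 ^ k := by
      have : 1 ≤ 32 ^ k := Nat.one_le_pow _ _ (by norm_num)
      nlinarith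
    exact le_trans (by norm_num) (pow_le_pow_right₀ (by norm_num) a1)
  linarith

end Vale.Agent.P321
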