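import Vale.Agent.P321.Slip

/-! The lattice lemma, part one: the chi-square recursion. -/

open Finset

namespace Vale.Agent.P321

variable {M : Type*}

theorem pair_cs {ρ : Alg M} (hρ : Nonneg ρ) {b A B : M → ℝ} (hA : ∀ w, 0 ≤ A w)
    (hB : ∀ w, 0 ≤ B w) (h : ∀ w, ρ.coeff w ≠ 0 → b w ^ 2 ≤ A w * B w) :
    (pair ρ b) ^ 2 ≤ pair ρ A * pair ρ B := by
  have h1 : |pair ρ b| ≤ pair ρ fun w => Real.sqrt (A w) * Real.sqrt (B w) := by
    refine (norm_pair_le hρ b).trans (pair_mono_on hρ fun w hw => ?_)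
    rw [← Real.sqrt_mul (hA w), Real.norm_eq_abs]
    exact Real.abs_le_sqrt (h w hw)
  have h2 := pair_mul_sq_le hρ (fun w => Real.sqrt (A w)) (fun w => Real.sqrt (B w))
  simp only [Real.sq_sqrt (hA _), Real.sq_sqrt (hB _)] at h2
  rw [← sq_abs]
  exact (pow_le_pow_left₀ (abs_nonneg _) h1 2).trans h2

noncomputable def pairL {E : Type*} [AddCommGroup E] [Module ℝ E] (h : M → E) : Alg M →ₗ[ℝ] E where
  toFun γ := pair γ h
  map_add' α β := pair_add_left α β h
  map_smul' c α := pair_smul_left c α h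

theorem pair_pair {N E : Type*} [AddCommGroup E] [Module ℝ E] (U : Alg N) (f : N → Alg M)
    (h : M → E) : pair (pair U f) h = pair U fun c => pair (f c) h :=
  pair_map (pairL h) U f

theorem coeff_pair {N : Type*} (U : Alg N) (f : N → Alg M) (w : M) :
    (pair U f).coeff w = pair U fun c => (f c).coeff w := by
  simp only [coeff_eq_pair, pair_pair]

theorem prob_pair {N : Type*} {U : Alg N} (hU : Prob U) {f : N → Alg M} (hf : ∀ c, Prob (f c)) :
    Prob (pair U f) :=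
  ⟨fun w => by rw [coeff_pair]; exact pair_nonneg hU.nonneg fun c => (hf c).nonneg w, by
    rw [mass, pair_pair]; simp only [(hf _).pair_const, hU.pair_const]⟩

theorem Chi.chi2_le {γ ρ : Alg M} {B : ℝ} (h : Chi γ ρ B) (hρ : Nonneg ρ) (hB : 0 ≤ B) :
    (pair ρ fun w => (γ.coeff w / ρ.coeff w) ^ 2) ≤ B := by
  have h1 := h fun w => γ.coeff w / ρ.coeff w
  have h2 : (pair γ fun w => γ.coeff w / ρ.coeff w)
      = pair ρ fun w => (γ.coeff w / ρ.coeff w) ^ 2 := by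
    conv_lhs => rw [eq_dens_of_ac h.ac]
    rw [pair_dens]
    refine pair_congr _ fun w hw => ?_
    simp only [dens_coeff, smul_eq_mul]
    field_simp
  rw [h2] at h1
  have h3 : 0 ≤ pair ρ fun w => (γ.coeff w / ρ.coeff w) ^ 2 := pair_nonneg hρ fun _ => sq_nonneg _
  rcases eq_or_lt_of_le h3 with h4 | h4
  · linarith
  · nlinarith

theorem norm_sq_le_chi2 {γ ρ : Alg M} (h : ∀ w, ρ.coeff w = 0 → γ.coeff w = 0) (hρ : Prob ρ) :
    ‖γ‖ ^ 2 ≤ pair ρ fun w => (γ.coeff w / ρ.coeff w) ^ 2 := by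
  have h3 : 0 ≤ pair ρ fun w => (γ.coeff w / ρ.coeff w) ^ 2 :=
    pair_nonneg hρ.nonneg fun _ => sq_nonneg _
  have h1 : Chi γ ρ (pair ρ fun w => (γ.coeff w / ρ.coeff w) ^ 2) := by
    intro k
    conv_lhs => rw [eq_dens_of_ac h]
    rw [pair_dens]
    exact pair_mul_sq_le hρ.nonneg _ _
  have h2 := h1.norm_sq_le hρ h3
  calc ‖γ‖ ^ 2 ≤ Real.sqrt _ ^ 2 := pow_le_pow_left₀ (norm_nonneg _) h2 2
    _ = _ := Real.sq_sqrt h3

theorem chi_bind [Monoid M] {Γ ρ μ : Alg M} (hρ : Nonneg ρ) (hμ : Nonneg μ)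
    (L : M → (M → ℝ) → ℝ) (B : M → ℝ) (hB : ∀ w, 0 ≤ B w)
    (hΓ : ∀ h, pair Γ h = pair ρ fun w => L w fun o => h (w * o))
    (hL : ∀ w k, (L w k) ^ 2 ≤ B w * pair μ fun o => k o ^ 2) : Chi Γ (ρ * μ) (pair ρ B) := by
  intro h
  rw [hΓ, pair_mul]
  exact pair_cs hρ hB (fun w => pair_nonneg hμ fun _ => sq_nonneg _) fun w _ => hL w _

theorem stage {N : Type*} {U : Alg N} (hU : Prob U) {α : N → Alg M} (hα : ∀ c, Prob (α c))
    {ν : Alg M} (hν : Nonneg ν) (hν1 : 1 / 2 ≤ mass ν)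
    (hν2 : ∀ c, U.coeff c ≠ 0 → Nonneg (α c - ν)) (y : N → ℝ) (k : M → ℝ) {b Bb : ℝ}
    (hBb : 0 ≤ Bb)
    (hb : b ^ 2 ≤ Bb * pair (pair U α) fun o => (k o - pair (pair U α) k) ^ 2) :
    ((pair U fun c => y c * pair (α c) k) + b) ^ 2
      ≤ (1 / 4 * (pair U y) ^ 2 + 3 / 4 * (pair U fun c => y c ^ 2) + 3 * Bb)
        * pair (pair U α) fun o => k o ^ 2 := by
  have hμ := prob_pair hU hα
  obtain ⟨kb, hkb⟩ : ∃ kb, kb = pair (pair U α) k := ⟨_, rfl⟩
  obtain ⟨yb, hyb⟩ : ∃ yb, yb = pair U y := ⟨_, rfl⟩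
  have hv := hμ.var_eq k
  have hy := hU.var_eq y
  rw [← hkb] at hv hb
  rw [← hyb] at hy ⊢
  have e1 : (pair U fun c => y c * pair (α c) k)
      = yb * kb + pair U fun c => (y c - yb) * pair (α c - ν) fun o => k o - kb := by
    have e2 : ∀ c, (y c - yb) * pair (α c - ν) (fun o => k o - kb)
        = y c * pair (α c) k - yb * pair (α c) k
          - (kb + pair ν fun o => k o - kb) * (y c - yb) := by
      intro c
      rw [pair_sub_left, pair_sub_right (α c), (hα c).pair_const]; ring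
    simp only [e2]
    rw [pair_sub_right, pair_sub_right, pair_mul_right, pair_mul_right, pair_sub_right U y,
      hU.pair_const, ← pair_pair, ← hkb, ← hyb]
    ring
  have h1 : (pair U fun c => (y c - yb) * pair (α c - ν) fun o => k o - kb) ^ 2
      ≤ (pair U fun c => (y c - yb) ^ 2)
        * pair U fun c => 1 / 2 * pair (α c) fun o => (k o - kb) ^ 2 := by
    refine pair_cs hU.nonneg (fun _ => sq_nonneg _)
      (fun c => mul_nonneg (by norm_num) (pair_nonneg (hα c).nonneg fun _ => sq_nonneg _))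
      fun c hc => ?_
    rw [mul_pow]
    refine mul_le_mul_of_nonneg_left ?_ (sq_nonneg _)
    have h2 := norm_pair_sq_le (hν2 c hc) fun o => k o - kb
    simp only [Real.norm_eq_abs, sq_abs] at h2
    rw [mass_sub, (hα c).mass_eq, pair_sub_left (α c) ν fun o => (k o - kb) ^ 2] at h2
    have h3 : 0 ≤ pair ν fun o => (k o - kb) ^ 2 := pair_nonneg hν fun _ => sq_nonneg _
    have h4 : 0 ≤ pair (α c - ν) fun o => (k o - kb) ^ 2 :=
      pair_nonneg (hν2 c hc) fun _ => sq_nonneg _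
    rw [pair_sub_left] at h4
    nlinarith
  rw [pair_mul_right, ← pair_pair] at h1
  have hv0 : 0 ≤ pair (pair U α) fun o => (k o - kb) ^ 2 :=
    pair_nonneg hμ.nonneg fun _ => sq_nonneg _
  have hy0 : 0 ≤ pair U fun c => (y c - yb) ^ 2 := pair_nonneg hU.nonneg fun _ => sq_nonneg _
  rw [e1]
  have e3 : (pair (pair U α) fun o => k o ^ 2)
      = kb ^ 2 + pair (pair U α) fun o => (k o - kb) ^ 2 := by linarith
  have e4 : (pair U fun c => y c ^ 2) = yb ^ 2 + pair U fun c => (y c - yb) ^ 2 := by linarith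
  rw [e3, e4]
  generalize (pair (pair U α) fun o => (k o - kb) ^ 2) = v at *
  generalize (pair U fun c => (y c - yb) ^ 2) = vy at *
  generalize (pair U fun c => (y c - yb) * pair (α c - ν) fun o => k o - kb) = A at *
  obtain ⟨C, hC⟩ : ∃ C, C = 3 / 4 * vy + 3 * Bb := ⟨_, rfl⟩
  have hC0 : 0 ≤ C := by rw [hC]; positivity
  have h5 : (A + b) ^ 2 ≤ C * v := by rw [hC]; nlinarith [sq_nonneg (A - 2 * b)]
  have h6 : (kb * yb * (A + b)) ^ 2 ≤ (yb ^ 2 * v) * (C * kb ^ 2) := by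
    have := mul_le_mul_of_nonneg_left h5 (sq_nonneg (kb * yb))
    nlinarith
  have h7 : 2 * (kb * yb * (A + b)) ≤ yb ^ 2 * v + C * kb ^ 2 := by
    have h8 : 0 ≤ yb ^ 2 * v := by positivity
    have h9 : 0 ≤ C * kb ^ 2 := by positivity
    refine (abs_le_of_sq_le_sq' ?_ (by positivity)).2
    nlinarith [sq_nonneg (yb ^ 2 * v - C * kb ^ 2)]
  have e5 : 1 / 4 * yb ^ 2 + 3 / 4 * (yb ^ 2 + vy) + 3 * Bb = yb ^ 2 + C := by rw [hC]; ring
  rw [e5]
  nlinarith

abbrev NN := Multiplicative ℕ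

section cv
variable {E : Type*} [AddCommGroup E] [Module ℝ E]

noncomputable def cv (α : Alg NN) (x : ℤ → E) (n : ℤ) : E :=
  pair α fun Q => x (n - (Q.toAdd : ℕ))

theorem cv_one (x : ℤ → E) : cv 1 x = x := by
  ext n; simp [cv, pair_one]

theorem cv_mul (α β : Alg NN) (x : ℤ → E) (n : ℤ) :
    cv (α * β) x n = pair β fun c => cv α x (n - (c.toAdd : ℕ)) := by
  rw [cv, pair_mul']
  refine congrArg _ (funext fun c => congrArg _ (funext fun Q => congrArg _ ?_))
  simp only [toAdd_mul]; push_cast; ring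

theorem cv_neg (α : Alg NN) {x : ℤ → E} (hx : ∀ n < 0, x n = 0) (n : ℤ) (hn : n < 0) :
    cv α x n = 0 := by
  rw [cv, ← pair_zero_right α]
  exact congrArg _ (funext fun Q => hx _ (by omega))

end cv

theorem sum_shift_le {f : ℤ → ℝ} (h0 : ∀ n, 0 ≤ f n) (hx : ∀ n < 0, f n = 0) (L Q : ℕ) :
    ∑ n ∈ range L, f ((n : ℤ) - Q) ≤ ∑ n ∈ range L, f n := by
  have : ∀ L : ℕ, ∑ n ∈ range L, f ((n : ℤ) - Q) = ∑ n ∈ range (L - Q), f n := by
    intro L
    induction L with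
    | zero => simp
    | succ L ih =>
      rw [Finset.sum_range_succ, ih]
      rcases lt_or_ge L Q with h | h
      · rw [hx _ (by omega), add_zero, show L - Q = L + 1 - Q by omega]
      · rw [show L + 1 - Q = L - Q + 1 by omega, Finset.sum_range_succ]
        congr 2; omega
  rw [this]
  exact Finset.sum_le_sum_of_subset_of_nonneg (Finset.range_subset_range.mpr (Nat.sub_le _ _))
    fun n _ _ => h0 n

theorem sum_cv_le {α : Alg NN} (hα : Prob α) {f : ℤ → ℝ} (h0 : ∀ n, 0 ≤ f n)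
    (hx : ∀ n < 0, f n = 0) (L : ℕ) : ∑ n ∈ range L, cv α f n ≤ ∑ n ∈ range L, f n := by
  simp only [cv]
  rw [← pair_sum_right]
  exact hα.pair_le fun Q _ => sum_shift_le h0 hx L _

theorem fold_bound {N : ℕ} [NeZero N] {α : Alg NN} (hα : Nonneg α) {m : ℝ}
    (hm : ∀ r : ZMod N, (pair α fun Q => if ((Q.toAdd : ℕ) : ZMod N) = r then (1 : ℝ) else 0) ≤ m)
    (x : ℤ → ℝ) (z : ZMod N → ℝ) (ψ : ZMod N) (n : ℤ) :
    (cv α (fun j => x j * z (ψ + j)) n) ^ 2
      ≤ (m * cv α (fun j => x j ^ 2) n) * ∑ r, z r ^ 2 := by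
  have e1 : cv α (fun j => x j * z (ψ + j)) n = ∑ r, (pair α fun Q =>
      (if ((Q.toAdd : ℕ) : ZMod N) = ψ + n - r then (1 : ℝ) else 0) * x (n - (Q.toAdd : ℕ))) * z r := by
    simp only [← pair_right_mul]
    rw [← pair_sum_right, cv]
    refine congrArg _ (funext fun Q => ?_)
    rw [Finset.sum_eq_single (ψ + ((n - (Q.toAdd : ℕ) : ℤ) : ZMod N))]
    · rw [if_pos (by push_cast; ring), one_mul]
    · intro r _ hr
      rw [if_neg, zero_mul, zero_mul]
      intro h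
      apply hr
      push_cast
      rw [h]; ring
    · simp
  rw [e1]
  refine (Finset.sum_mul_sq_le_sq_mul_sq _ _ _).trans
    (mul_le_mul_of_nonneg_right ?_ (Finset.sum_nonneg fun _ _ => sq_nonneg _))
  have e2 : cv α (fun j => x j ^ 2) n = ∑ r, (pair α fun Q =>
      (if ((Q.toAdd : ℕ) : ZMod N) = ψ + n - r then (1 : ℝ) else 0) * x (n - (Q.toAdd : ℕ)) ^ 2) := by
    rw [← pair_sum_right, cv]
    refine congrArg _ (funext fun Q => ?_)
    rw [Finset.sum_eq_single (ψ + n - ((Q.toAdd : ℕ) : ZMod N))]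
    · rw [if_pos (by ring), one_mul]
    · intro r _ hr
      rw [if_neg, zero_mul]
      intro h
      apply hr
      rw [h]; ring
    · simp
  rw [e2, Finset.mul_sum]
  refine Finset.sum_le_sum fun r _ => ?_
  have h2 : ∀ Q : NN, 0 ≤ (if ((Q.toAdd : ℕ) : ZMod N) = ψ + n - r then (1 : ℝ) else 0) := by
    intro Q; split_ifs <;> norm_num
  refine (pair_cs hα h2 (fun Q => mul_nonneg (h2 Q) (sq_nonneg (x (n - (Q.toAdd : ℕ)))))
    fun Q _ => ?_).trans ?_
  · split_ifs <;> simp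
  · exact mul_le_mul_of_nonneg_right (hm _)
      (pair_nonneg hα fun Q => mul_nonneg (h2 Q) (sq_nonneg _))

end Vale.Agent.P321
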