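import Vale.Agent.P321.Core

/-! The lattice lemma, part three: slip of the period word. -/

open Finset

namespace Vale.Agent.P321

noncomputable def zz : Alg NN := MonoidAlgebra.single (Multiplicative.ofAdd 1) 1

theorem zz_pow (c : ℕ) : zz ^ c = MonoidAlgebra.single (Multiplicative.ofAdd c) 1 := by
  rw [zz, MonoidAlgebra.single_pow, one_pow, ← ofAdd_nsmul, smul_eq_mul, mul_one]

theorem prob_zz : Prob zz := prob_single _

noncomputable def unif (σ : ℕ) : Alg NN := (σ : ℝ)⁻¹ • ∑ c ∈ range σ, zz ^ c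

theorem pair_unif (σ : ℕ) (f : NN → ℝ) :
    pair (unif σ) f = (σ : ℝ)⁻¹ * ∑ c ∈ range σ, f (Multiplicative.ofAdd c) := by
  simp [unif, pair_smul_left, pair_sum_left, zz_pow, pair_single]

theorem prob_unif {σ : ℕ} (hσ : 0 < σ) : Prob (unif σ) :=
  ⟨(nonneg_sum _ fun c _ => (prob_zz.pow c).nonneg).smul (by positivity), by
    have : (σ : ℝ) ≠ 0 := by positivity
    simp [mass, pair_unif, this]⟩

theorem unif_supp {σ : ℕ} (c : NN) (hc : (unif σ).coeff c ≠ 0) : c.toAdd < σ := by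
  by_contra h
  apply hc
  rw [coeff_eq_pair, pair_unif, Finset.sum_eq_zero, mul_zero]
  intro j hj
  rw [if_neg]
  rintro rfl
  exact h (Finset.mem_range.mp hj)

theorem unif_two_mul (σ : ℕ) : unif (2 * σ) = unif σ * ((1 / 2 : ℝ) • (1 + zz ^ σ)) := by
  rw [unif, unif, two_mul, Finset.sum_range_add, smul_mul_smul_comm, mul_add, mul_one,
    Finset.sum_mul]
  congr 1
  · push_cast; rw [← two_mul, mul_inv, mul_comm]; norm_num
  · congr 1
    exact Finset.sum_congr rfl fun c _ => by rw [pow_add, mul_comm]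

theorem one_sub_mul_unif (σ : ℕ) : (1 - zz) * unif σ = (σ : ℝ)⁻¹ • (1 - zz ^ σ) := by
  rw [unif, mul_smul_comm, mul_neg_geom_sum]

theorem norm_diff_unif {σ : ℕ} (hσ : 0 < σ) (F : ℕ) :
    ‖(1 - zz) * unif (2 * σ) ^ (F + 1)‖ ≤ 2 / (σ * Real.sqrt (F + 2)) := by
  have h1 := binomial_bound (prob_zz.pow σ) (F + 1)
  have e : (1 - zz) * unif (2 * σ) ^ (F + 1)
      = (σ : ℝ)⁻¹ • (unif σ ^ F * ((1 - zz ^ σ) * ((1 / 2 : ℝ) • (1 + zz ^ σ)) ^ (F + 1))) := by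
    rw [unif_two_mul, mul_pow, pow_succ' (unif σ), ← mul_assoc, ← mul_assoc, one_sub_mul_unif,
      smul_mul_assoc, smul_mul_assoc]
    congr 1; ring
  rw [e, norm_smul, Real.norm_eq_abs, abs_of_nonneg (by positivity)]
  have h2 := ((prob_unif hσ).pow F).norm_mul_le
    ((1 - zz ^ σ) * ((1 / 2 : ℝ) • (1 + zz ^ σ)) ^ (F + 1))
  have h3 : ‖(1 - zz ^ σ) * ((1 / 2 : ℝ) • (1 + zz ^ σ)) ^ (F + 1)‖ ≤ 2 / Real.sqrt (F + 2) := by
    refine (abs_le_of_sq_le_sq' (h1.trans (le_of_eq ?_)) (by positivity)).2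
    rw [div_pow, Real.sq_sqrt (by positivity)]; push_cast; ring
  refine (mul_le_mul_of_nonneg_left (h2.trans h3) (by positivity)).trans (le_of_eq ?_)
  have : (σ : ℝ) ≠ 0 := by positivity
  field_simp

theorem fold_le {N : ℕ} [NeZero N] {α : Alg NN} (hα : Prob α) (r : ZMod N) :
    (pair α fun Q => if ((Q.toAdd : ℕ) : ZMod N) = r then (1 : ℝ) else 0)
      ≤ 1 / N + ‖(1 - zz) * α‖ := by
  have hN : (0 : ℝ) < N := by exact_mod_cast Nat.pos_of_ne_zero (NeZero.ne N)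
  have h1 := pair_le_norm ((1 - zz) * α)
    (h := fun Q => ((((Q.toAdd : ℕ) : ZMod N) - r - 1).val : ℝ) / N) fun Q => by
      rw [abs_of_nonneg (by positivity), div_le_one hN]
      exact_mod_cast (ZMod.val_lt _).le
  rw [pair_mul'] at h1
  refine le_trans ?_ (add_le_add_right h1 _)
  rw [← hα.pair_const (1 / N : ℝ), ← pair_add_right]
  refine pair_mono hα.nonneg fun Q => ?_
  rw [pair_sub_left, pair_one, zz, pair_single, one_smul, one_mul, toAdd_mul, toAdd_ofAdd,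
    ← sub_div, ← add_div, le_div_iff₀ hN]
  have e : (((1 + Q.toAdd : ℕ) : ZMod N) - r - 1) = (((Q.toAdd : ℕ) : ZMod N) - r - 1) + 1 := by
    push_cast; ring
  rw [e]
  split_ifs with h
  · rw [h, sub_self, zero_sub, neg_add_cancel, ZMod.val_zero]
    obtain ⟨n, rfl⟩ := Nat.exists_eq_succ_of_ne_zero (NeZero.ne N)
    rw [ZMod.val_neg_one]; push_cast; linarith
  · have h2 := ZMod.val_add_le (((Q.toAdd : ℕ) : ZMod N) - r - 1) 1
    have h3 : (1 : ZMod N).val ≤ 1 := by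
      rw [ZMod.val_one_eq_one_mod]; exact Nat.mod_le _ _
    have h4 : (((((Q.toAdd : ℕ) : ZMod N) - r - 1) + 1).val : ℝ)
        ≤ (((Q.toAdd : ℕ) : ZMod N) - r - 1).val + 1 := by exact_mod_cast h2.trans (by omega)
    linarith

theorem sum_inv_sqrt_le (n : ℕ) : ∑ F ∈ range n, 1 / Real.sqrt (F + 1) ≤ 2 * Real.sqrt n := by
  induction n with
  | zero => simp
  | succ n ih =>
    rw [Finset.sum_range_succ]
    have h1 : 0 < Real.sqrt (n + 1) := by positivity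
    have h2 := Real.sq_sqrt (show (0 : ℝ) ≤ n + 1 by positivity)
    have h3 := Real.sq_sqrt (show (0 : ℝ) ≤ n by positivity)
    have h4 : 1 / Real.sqrt (n + 1) ≤ 2 * Real.sqrt (n + 1) - 2 * Real.sqrt n := by
      rw [div_le_iff₀ h1]
      nlinarith [sq_nonneg (Real.sqrt (n + 1) - Real.sqrt n)]
    push_cast
    linarith

theorem var_pow {U : Alg NN} (hU : Prob U) {σ : ℕ} (hσ : ∀ c, U.coeff c ≠ 0 → c.toAdd < σ)
    (i : ℕ) : (pair (U ^ i) fun Q =>
      (((Q.toAdd : ℕ) : ℝ) - i * pair U fun c => ((c.toAdd : ℕ) : ℝ)) ^ 2) ≤ i * σ ^ 2 := by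
  obtain ⟨m, hm⟩ : ∃ m, m = pair U fun c => ((c.toAdd : ℕ) : ℝ) := ⟨_, rfl⟩
  have h1 : (pair U fun c => (((c.toAdd : ℕ) : ℝ) - m) ^ 2) ≤ σ ^ 2 := by
    rw [hm, hU.var_eq]
    have : (pair U fun c => ((c.toAdd : ℕ) : ℝ) ^ 2) ≤ σ ^ 2 := hU.pair_le fun c hc => by
      have : ((c.toAdd : ℕ) : ℝ) ≤ σ := by exact_mod_cast (hσ c hc).le
      gcongr
    nlinarith [sq_nonneg (pair U fun c => ((c.toAdd : ℕ) : ℝ))]
  rw [← hm]
  induction i with
  | zero => simp [pair_one]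
  | succ i ih =>
    rw [pow_succ, pair_mul]
    have h2 : ∀ Q : NN, (pair U fun c =>
        ((((Q * c).toAdd : ℕ) : ℝ) - ((i + 1 : ℕ) : ℝ) * m) ^ 2)
        ≤ (((Q.toAdd : ℕ) : ℝ) - i * m) ^ 2 + σ ^ 2 := by
      intro Q
      have e : (fun c : NN => ((((Q * c).toAdd : ℕ) : ℝ) - ((i + 1 : ℕ) : ℝ) * m) ^ 2)
          = fun c : NN => ((((Q.toAdd : ℕ) : ℝ) - i * m) ^ 2
            + (2 * (((Q.toAdd : ℕ) : ℝ) - i * m)) * (((c.toAdd : ℕ) : ℝ) - m))
            + (((c.toAdd : ℕ) : ℝ) - m) ^ 2 := by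
        ext c; rw [toAdd_mul]; push_cast; ring
      rw [e, pair_add_right, pair_add_right, hU.pair_const, pair_mul_right, pair_sub_right,
        hU.pair_const, ← hm]
      linarith
    refine (pair_mono (hU.pow i).nonneg h2).trans ?_
    rw [pair_add_right, (hU.pow i).pair_const]
    push_cast; linarith

theorem collision {U : Alg NN} (hU : Prob U) {σ : ℕ} (hσ : ∀ c, U.coeff c ≠ 0 → c.toAdd < σ)
    {i w L : ℕ} (hw0 : 0 < w) (hw : 2 * i * σ ^ 2 ≤ w ^ 2) (hL : i * σ + 2 * w + 1 ≤ L) :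
    1 ≤ 4 * (2 * w + 1) * ∑ P ∈ range L, (uu U i P) ^ 2 := by
  have h1 := var_pow hU hσ i
  obtain ⟨m, hm⟩ : ∃ m, m = pair U fun c => ((c.toAdd : ℕ) : ℝ) := ⟨_, rfl⟩
  rw [← hm] at h1
  have hm0 : 0 ≤ m := hm ▸ pair_nonneg hU.nonneg fun _ => Nat.cast_nonneg _
  have hm1 : m ≤ σ := hm ▸ hU.pair_le fun c hc => by exact_mod_cast (hσ c hc).le
  obtain ⟨f, hf⟩ : ∃ f, f = ⌊(i : ℝ) * m⌋₊ := ⟨_, rfl⟩
  have hf1 : (f : ℝ) ≤ i * m := hf ▸ Nat.floor_le (by positivity)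
  have hf2 : (i : ℝ) * m < f + 1 := hf ▸ Nat.lt_floor_add_one _
  have hf3 : f ≤ i * σ := by
    have : (f : ℝ) ≤ i * σ := hf1.trans (by gcongr)
    exact_mod_cast this
  have hw' : (0 : ℝ) < w := by exact_mod_cast hw0
  have h2 : ∑ P ∈ Ico (f - w) (f - w + (2 * w + 1)), uu U i P
      = pair (U ^ i) fun Q => if Q.toAdd ∈ Ico (f - w) (f - w + (2 * w + 1)) then 1 else 0 := by
    simp only [uu, cv]
    rw [← pair_sum_right]
    congr 1; ext Q
    rw [← Finset.sum_ite_eq' (Ico (f - w) (f - w + (2 * w + 1))) Q.toAdd fun _ => (1 : ℝ)]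
    refine Finset.sum_congr rfl fun P _ => ?_
    congr 1
    exact propext ⟨fun h => by omega, fun h => by omega⟩
  have h3 : 1 / 2 ≤ ∑ P ∈ Ico (f - w) (f - w + (2 * w + 1)), uu U i P := by
    rw [h2]
    have h4 : ∀ Q : NN, 1 + (-((w : ℝ) ^ 2)⁻¹) * (((Q.toAdd : ℕ) : ℝ) - i * m) ^ 2
        ≤ if Q.toAdd ∈ Ico (f - w) (f - w + (2 * w + 1)) then 1 else 0 := by
      intro Q
      split_ifs with h
      · have : 0 ≤ ((w : ℝ) ^ 2)⁻¹ * (((Q.toAdd : ℕ) : ℝ) - i * m) ^ 2 := by positivity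
        linarith
      · have h5 : (w : ℝ) ^ 2 ≤ (((Q.toAdd : ℕ) : ℝ) - i * m) ^ 2 := by
          rw [Finset.mem_Ico] at h
          have h6 : Q.toAdd + w ≤ f ∨ f + w + 1 ≤ Q.toAdd := by omega
          rcases h6 with h6 | h6
          · have : ((Q.toAdd : ℕ) : ℝ) + w ≤ f := by exact_mod_cast h6
            nlinarith
          · have : (f : ℝ) + w + 1 ≤ (Q.toAdd : ℕ) := by exact_mod_cast h6
            nlinarith
        have := mul_le_mul_of_nonneg_left h5 (show 0 ≤ ((w : ℝ) ^ 2)⁻¹ by positivity)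
        rw [inv_mul_cancel₀ (by positivity)] at this
        linarith
    refine le_trans ?_ (pair_mono (hU.pow i).nonneg h4)
    rw [pair_add_right, (hU.pow i).pair_const, pair_mul_right]
    have h7 : (2 : ℝ) * i * σ ^ 2 ≤ w ^ 2 := by exact_mod_cast hw
    have h8 := mul_le_mul_of_nonneg_left (show (pair (U ^ i) fun Q =>
      (((Q.toAdd : ℕ) : ℝ) - i * m) ^ 2) ≤ 1 / 2 * w ^ 2 by linarith)
      (show 0 ≤ ((w : ℝ) ^ 2)⁻¹ by positivity)
    rw [mul_left_comm, inv_mul_cancel₀ (by positivity)] at h8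
    linarith
  have h4 := sq_sum_le_card_mul_sum_sq (s := Ico (f - w) (f - w + (2 * w + 1)))
    (f := fun P : ℕ => uu U i P)
  rw [Nat.card_Ico, Nat.add_sub_cancel_left] at h4
  have h5 : ∑ P ∈ Ico (f - w) (f - w + (2 * w + 1)), (uu U i P) ^ 2
      ≤ ∑ P ∈ range L, (uu U i P) ^ 2 :=
    Finset.sum_le_sum_of_subset_of_nonneg (fun P hP => by
      rw [Finset.mem_Ico] at hP; rw [Finset.mem_range]; omega) fun _ _ _ => sq_nonneg _
  push_cast at h4
  have h6 := mul_le_mul_of_nonneg_left h5 (show (0 : ℝ) ≤ 2 * w + 1 by positivity)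
  nlinarith

variable {M : Type*}

theorem exists_common_chain {α : ℕ → Alg M} (hα : ∀ c, Prob (α c)) {η : ℝ}
    (h : ∀ c, ‖α (c + 1) - α c‖ ≤ η) (n : ℕ) :
    ∃ ν, Nonneg ν ∧ 1 - n * η ≤ mass ν ∧ ∀ c ≤ n, Nonneg (α c - ν) := by
  induction n with
  | zero =>
    refine ⟨α 0, (hα 0).nonneg, by simp [(hα 0).mass_eq], fun c hc => ?_⟩
    obtain rfl : c = 0 := by omega
    intro w; simp
  | succ n ih =>
    obtain ⟨ν, h0, h1, h2⟩ := ih
    obtain ⟨ν', k0, k1, k2, -, k4⟩ := exists_common h0 (hα (n + 1)).nonneg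
    refine ⟨ν', k0, ?_, fun c hc => ?_⟩
    · have h3 : mass (ν - ν') ≤ ‖α (n + 1) - α n‖ := by
        obtain ⟨ν₂, l0, l1, l2, l3, l4⟩ := exists_common (hα (n + 1)).nonneg (hα n).nonneg
        have h5 : Bd (ν - ν') (α n - ν₂) := fun w => by
          have a1 := h2 n le_rfl w
          have a2 := k1 w
          simp only [MonoidAlgebra.coeff_sub, Finsupp.sub_apply, k4, l4] at a1 a2 ⊢
          rw [abs_of_nonneg a2]
          rcases le_total (ν.coeff w) ((α (n + 1)).coeff w) with b | b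
          · rw [min_eq_left b]; linarith [min_le_right ((α (n + 1)).coeff w) ((α n).coeff w)]
          · rw [min_eq_right b]; linarith [min_le_left ((α (n + 1)).coeff w) ((α n).coeff w)]
        have h6 := h5.norm_le
        rw [k1.norm_eq, mass_sub (α n), (hα _).mass_eq] at h6
        rw [(hα _).mass_eq, (hα _).mass_eq] at l3
        linarith [norm_nonneg (α (n + 1) - α n)]
      rw [mass_sub] at h3
      have := h n
      push_cast; linarith
    · rcases Nat.lt_or_ge c (n + 1) with hc' | hc'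
      · have := (h2 c (by omega)).add k1
        rwa [sub_add_sub_cancel] at this
      · obtain rfl : c = n + 1 := by omega
        exact k2

variable [Monoid M] {N : ℕ} [NeZero N] {s : Alg M} {Z : ZMod N → ℕ → Alg M} {T : ℝ}

theorem Walk.norm_sub_le (hZ : Walk s N Z T) (hs : Prob s) (hT : 0 ≤ T) (r : ZMod N) {n : ℕ}
    (hn : n ≤ N) : ‖Z r n - s ^ n‖ ≤ Real.sqrt T := by
  refine Chi.norm_sq_le (fun h => le_trans ?_ (hZ.bes n hn h)) (hs.pow n) hT
  exact Finset.single_le_sum (f := fun r => (pair (Z r n - s ^ n) h) ^ 2)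
    (fun _ _ => sq_nonneg _) (Finset.mem_univ r)

theorem exists_good (hs : Prob s) {τ : ℕ} (hτ : Slip s τ) (hZ : Walk s N Z T) (hT : 0 ≤ T)
    {σ t : ℕ} (hσ : 0 < σ) (ht : 0 < t) (ha : (4 * σ) ^ 2 * τ + 2 * σ ≤ N)
    (htσ : t * (2 * σ) ^ 2 ≤ 2 * N) (hTt : T * t ≤ 1 / 10 ^ 8) (φ₁ φ₂ : ZMod N) :
    ∃ n, (2 * (t * (2 * σ) ^ 2)) ^ 2 * τ ≤ n ∧ n ≤ 7 * (t * (2 * σ)) ^ 2 * N ∧
      ‖Z φ₁ n - s ^ n‖ ≤ 1 / 6 ∧ ‖Z φ₂ n - s ^ n‖ ≤ 1 / 6 := by
  obtain ⟨a, hae⟩ : ∃ a, a = (4 * σ) ^ 2 * τ := ⟨_, rfl⟩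
  obtain ⟨j, hj⟩ : ∃ j, j = t * (2 * σ) := ⟨_, rfl⟩
  rw [← hae] at ha
  have hj0 : 0 < j := by rw [hj]; positivity
  have hU := prob_unif (σ := 2 * σ) (by omega)
  have hσ' : (0 : ℝ) < σ := by exact_mod_cast hσ
  have ht' : (1 : ℝ) ≤ t := by exact_mod_cast ht
  have hN : (0 : ℝ) < N := by exact_mod_cast Nat.pos_of_ne_zero (NeZero.ne N)
  obtain ⟨ν, hν, hν1, hν2⟩ := exists_common_chain (α := fun c => s ^ (a + c)) (fun c => hs.pow _)
    (fun c => hτ (4 * σ) (a + c) (by omega) (by omega)) (2 * σ)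
  have hν1' : 1 / 2 ≤ mass ν := by
    refine le_trans (le_of_eq ?_) hν1
    push_cast; field_simp; ring
  have hm : ∀ F : ℕ, ∀ r : ZMod N, (pair (unif (2 * σ) ^ F) fun Q =>
      if ((Q.toAdd : ℕ) : ZMod N) = r then (1 : ℝ) else 0)
      ≤ (if F = 0 then 1 else 0) + 1 / N + 2 / σ * (1 / Real.sqrt (F + 1)) := by
    rintro (_ | F) r
    · refine le_trans ((hU.pow _).pair_le (c := 1) fun Q _ => by split_ifs <;> norm_num) ?_
      have : (0 : ℝ) ≤ 1 / N + 2 / σ * (1 / Real.sqrt ((0 : ℕ) + 1)) := by positivity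
      simp only [if_true]; linarith
    · refine (fold_le (hU.pow _) r).trans ?_
      have := norm_diff_unif hσ F
      rw [if_neg (Nat.succ_ne_zero F), zero_add, div_mul_div_comm, mul_one]
      push_cast
      rw [add_assoc (F : ℝ), one_add_one_eq_two]
      linarith
  have hS : ∑ F ∈ range (2 * j ^ 2),
      ((if F = 0 then 1 else 0) + 1 / N + 2 / σ * (1 / Real.sqrt (F + 1)) : ℝ) ≤ 21 * t := by
    rw [Finset.sum_add_distrib, Finset.sum_add_distrib, ← Finset.mul_sum, Finset.sum_const,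
      Finset.card_range, nsmul_eq_mul, Finset.sum_ite_eq']
    have h1 := sum_inv_sqrt_le (2 * j ^ 2)
    have h2 : Real.sqrt ((2 * j ^ 2 : ℕ) : ℝ) ≤ 2 * j := by
      rw [Real.sqrt_le_left (by positivity)]; push_cast; nlinarith [sq_nonneg (j : ℝ)]
    have h3 : (2 : ℝ) / σ * ∑ F ∈ range (2 * j ^ 2), 1 / Real.sqrt (F + 1) ≤ 16 * t := by
      refine (mul_le_mul_of_nonneg_left (h1.trans (mul_le_mul_of_nonneg_left h2 zero_le_two))
        (by positivity)).trans (le_of_eq ?_)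
      rw [hj]; push_cast; field_simp; ring
    have h4 : ((2 * j ^ 2 : ℕ) : ℝ) * (1 / N) ≤ 4 * t := by
      have : (t : ℝ) * (2 * σ) ^ 2 ≤ 2 * N := by exact_mod_cast htσ
      rw [mul_one_div, div_le_iff₀ hN, hj]; push_cast; nlinarith
    have h5 : (if 0 ∈ range (2 * j ^ 2) then (1 : ℝ) else 0) ≤ 1 := by split_ifs <;> norm_num
    linarith
  obtain ⟨L, hL⟩ : ∃ L, L = 2 * j ^ 2 * (2 * σ) + 2 * (2 * j * (2 * σ)) + 1 := ⟨_, rfl⟩
  have hc := fun φ => core hs hZ hT φ hU hν hν1'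
    (fun c hc => hν2 _ (unif_supp c hc).le) (fun c hc => by have := unif_supp c hc; omega)
    hm L hS (by nlinarith)
  by_contra hcon
  push Not at hcon
  have h1 : ∀ i ∈ Ico (j ^ 2) (2 * j ^ 2), 1 / (36 * (40 * σ * j))
      ≤ ∑ P ∈ range L, (uu (unif (2 * σ)) i P) ^ 2 * ‖Z φ₁ (i * a + P) - s ^ (i * a + P)‖ ^ 2
        + ∑ P ∈ range L, (uu (unif (2 * σ)) i P) ^ 2 * ‖Z φ₂ (i * a + P) - s ^ (i * a + P)‖ ^ 2 := by
    intro i hi
    rw [Finset.mem_Ico] at hi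
    have h2 := collision hU unif_supp (i := i) (w := 2 * j * (2 * σ)) (L := L) (by positivity)
      (by nlinarith [sq_nonneg (2 * σ)]) (by nlinarith)
    have h3 : 1 / 36 * ∑ P ∈ range L, (uu (unif (2 * σ)) i P) ^ 2
        ≤ ∑ P ∈ range L, (uu (unif (2 * σ)) i P) ^ 2 * ‖Z φ₁ (i * a + P) - s ^ (i * a + P)‖ ^ 2
        + ∑ P ∈ range L, (uu (unif (2 * σ)) i P) ^ 2 * ‖Z φ₂ (i * a + P) - s ^ (i * a + P)‖ ^ 2 := by
      rw [← Finset.sum_add_distrib, Finset.mul_sum]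
      refine Finset.sum_le_sum fun P hP => ?_
      rw [← mul_add, mul_comm]
      refine mul_le_mul_of_nonneg_left ?_ (sq_nonneg _)
      have hP' := Finset.mem_range.mp hP
      have h4 := hcon (i * a + P) (by
        calc (2 * (t * (2 * σ) ^ 2)) ^ 2 * τ = j ^ 2 * a := by rw [hj, hae]; ring
          _ ≤ i * a := Nat.mul_le_mul_right _ hi.1
          _ ≤ _ := Nat.le_add_right _ _) (by
        rw [← hj]
        have b1 : i * a ≤ 2 * j ^ 2 * a := Nat.mul_le_mul_right _ hi.2.le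
        have b2 : 2 * j ^ 2 * (a + 2 * σ) ≤ 2 * j ^ 2 * N := Nat.mul_le_mul_left _ ha
        have b3 : j * (2 * σ) ≤ j ^ 2 * N := Nat.mul_le_mul (by nlinarith) (by omega)
        nlinarith)
      have n1 := norm_nonneg (Z φ₁ (i * a + P) - s ^ (i * a + P))
      have n2 := norm_nonneg (Z φ₂ (i * a + P) - s ^ (i * a + P))
      rcases le_or_gt ‖Z φ₁ (i * a + P) - s ^ (i * a + P)‖ (1 / 6) with h5 | h5
      · have := h4 h5
        nlinarith
      · nlinarith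
    refine le_trans ?_ h3
    have hj1 : (1 : ℝ) ≤ j := by exact_mod_cast hj0
    have hσ1 : (1 : ℝ) ≤ σ := by exact_mod_cast hσ
    have h6 : 0 ≤ ∑ P ∈ range L, (uu (unif (2 * σ)) i P) ^ 2 :=
      Finset.sum_nonneg fun _ _ => sq_nonneg _
    rw [div_le_iff₀ (by positivity)]
    push_cast at h2
    have h7 : (1 : ℝ) ≤ σ * j := by nlinarith
    nlinarith
  have h2 := Finset.card_nsmul_le_sum _ _ _ h1
  rw [Nat.card_Ico, show 2 * j ^ 2 - j ^ 2 = j ^ 2 by omega, nsmul_eq_mul,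
    Finset.sum_add_distrib] at h2
  have h3 : ∀ φ, ∑ i ∈ Ico (j ^ 2) (2 * j ^ 2), ∑ P ∈ range L,
      (uu (unif (2 * σ)) i P) ^ 2 * ‖Z φ (i * a + P) - s ^ (i * a + P)‖ ^ 2
      ≤ 96 * T * (21 * t) ^ 2 := fun φ =>
    le_trans (Finset.sum_le_sum_of_subset_of_nonneg (fun i hi => by
      rw [Finset.mem_Ico] at hi; exact Finset.mem_range.mpr hi.2)
      fun _ _ _ => Finset.sum_nonneg fun _ _ => by positivity) (hc φ)
  have h4 : ((j ^ 2 : ℕ) : ℝ) * (1 / (36 * (40 * σ * j))) = t / 720 := by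
    rw [hj]; push_cast; field_simp; ring
  have h5 := h3 φ₁
  have h6 := h3 φ₂
  nlinarith

theorem Walk.pow (hZ : Walk s N Z T) (m : ℕ) : Z 0 N ^ m = Z 0 (m * N) := by
  induction m with
  | zero => simp [hZ.zero]
  | succ m ih => rw [pow_succ, ih, add_mul, one_mul, hZ.add]; simp

theorem lemmaL (hs : Prob s) {τ : ℕ} (hτ : Slip s τ) (hZ : Walk s N Z T) (hT : 0 ≤ T)
    {σ t K τ' : ℕ} (hσ : 0 < σ) (ht : 0 < t) (hK : 0 < K) (ha : (4 * σ) ^ 2 * τ + 2 * σ ≤ N)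
    (htσ : t * (2 * σ) ^ 2 ≤ 2 * N) (hKN : N ≤ K * (t * (2 * σ) ^ 2))
    (hTt : T * t ≤ 1 / 10 ^ 8) (hτ' : 64 * 2 ^ K * K * (t * (2 * σ)) ^ 2 ≤ τ') :
    Slip (Z 0 N) τ' := by
  obtain ⟨d₀, hd₀⟩ : ∃ d, d = t * (2 * σ) ^ 2 := ⟨_, rfl⟩
  obtain ⟨J, hJ⟩ : ∃ J, J = (t * (2 * σ)) ^ 2 := ⟨_, rfl⟩
  have hd0 : 0 < d₀ := by rw [hd₀]; positivity
  have hJ0 : 0 < J := by rw [hJ]; positivity
  have hg := exists_good hs hτ hZ hT hσ ht ha htσ hTt
  rw [← hd₀, ← hJ] at hg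
  rw [← hd₀] at hKN
  rw [← hJ] at hτ'
  have hsT : Real.sqrt T ≤ 1 / 6 := by
    rw [Real.sqrt_le_left (by norm_num)]
    have ht' : (1 : ℝ) ≤ t := by exact_mod_cast ht
    nlinarith
  have key : ∀ k e : ℕ, e ≤ N → e ≤ k * d₀ →
      ∃ φ ≤ k * (7 * J * N), ‖Z 0 (φ + e) - Z 0 φ‖ ≤ 2 - 2 * (1 / 2) ^ k := by
    intro k
    induction k with
    | zero =>
      intro e _ he
      obtain rfl : e = 0 := by omega
      exact ⟨0, Nat.zero_le _, by simp⟩
    | succ k ih =>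
      intro e heN he
      obtain ⟨d, e', rfl, hd, he'⟩ : ∃ d e', e = e' + d ∧ d ≤ d₀ ∧ e' ≤ k * d₀ :=
        ⟨min e d₀, e - min e d₀, by omega, by omega, by rw [add_mul] at he; omega⟩
      obtain ⟨φ, hφ, h1⟩ := ih e' (by omega) he'
      obtain ⟨n, n1, n2, n3, n4⟩ := hg φ (((φ + e' : ℕ) : ZMod N) + d)
      refine ⟨φ + n, by rw [add_mul]; omega, ?_⟩
      rw [show φ + n + (e' + d) = (φ + e') + (d + n) by ring, hZ.add 0 (φ + e'), hZ.add 0 φ n,
        pow_succ, zero_add, zero_add]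
      refine overlap_mul (hZ.prob _ _) (hZ.prob _ _) (hZ.prob _ _) (hZ.prob _ _) (by norm_num) h1 ?_
      rw [hZ.add]
      have h2 := hτ.pow_sub (k := 2 * d₀) (by omega) n1 d
      have h3 : (d : ℝ) / ((2 * d₀ : ℕ) : ℝ) ≤ 1 / 2 := by
        have : (d : ℝ) ≤ d₀ := by exact_mod_cast hd
        rw [div_le_iff₀ (by positivity)]; push_cast; linarith
      have h4 := hZ.norm_sub_le hs hT ((φ + e' : ℕ) : ZMod N) (n := d) (by omega)
      generalize Z (((φ + e' : ℕ) : ZMod N) + d) n = B at *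
      have hA := hZ.prob ((φ + e' : ℕ) : ZMod N) d
      generalize Z ((φ + e' : ℕ) : ZMod N) d = A at *
      have e1 : A * B - Z φ n
          = A * (B - s ^ n) + (A - s ^ d) * s ^ n + ((s ^ (n + d) - s ^ n) - (Z φ n - s ^ n)) := by
        rw [add_comm n d, pow_add]; noncomm_ring
      rw [e1]
      have h5 := hA.norm_mul_le (B - s ^ n)
      have h6 := (hs.pow n).norm_mul_le' (A - s ^ d)
      have h7 := norm_sub_le (s ^ (n + d) - s ^ n) (Z φ n - s ^ n)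
      refine norm_add₃_le.trans ?_
      linarith
  obtain ⟨φ, hφ, h1⟩ := key K N le_rfl hKN
  refine slip_of_overlap (hZ.prob _ _) (m := K * (7 * J)) (ε := (1 / 2) ^ K) (by positivity)
    (pow_le_one₀ (by norm_num) (by norm_num)) ?_ ?_
  · obtain ⟨r, hr⟩ := Nat.exists_eq_add_of_le hφ
    rw [hZ.pow, hZ.pow, show (K * (7 * J) + 1) * N = (φ + N) + r by linarith,
      show K * (7 * J) * N = φ + r by linarith, hZ.add 0 (φ + N), hZ.add 0 φ r]
    simp only [Nat.cast_add, CharP.cast_eq_zero, add_zero, ← sub_mul]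
    exact ((hZ.prob _ _).norm_mul_le' _).trans h1
  · have h2 : (64 : ℝ) * 2 ^ K * K * J ≤ τ' := by exact_mod_cast hτ'
    have h3 : (1 : ℝ) ≤ K * J := by exact_mod_cast Nat.mul_pos hK hJ0
    rw [one_div, inv_pow, inv_mul_eq_div, le_div_iff₀ (by positivity)]
    push_cast
    have h4 : (0 : ℝ) < 2 ^ K := by positivity
    nlinarith

end Vale.Agent.P321
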