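import Vale.Agent.P321.Basic

/-! Chi-square domination, a Bessel inequality, and amplification of slip. -/

open Finset

namespace Vale.Agent.P321

variable {M : Type*}

def Chi (γ ρ : Alg M) (B : ℝ) : Prop :=
  ∀ h : M → ℝ, (pair γ h) ^ 2 ≤ B * pair ρ fun w => h w ^ 2

theorem Bd.chi {γ ρ : Alg M} {a : ℝ} (h : Bd γ (a • ρ)) (hρ : Prob ρ) : Chi γ ρ (a ^ 2) := by
  intro k
  have h1 := h.abs_pair_le k
  rw [pair_smul_left, smul_eq_mul] at h1
  have h2 := norm_pair_sq_le hρ.nonneg (fun w => |k w|)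
  simp only [hρ.mass_eq, one_mul, Real.norm_eq_abs, sq_abs] at h2
  calc (pair γ k) ^ 2 = |pair γ k| ^ 2 := (sq_abs _).symm
    _ ≤ (a * pair ρ fun w => |k w|) ^ 2 := pow_le_pow_left₀ (abs_nonneg _) h1 2
    _ ≤ _ := by rw [mul_pow]; exact mul_le_mul_of_nonneg_left h2 (sq_nonneg a)

theorem Prob.chi {ρ : Alg M} (hρ : Prob ρ) : Chi ρ ρ 1 := by
  simpa using Bd.chi (a := 1) (by simpa using hρ.nonneg.bd) hρ

theorem Chi.mono {γ ρ : Alg M} {B B' : ℝ} (h : Chi γ ρ B) (hρ : Nonneg ρ) (hB : B ≤ B') :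
    Chi γ ρ B' := fun k =>
  (h k).trans (mul_le_mul_of_nonneg_right hB (pair_nonneg hρ fun _ => sq_nonneg _))

theorem Chi.mul [Monoid M] {γ₁ ρ₁ γ₂ ρ₂ : Alg M} {B₁ B₂ : ℝ} (h₁ : Chi γ₁ ρ₁ B₁)
    (h₂ : Chi γ₂ ρ₂ B₂) (hρ : Nonneg ρ₁) (hB : 0 ≤ B₁) : Chi (γ₁ * γ₂) (ρ₁ * ρ₂) (B₁ * B₂) := by
  intro k
  rw [pair_mul, pair_mul, mul_assoc]
  refine (h₁ _).trans (mul_le_mul_of_nonneg_left ?_ hB)
  rw [← pair_mul_right]
  exact pair_mono hρ fun w => h₂ _

theorem Chi.ac {γ ρ : Alg M} {B : ℝ} (h : Chi γ ρ B) (w : M) (hw : ρ.coeff w = 0) :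
    γ.coeff w = 0 := by
  classical
  have h1 := h fun u => if u = w then 1 else 0
  have h2 : (pair ρ fun u => (if u = w then (1 : ℝ) else 0) ^ 2) = ρ.coeff w := by
    rw [coeff_eq_pair]; congr 1; ext u; split_ifs <;> simp
  rw [h2, hw, mul_zero, ← coeff_eq_pair] at h1
  exact pow_eq_zero_iff (two_ne_zero) |>.mp (le_antisymm h1 (sq_nonneg _))

theorem Chi.norm_sq_le {γ ρ : Alg M} {B : ℝ} (h : Chi γ ρ B) (hρ : Prob ρ) (hB : 0 ≤ B) :
    ‖γ‖ ≤ Real.sqrt B := by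
  refine norm_le_of_pair fun k hk => Real.le_sqrt_of_sq_le ((h k).trans ?_)
  have : (pair ρ fun w => k w ^ 2) ≤ 1 := hρ.pair_le fun w _ => by
    have := hk w; rw [← sq_abs]; nlinarith [abs_nonneg (k w)]
  nlinarith

theorem Prob.var_eq {s : Alg M} (hs : Prob s) (g : M → ℝ) :
    (pair s fun w => (g w - pair s g) ^ 2) = (pair s fun w => g w ^ 2) - (pair s g) ^ 2 := by
  have : (fun w => (g w - pair s g) ^ 2)
      = fun w => (g w ^ 2 + (-2 * pair s g) * g w) + (pair s g) ^ 2 := by ext w; ring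
  rw [this, pair_add_right, pair_add_right, pair_mul_right, hs.pair_const]; ring

theorem pair_sub_const_of_mass_zero {E : Type*} [AddCommGroup E] [Module ℝ E] {δ : Alg M}
    (hδ : mass δ = 0) (g : M → E) (c : E) : (pair δ fun w => g w - c) = pair δ g := by
  rw [pair_sub_right, pair_const, hδ, zero_smul, sub_zero]

theorem Chi.var {δ s : Alg M} {B : ℝ} (h : Chi δ s B) (hs : Prob s) (hδ : mass δ = 0)
    (g : M → ℝ) : (pair δ g) ^ 2 ≤ B * ((pair s fun w => g w ^ 2) - (pair s g) ^ 2) := by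
  rw [← hs.var_eq, ← pair_sub_const_of_mass_zero hδ g (pair s g)]
  exact h _

theorem Chi.add_one {δ s : Alg M} {B : ℝ} (h : Chi δ s B) (hs : Prob s) (hδ : mass δ = 0)
    (hB : 0 ≤ B) : Chi (s + δ) s (1 + B) := by
  intro g
  have h1 := h.var hs hδ g
  have h2 : 0 ≤ (pair s fun w => g w ^ 2) - (pair s g) ^ 2 := by
    rw [← hs.var_eq]; exact pair_nonneg hs.nonneg fun _ => sq_nonneg _
  rw [pair_add_left]
  generalize pair δ g = x at *
  generalize pair s g = m at *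
  generalize (pair s fun w => g w ^ 2) = Q at *
  obtain ⟨v, rfl⟩ : ∃ v, Q = v + m ^ 2 := ⟨Q - m ^ 2, by ring⟩
  rw [add_sub_cancel_right] at h1 h2
  rcases eq_or_lt_of_le hB with rfl | hB'
  · have : x = 0 := by nlinarith [sq_nonneg x]
    subst this; nlinarith
  · have h3 : B * (2 * m * x) ≤ B * (B * m ^ 2 + v) := by nlinarith [sq_nonneg (B * m - x)]
    have h4 := le_of_mul_le_mul_left h3 hB'
    nlinarith

variable [Monoid M]

theorem pair_mul' {E : Type*} [AddCommGroup E] [Module ℝ E] (α β : Alg M) (h : M → E) :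
    pair (α * β) h = pair β (fun o => pair α (fun w => h (w * o))) := by
  rw [pair_mul, pair_comm]

theorem bessel {s δ : Alg M} {B : ℝ} (hs : Prob s) (hδ : mass δ = 0) (hc : Chi δ s B) (n : ℕ)
    (h : M → ℝ) : ∃ d : ℕ → ℝ, (∀ r, 0 ≤ d r) ∧
      ∑ r ∈ range n, d r ≤ (pair (s ^ n) fun w => h w ^ 2) ∧
      ∀ (r m : ℕ) (Z : Alg M) (C : ℝ), r + m + 1 = n → 0 ≤ C → Chi Z (s ^ m) C →
        (pair (s ^ r * δ * Z) h) ^ 2 ≤ C * (B * d r) := by
  induction n generalizing h with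
  | zero =>
    exact ⟨fun _ => 0, fun _ => le_rfl, by simp [pair_one]; positivity, fun r m Z C hr => by omega⟩
  | succ n ih =>
    obtain ⟨d, hd0, hd1, hd2⟩ := ih fun v => pair s fun w => h (w * v)
    have hvar : ∀ v, 0 ≤ (pair s fun w => h (w * v) ^ 2) - (pair s fun w => h (w * v)) ^ 2 := by
      intro v
      rw [← hs.var_eq]; exact pair_nonneg hs.nonneg fun _ => sq_nonneg _
    refine ⟨fun r => match r with
      | 0 => pair (s ^ n) fun v => (pair s fun w => h (w * v) ^ 2) - (pair s fun w => h (w * v)) ^ 2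
      | r + 1 => d r, ?_, ?_, ?_⟩
    · rintro (_ | r)
      · exact pair_nonneg (hs.pow n).nonneg hvar
      · exact hd0 r
    · rw [Finset.sum_range_succ', pair_sub_right, pow_succ', pair_mul']
      linarith
    · rintro (_ | r) m Z C hr hC hZ
      · obtain rfl : m = n := by omega
        rw [pow_zero, one_mul, pair_mul']
        refine (hZ _).trans (mul_le_mul_of_nonneg_left ?_ hC)
        rw [← pair_mul_right]
        exact pair_mono (hs.pow m).nonneg fun v => hc.var hs hδ _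
      · rw [pow_succ' s r, mul_assoc, mul_assoc, pair_mul', ← mul_assoc]
        exact hd2 r m Z C (by omega) hC hZ

/-- The average of `J` translates of a mean-zero perturbation. -/
theorem chi_sum_translates {s δ : Alg M} {B : ℝ} (hs : Prob s) (hδ : mass δ = 0) (hc : Chi δ s B)
    (hB : 0 ≤ B) (n : ℕ) :
    Chi (∑ r ∈ range n, s ^ r * δ * s ^ (n - 1 - r)) (s ^ n) (n * B) := by
  intro h
  obtain ⟨d, hd0, hd1, hd2⟩ := bessel hs hδ hc n h
  rw [pair_sum_left]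
  refine (sq_sum_le_card_mul_sum_sq).trans ?_
  rw [Finset.card_range, mul_assoc]
  refine mul_le_mul_of_nonneg_left ?_ (Nat.cast_nonneg n)
  refine le_trans ?_ (mul_le_mul_of_nonneg_left hd1 hB)
  rw [Finset.mul_sum]
  refine Finset.sum_le_sum fun r hr => ?_
  have := hd2 r (n - 1 - r) _ 1 (by have := Finset.mem_range.mp hr; omega) zero_le_one
    (hs.pow _).chi
  rwa [one_mul] at this

theorem prob_half_one_add {y : Alg M} (hy : Prob y) : Prob ((1 / 2 : ℝ) • (1 + y)) :=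
  ⟨(prob_one.nonneg.add hy.nonneg).smul (by norm_num), by
    rw [mass_smul, mass_add, prob_one.mass_eq, hy.mass_eq]; norm_num⟩

theorem binomial_bound {y : Alg M} (hy : Prob y) (F : ℕ) :
    ‖(1 - y) * ((1 / 2 : ℝ) • (1 + y)) ^ F‖ ^ 2 ≤ 4 / (F + 1) := by
  have hs := prob_half_one_add hy
  have hδ : mass ((1 / 2 : ℝ) • (1 - y)) = 0 := by
    rw [mass_smul, mass_sub, prob_one.mass_eq, hy.mass_eq]; norm_num
  have hbd : Bd ((1 / 2 : ℝ) • (1 - y)) ((1 : ℝ) • (1 / 2 : ℝ) • (1 + y)) := by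
    rw [one_smul]
    exact (prob_one.nonneg.bd.sub hy.nonneg.bd).smul (by norm_num)
  have hc := chi_sum_translates hs hδ (hbd.chi hs) (by norm_num) (F + 1)
  have hcomm : Commute ((1 / 2 : ℝ) • (1 + y)) ((1 / 2 : ℝ) • (1 - y)) := by
    apply Commute.smul_left; apply Commute.smul_right
    exact (Commute.one_left _).add_left ((Commute.one_right _).sub_right (Commute.refl _))
  have hsum : ∑ r ∈ range (F + 1), ((1 / 2 : ℝ) • (1 + y)) ^ r * ((1 / 2 : ℝ) • (1 - y))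
        * ((1 / 2 : ℝ) • (1 + y)) ^ (F + 1 - 1 - r)
      = ((F + 1 : ℝ) / 2) • ((1 - y) * ((1 / 2 : ℝ) • (1 + y)) ^ F) := by
    rw [Finset.sum_congr rfl (g := fun _ => (1 / 2 : ℝ) • ((1 - y) * ((1 / 2 : ℝ) • (1 + y)) ^ F))]
    · rw [Finset.sum_const, Finset.card_range, ← Nat.cast_smul_eq_nsmul ℝ, smul_smul]
      congr 1; push_cast; ring
    · intro r hr
      rw [(hcomm.pow_left r).eq, mul_assoc, ← pow_add, smul_mul_assoc]
      congr 3
      have := Finset.mem_range.mp hr; omega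
  rw [hsum] at hc
  have h1 := hc.norm_sq_le (hs.pow _) (by positivity)
  rw [norm_smul, Real.norm_eq_abs, abs_of_pos (by positivity)] at h1
  have h2 := pow_le_pow_left₀ (by positivity) h1 2
  rw [Real.sq_sqrt (by positivity)] at h2
  push_cast at h2
  rw [le_div_iff₀ (by positivity)]
  have h3 : (0 : ℝ) < F + 1 := by positivity
  nlinarith

def Slip (s : Alg M) (τ : ℕ) : Prop :=
  ∀ k a : ℕ, 0 < k → k ^ 2 * τ ≤ a → ‖s ^ (a + 1) - s ^ a‖ ≤ 1 / k

theorem Slip.mono {s : Alg M} {τ τ' : ℕ} (h : Slip s τ) (hτ : τ ≤ τ') : Slip s τ' :=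
  fun k a hk ha => h k a hk ((Nat.mul_le_mul_left _ hτ).trans ha)

theorem Slip.pow_sub {s : Alg M} {τ : ℕ} (h : Slip s τ) {k a : ℕ} (hk : 0 < k) (ha : k ^ 2 * τ ≤ a)
    (j : ℕ) : ‖s ^ (a + j) - s ^ a‖ ≤ j / k := by
  induction j with
  | zero => simp
  | succ j ih =>
    calc ‖s ^ (a + (j + 1)) - s ^ a‖ = ‖(s ^ (a + j + 1) - s ^ (a + j)) + (s ^ (a + j) - s ^ a)‖ := by
          congr 1; rw [← add_assoc]; abel
      _ ≤ 1 / k + j / k := (norm_add_le _ _).trans (add_le_add (h k _ hk (by omega)) ih)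
      _ = _ := by push_cast; ring

theorem Slip.shift {s : Alg M} {τ : ℕ} (h : Slip s τ) (hs : Prob s) {k a b : ℕ} (hk : 0 < k)
    (ha : k ^ 2 * τ ≤ a) (hb : k ^ 2 * τ ≤ b) (i : ℕ) (Γ : Alg M) :
    ‖s ^ (a + i) * Γ * s ^ b - s ^ a * Γ * s ^ (b + i)‖ ≤ 2 * i / k * ‖Γ‖ := by
  have h1 := h.pow_sub hk ha i
  have h2 := h.pow_sub hk hb i
  calc ‖s ^ (a + i) * Γ * s ^ b - s ^ a * Γ * s ^ (b + i)‖
      = ‖(s ^ (a + i) - s ^ a) * Γ * s ^ b - s ^ a * (Γ * (s ^ (b + i) - s ^ b))‖ := by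
        congr 1; noncomm_ring
    _ ≤ ‖(s ^ (a + i) - s ^ a) * Γ * s ^ b‖ + ‖s ^ a * (Γ * (s ^ (b + i) - s ^ b))‖ :=
        norm_sub_le _ _
    _ ≤ i / k * ‖Γ‖ + ‖Γ‖ * (i / k) := by
        refine add_le_add (((hs.pow b).norm_mul_le' _).trans ((norm_mul_le _ _).trans ?_))
          (((hs.pow a).norm_mul_le _).trans ((norm_mul_le _ _).trans ?_))
        · gcongr
        · gcongr
    _ = _ := by ring

theorem Slip.pow {s : Alg M} {τ : ℕ} (h : Slip s τ) {n : ℕ} (hn : 0 < n) : Slip (s ^ n) (n * τ) := by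
  intro k a hk ha
  have := h.pow_sub (k := n * k) (a := n * a) (by positivity) (by nlinarith) n
  rw [← pow_mul, ← pow_mul, mul_add, mul_one]
  refine this.trans (le_of_eq ?_)
  have : (n : ℝ) ≠ 0 := by positivity
  push_cast; field_simp

theorem slip_of_overlap {s : Alg M} (hs : Prob s) {m τ : ℕ} {ε : ℝ} (hε : 0 < ε) (hε1 : ε ≤ 1)
    (h : ‖s ^ (m + 1) - s ^ m‖ ≤ 2 - 2 * ε) (hτ : 8 * (m + 1 : ℝ) ≤ ε * τ) : Slip s τ := by
  obtain ⟨ν, n0, n1, n2, n3, -⟩ := exists_common (hs.pow (m + 1)).nonneg (hs.pow m).nonneg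
  rw [(hs.pow _).mass_eq, (hs.pow _).mass_eq] at n3
  have hνε : ε ≤ mass ν := by linarith
  have hm1 : mass (s ^ (m + 1) - ν) = 1 - mass ν := by rw [mass_sub, (hs.pow _).mass_eq]
  have hm2 : mass (s ^ m - ν) = 1 - mass ν := by rw [mass_sub, (hs.pow _).mass_eq]
  have hν1 : 0 ≤ 1 - mass ν := hm1 ▸ n1.mass_nonneg
  obtain ⟨u, hu⟩ : ∃ u : Alg M, u = (1 / 2 : ℝ) • (1 + s) := ⟨_, rfl⟩
  have hcu : Commute s u := by
    rw [hu]; exact ((Commute.one_right _).add_right (Commute.refl _)).smul_right _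
  have key : ∀ I F : ℕ, ‖s ^ (I * (m + 1)) * ((1 - s) * u ^ F)‖ ^ 2 ≤ 4 / (F + 1 + ε * I / 2) := by
    intro I
    induction I with
    | zero => intro F; simpa [hu] using binomial_bound hs F
    | succ I ih =>
      intro F
      obtain ⟨γ, hγ⟩ : ∃ γ, γ = s ^ (I * (m + 1)) * ((1 - s) * u ^ F) := ⟨_, rfl⟩
      have hc : Commute s γ := by
        rw [hγ]
        exact (Commute.pow_right (Commute.refl s) _).mul_right
          (((Commute.one_right _).sub_right (Commute.refl _)).mul_right (hcu.pow_right _))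
      have h1 : γ * u = s ^ (I * (m + 1)) * ((1 - s) * u ^ (F + 1)) := by
        rw [hγ, pow_succ u F]; simp only [mul_assoc]
      have h2 : s ^ ((I + 1) * (m + 1)) * ((1 - s) * u ^ F)
          = ν * (γ * u) + (1 / 2 : ℝ) • ((s ^ m - ν) * (γ * s))
            + (1 / 2 : ℝ) • ((s ^ (m + 1) - ν) * γ) := by
        have e1 : s ^ ((I + 1) * (m + 1)) * ((1 - s) * u ^ F) = s ^ (m + 1) * γ := by
          rw [hγ, ← mul_assoc (s ^ (m + 1)), ← pow_add]; congr 2; ring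
        have e2 : s ^ m * (γ * s) = s ^ (m + 1) * γ := by
          rw [← hc.eq, pow_succ, mul_assoc]
        rw [e1, hu, mul_smul_comm, mul_smul_comm, sub_mul, e2, sub_mul, ← smul_add, ← smul_add]
        have e3 : ν * (γ * (1 + s)) + (s ^ (m + 1) * γ - ν * (γ * s)) + (s ^ (m + 1) * γ - ν * γ)
            = (2 : ℝ) • (s ^ (m + 1) * γ) := by
          rw [two_smul]; noncomm_ring
        rw [e3, smul_smul]; simp
      have h3 : ‖s ^ ((I + 1) * (m + 1)) * ((1 - s) * u ^ F)‖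
          ≤ mass ν * ‖γ * u‖ + (1 - mass ν) * ‖γ‖ := by
        rw [h2]
        refine (norm_add₃_le).trans ?_
        have a1 : ‖ν * (γ * u)‖ ≤ mass ν * ‖γ * u‖ := by
          rw [← n0.norm_eq]; exact norm_mul_le _ _
        have a2 : ‖(s ^ m - ν) * (γ * s)‖ ≤ (1 - mass ν) * ‖γ‖ := by
          refine (norm_mul_le _ _).trans ?_
          rw [n2.norm_eq, hm2]
          exact mul_le_mul_of_nonneg_left (hs.norm_mul_le' _) hν1
        have a3 : ‖(s ^ (m + 1) - ν) * γ‖ ≤ (1 - mass ν) * ‖γ‖ := by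
          refine (norm_mul_le _ _).trans ?_
          rw [n1.norm_eq, hm1]
        rw [norm_smul, norm_smul, Real.norm_eq_abs, abs_of_pos (by norm_num)]
        linarith
      have h4 := ih (F + 1)
      have h5 := ih F
      rw [← h1] at h4
      rw [← hγ] at h5
      obtain ⟨x, hx⟩ : ∃ x : ℝ, x = F + 1 + ε * I / 2 := ⟨_, rfl⟩
      have hx1 : 1 ≤ x := by rw [hx]; have : 0 ≤ (F : ℝ) + ε * I / 2 := by positivity
                             linarith
      have e4 : ((F + 1 : ℕ) : ℝ) + 1 + ε * I / 2 = x + 1 := by rw [hx]; push_cast; ring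
      have e5 : (F : ℝ) + 1 + ε * ((I + 1 : ℕ) : ℝ) / 2 = x + ε / 2 := by rw [hx]; push_cast; ring
      rw [e4] at h4
      rw [← hx] at h5
      rw [e5]
      refine (pow_le_pow_left₀ (norm_nonneg _) h3 2).trans ?_
      have h6 : (mass ν * ‖γ * u‖ + (1 - mass ν) * ‖γ‖) ^ 2
          ≤ mass ν * ‖γ * u‖ ^ 2 + (1 - mass ν) * ‖γ‖ ^ 2 := by
        nlinarith [mul_nonneg (mul_nonneg n0.mass_nonneg hν1) (sq_nonneg (‖γ * u‖ - ‖γ‖))]
      have h7 : mass ν * (4 / (x + 1)) + (1 - mass ν) * (4 / x) ≤ 4 / (x + ε / 2) := by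
        have : mass ν * (4 / (x + 1)) + (1 - mass ν) * (4 / x)
            = 4 * (x + 1 - mass ν) / (x * (x + 1)) := by field_simp; ring
        rw [this, div_le_div_iff₀ (by positivity) (by positivity)]
        nlinarith [mul_nonneg (sub_nonneg.mpr hνε) (by linarith : 0 ≤ x),
          mul_nonneg hε.le (sub_nonneg.mpr hx1), mul_nonneg hε.le n0.mass_nonneg]
      calc _ ≤ _ := h6
        _ ≤ mass ν * (4 / (x + 1)) + (1 - mass ν) * (4 / x) :=
          add_le_add (mul_le_mul_of_nonneg_left h4 n0.mass_nonneg)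
            (mul_le_mul_of_nonneg_left h5 hν1)
        _ ≤ _ := h7
  intro k a hk ha
  have h1 := key (a / (m + 1)) 0
  have h2 : s ^ (a + 1) - s ^ a
      = -(s ^ (a % (m + 1)) * (s ^ (a / (m + 1) * (m + 1)) * ((1 - s) * u ^ 0))) := by
    rw [← mul_assoc, ← pow_add, Nat.mod_add_div', pow_zero, mul_one, pow_succ]; noncomm_ring
  have h3 : ‖s ^ (a + 1) - s ^ a‖ ≤ ‖s ^ (a / (m + 1) * (m + 1)) * ((1 - s) * u ^ 0)‖ := by
    rw [h2, norm_neg]; exact (hs.pow _).norm_mul_le _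
  have h4 : (a : ℝ) ≤ ((a / (m + 1) : ℕ) + 1) * (m + 1) := by
    have := Nat.lt_div_mul_add (a := a) (b := m + 1) (Nat.succ_pos m)
    have h5 : a ≤ (a / (m + 1) + 1) * (m + 1) := by nlinarith
    exact_mod_cast h5
  have h6 : (k : ℝ) ^ 2 * τ ≤ a := by exact_mod_cast ha
  have hk' : (0 : ℝ) < k := by exact_mod_cast hk
  have h7 : 4 * (k : ℝ) ^ 2 ≤ ((0 : ℕ) : ℝ) + 1 + ε * (a / (m + 1) : ℕ) / 2 := by
    have hm : (0 : ℝ) < m + 1 := by positivity
    have h8 : (k : ℝ) ^ 2 * (8 * (m + 1)) ≤ ε * (((a / (m + 1) : ℕ) + 1) * (m + 1)) := by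
      calc (k : ℝ) ^ 2 * (8 * (m + 1)) ≤ (k : ℝ) ^ 2 * (ε * τ) := by gcongr
        _ = ε * ((k : ℝ) ^ 2 * τ) := by ring
        _ ≤ _ := mul_le_mul_of_nonneg_left (h6.trans h4) hε.le
    have h9 : (k : ℝ) ^ 2 * 8 ≤ ε * ((a / (m + 1) : ℕ) + 1) := by
      refine le_of_mul_le_mul_right ?_ hm
      linarith
    push_cast
    nlinarith
  have h10 : ‖s ^ (a + 1) - s ^ a‖ ^ 2 ≤ (1 / k) ^ 2 := by
    refine (pow_le_pow_left₀ (norm_nonneg _) h3 2).trans (h1.trans ?_)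
    rw [div_pow, one_pow, div_le_div_iff₀ (by positivity) (by positivity)]
    linarith
  exact (abs_le_of_sq_le_sq' h10 (by positivity)).2

end Vale.Agent.P321
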