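import Vale.Agent.P321.Words

/-! The recursive step. -/

open Finset

namespace Vale.Agent.P321

def nxt {W : Type*} [Monoid W] (x y : W) (R N : ℕ) (b : Bool) : W :=
  y ^ N * wd x y (tm R b) * y ^ N

theorem nxt_eq_wd {W : Type*} [Monoid W] (x y : W) (R N : ℕ) (b : Bool) :
    nxt x y R N b = wd x y (List.replicate N false ++ tm R b ++ List.replicate N false) := by
  rw [wd_append, wd_append, wd_replicate_false, nxt]

theorem length_wd {x y : FreeMonoid Bool} (h : x.length = y.length) (c : List Bool) :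
    (wd x y c).length = c.length * x.length := by
  induction c with
  | nil => simp
  | cons b c ih =>
    rw [wd_cons, FreeMonoid.length_mul, ih, List.length_cons]
    cases b <;> simp [h] <;> ring

theorem length_nxt {x y : FreeMonoid Bool} (h : x.length = y.length) (R N : ℕ) (b : Bool) :
    (nxt x y R N b).length = (N + 2 ^ R + N) * x.length := by
  rw [nxt_eq_wd, length_wd h]; simp [tm_length, add_assoc]

theorem nxt_ne {x y : FreeMonoid Bool} (h : x.length = y.length) (hxy : x ≠ y) (R N : ℕ) :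
    nxt x y R N true ≠ nxt x y R N false := by
  intro h1
  have h2 := mul_left_cancel (mul_right_cancel h1)
  obtain ⟨c, hc⟩ := tm_head R true
  obtain ⟨c', hc'⟩ := tm_head R false
  rw [hc, hc', wd_cons, wd_cons] at h2
  have h3 := congrArg FreeMonoid.toList h2
  simp only [FreeMonoid.toList_mul, if_true, Bool.false_eq_true, if_false] at h3
  exact hxy (FreeMonoid.toList.injective (List.append_inj_left h3 h))

variable {M : Type*} [Monoid M]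

theorem prob_nxt {u s : Alg M} (hu : Prob u) (hs : Prob s) (R N : ℕ) (b : Bool) :
    Prob (nxt u s R N b) := by rw [nxt_eq_wd]; exact prob_wd hu hs _

theorem norm_nxt_sub {W : Type*} [Monoid W] (tr : W →* Alg M) (htr : ∀ w, Prob (tr w)) (x y : W)
    {u s : Alg M} (hu : Prob u) (hs : Prob s) {ζ : ℝ} (h1 : ‖tr x - u‖ ≤ ζ) (h2 : ‖tr y - s‖ ≤ ζ)
    (R N : ℕ) (b : Bool) :
    ‖tr (nxt x y R N b) - nxt u s R N b‖ ≤ (N + 2 ^ R + N : ℕ) * ζ := by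
  rw [nxt_eq_wd, nxt_eq_wd, map_wd]
  refine (norm_wd_sub (htr x) (htr y) hu hs h1 h2 _).trans (le_of_eq ?_)
  simp [tm_length, add_assoc]

theorem step_common {u s : Alg M} (hu : Prob u) (hs : Prob s) {θ : ℝ} (hθ : 0 ≤ θ)
    (h : Bd (u - s) (θ • s)) {τ R N N' : ℕ} (hτ : Slip s τ) (hτ1 : 1 ≤ τ) (hR : 1 ≤ R)
    (hN : N = R * ((2 * 4 ^ R) ^ 2 * τ)) (hN' : N' = N + 2 ^ R + N)
    (hsm : 2 * (2 ^ R) ^ 2 * θ ^ 2 * N' ≤ 1 / 10 ^ 8) :
    4 * 2 ^ R * θ ≤ 1 ∧ Slip (nxt u s R N false) (128 * N' ^ 2) ∧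
      Bd (nxt u s R N false - s ^ N') ((2 * 2 ^ R * θ) • s ^ N') ∧
      ‖nxt u s R N true - nxt u s R N false
        - s ^ N * (QQ u s (tm R true) - QQ u s (tm R false)) * s ^ N‖ ≤ (1 / 2) ^ (R * R) * θ := by
  have h4 : 1 ≤ 4 ^ R := Nat.one_le_pow _ _ (by norm_num)
  have h4' : 4 ≤ 4 ^ R := by simpa using Nat.pow_le_pow_right (show 0 < 4 by norm_num) hR
  have hN1 : 64 * τ ≤ N := by
    rw [hN]
    calc 64 * τ = 1 * ((2 * 4) ^ 2 * τ) := by ring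
      _ ≤ _ := by gcongr
  have hD0 : 0 < 2 ^ R := by positivity
  have hN2 : (1 : ℝ) ≤ N' := by exact_mod_cast (show 1 ≤ N' by omega)
  have hD1 : (1 : ℝ) ≤ 2 ^ R := one_le_pow₀ (by norm_num)
  have hDθ : 0 ≤ 2 ^ R * θ := by positivity
  have h1 : 4 * 2 ^ R * θ ≤ 1 := by
    have : (2 ^ R * θ) ^ 2 ≤ 1 / 10 ^ 8 := by nlinarith [sq_nonneg (2 ^ R * θ)]
    nlinarith
  have h1' : 2 * ((2 ^ R : ℕ) : ℝ) * θ ≤ 1 := by push_cast; linarith
  refine ⟨h1, ?_, ?_, ?_⟩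
  · refine slip_wd hu hs (sq_nonneg θ) (h.chi hs) hτ (tm R false) N N (N := N') (σ := 1)
      (t := N' / 2) (K := 1) (by rw [tm_length, hN']) one_pos (by omega) one_pos (by omega)
      (by omega) (by omega) ?_ ?_
    · rw [tm_length]
      have h5 : (1 + θ ^ 2) ^ 2 ^ R ≤ 2 := by
        have hθ1 : θ ≤ 1 := by nlinarith
        have h6 : 2 * ((2 ^ R : ℕ) : ℝ) * θ ^ 2 ≤ 1 := by push_cast; nlinarith
        linarith [one_add_pow_le (sq_nonneg θ) _ h6]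
      have h7 : ((N' / 2 : ℕ) : ℝ) ≤ N' := by exact_mod_cast Nat.div_le_self _ _
      refine le_trans ?_ hsm
      push_cast
      calc _ ≤ ((2 : ℝ) ^ R) ^ 2 * θ ^ 2 * 2 * N' := by gcongr
        _ = _ := by ring
    · have : N' / 2 * (2 * 1) ≤ N' := by omega
      calc _ ≤ 64 * 2 ^ 1 * 1 * N' ^ 2 := by gcongr
        _ = _ := by ring
  · have h2 := ((bd_wd' hs hθ h (tm R false) (tm_length R false).le h1').mul_left
      (hs.pow N).nonneg).mul_right (hs.pow N).nonneg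
    rw [tm_length, ← pow_add, ← pow_add, ← hN', mul_sub, sub_mul, ← pow_add, ← pow_add,
      ← hN'] at h2
    push_cast at h2
    exact h2
  · have h2 := norm_LL_tm (u := u) hs hτ le_rfl R le_rfl
    rw [← hN, ← pow_mul] at h2
    refine le_trans (le_of_eq ?_) (h2.trans (mul_le_mul_of_nonneg_left (h.norm_le_of_prob hs)
      (by positivity)))
    congr 1
    rw [nxt, nxt, wd_eq u s (tm R true), wd_eq u s (tm R false), tm_length, tm_length]
    noncomm_ring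

theorem gain {s Y γ : Alg M} (hs : Prob s) (hY : Prob Y) {τ N D N' R i A₀ Dm : ℕ} (hτ : Slip s τ)
    (hN' : N' = N + D + N) {β ε ξ : ℝ} (hβ : 0 ≤ β) (hε : 0 ≤ ε) (hξ : 0 ≤ ξ)
    (hγ : Bd γ (β • s ^ D)) (hγ0 : mass γ = 0) (hYs : Bd (Y - s ^ N') (ε • s ^ N')) (hD : 0 < D)
    (hR : 1 ≤ R) (hi : R ≤ i) (hiN : i ^ 2 * D ≤ N)
    (hA₀ : R * ((2 * (i ^ 2 * D) * 2 ^ R) ^ 2 * τ) + R * (i ^ 2 * D) ≤ A₀ * N')
    (hsm : 4 * (2 * A₀ + 1 + Dm) * ε ≤ 1) (Ξ : Alg M) (m A B : ℕ) (hm : m ≤ Dm) (hA : A₀ ≤ A)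
    (hB : A₀ ≤ B) (hΞ : Bd Ξ (ξ • Y ^ m)) :
    Dom (Y ^ A * (s ^ N * γ * s ^ N) * Ξ * Y ^ B)
      ((2 * (12 * A₀ * ε + 2 ^ R * (4 * R / i)) * (β * ξ)) • Y ^ (A + 1 + m + B))
      ((4 * 2 ^ R + 2) * (β * ξ) * (1 / 2) ^ (R * R)) := by
  have ht := hs.pow N'
  have h1 : ∀ j, j ≤ 2 * A₀ + 1 + Dm → 2 * (j : ℝ) * ε ≤ 1 / 2 := by
    intro j hj
    have : (j : ℝ) ≤ 2 * A₀ + 1 + Dm := by exact_mod_cast hj
    nlinarith
  have h2 : ∀ j, j ≤ 2 * A₀ + 1 + Dm →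
      Bd (Y ^ j - (s ^ N') ^ j) ((2 * j * ε) • (s ^ N') ^ j) := fun j hj =>
    bd_pow ht hε hYs le_rfl (by linarith [h1 j hj])
  have hle : ∀ j, j ≤ 2 * A₀ + 1 + Dm → Bd (Y ^ j) ((2 : ℝ) • (s ^ N') ^ j) := fun j hj =>
    ((h2 j hj).of_sub (ht.pow j).nonneg).mono (ht.pow j).nonneg (by linarith [h1 j hj])
  have hrev : Bd ((s ^ N') ^ (A₀ + 1 + m + A₀)) ((2 : ℝ) • Y ^ (A₀ + 1 + m + A₀)) :=
    ((h2 _ (by omega)).mono (ht.pow _).nonneg (h1 _ (by omega))).rev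
  have hΔ : Bd (s ^ N * γ * s ^ N) (β • s ^ N') := by
    have := (hγ.mul_left (hs.pow N).nonneg).mul_right (hs.pow N).nonneg
    rwa [← pow_add, ← pow_add, ← hN'] at this
  have hΞ' : Bd Ξ ((2 * ξ) • (s ^ N') ^ m) := by
    have := hΞ.trans ((hle m (by omega)).smul hξ)
    rwa [smul_smul, mul_comm] at this
  have eP : (s ^ N') ^ A₀ * s ^ N' * (s ^ N') ^ m * (s ^ N') ^ A₀
      = (s ^ N') ^ (A₀ + 1 + m + A₀) := by rw [pow_add, pow_add, pow_succ]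
  have hE1 := (((h2 A₀ (by omega)).mul_smul hΔ).mul_smul hΞ').mul_smul (hle A₀ (by omega))
  have hE2 := ((hΔ.mul_left (ht.pow A₀).nonneg).mul_smul hΞ').mul_smul (h2 A₀ (by omega))
  rw [eP] at hE1 hE2
  have hi0 : 0 < i := by omega
  have hH := hoeffding_dom (hs.pow D) (hs.pow (N + m * N' + D)) hβ (ξ := 2 * ξ) (by positivity)
    hγ hγ0 (fun j => if j < i ^ 2 then s ^ (N - (i ^ 2 - 1 - j) * D) * Ξ * s ^ ((i ^ 2 - j) * D)
      else 0) (fun j => by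
      split_ifs with hj
      · have := (hΞ'.mul_left (hs.pow (N - (i ^ 2 - 1 - j) * D)).nonneg).mul_right
          (hs.pow ((i ^ 2 - j) * D)).nonneg
        rw [← pow_mul, ← pow_add, ← pow_add] at this
        convert this using 3
        obtain ⟨l, hl⟩ := Nat.exists_eq_add_of_lt hj
        have h3 : l * D ≤ i ^ 2 * D := Nat.mul_le_mul_right _ (by omega)
        rw [show i ^ 2 - 1 - j = l by omega, show i ^ 2 - j = l + 1 by omega, add_mul, mul_comm m]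
        omega
      · exact bd_zero ((hs.pow _).nonneg.smul (by positivity))) hR hi
  have hAv : Dom (avg s (i ^ 2) D (γ * s ^ N * Ξ))
      ((2 * R / i * β * (2 * ξ)) • s ^ ((D + N + m * N') + i ^ 2 * D))
      (2 * β * (2 * ξ) * (1 / 2) ^ (R * R)) := by
    rw [← pow_mul, ← pow_add] at hH
    convert hH using 1
    · rw [avg]
      push_cast
      congr 1
      refine Finset.sum_congr rfl fun j hj => ?_
      have hj' := Finset.mem_range.mp hj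
      rw [if_pos hj', ← pow_mul, ← pow_mul, mul_comm D j]
      have h3 : (i ^ 2 - 1 - j) * D ≤ i ^ 2 * D := Nat.mul_le_mul_right _ (by omega)
      have e : s ^ N = s ^ (D * (i ^ 2 - 1 - j)) * s ^ (N - (i ^ 2 - 1 - j) * D) := by
        rw [← pow_add, mul_comm D]; congr 1; omega
      conv_lhs => rw [e]
      simp only [mul_assoc]
    · congr 2; ring
  have hM := averaging hτ hs (by positivity) hD (by positivity) hAv (A := A₀ * N' + N)
    (B := A₀ * N') (by omega) hA₀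
  have hΓ : ‖γ * s ^ N * Ξ‖ ≤ β * (2 * ξ) :=
    ((hγ.mul_right (hs.pow N).nonneg).mul_smul hΞ').norm_le_of_prob
      (((hs.pow D).mul (hs.pow N)).mul (ht.pow m))
  rw [show A₀ * N' + N + (D + N + m * N') + A₀ * N' = N' * (A₀ + 1 + m + A₀) by rw [hN']; ring,
    pow_mul s N'] at hM
  have hT := (hE1.add_smul hE2).dom.add_smul hM
  have hc : 0 ≤ 2 * (A₀ : ℝ) * ε * β * (2 * ξ) * 2 + β * (2 * ξ) * (2 * A₀ * ε)
      + 2 ^ R * (2 * R / i * β * (2 * ξ)) := by positivity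
  have hT2 := hT.trans_bd (hrev.smul hc)
  rw [smul_smul] at hT2
  obtain ⟨A', rfl⟩ := Nat.exists_eq_add_of_le' hA
  obtain ⟨B', rfl⟩ := Nat.exists_eq_add_of_le hB
  have hT3 := (hT2.mul_left (hY.pow A')).mul_right (hY.pow B')
  rw [← pow_add, ← pow_add, show A' + (A₀ + 1 + m + A₀) + B' = A' + A₀ + 1 + m + (A₀ + B') by ring]
    at hT3
  have he : (0 : ℝ) ≤ (1 / 2) ^ (R * R) := by positivity
  refine Dom.mono_err (ζ := _) (by
    convert hT3 using 1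
    · rw [pow_add Y A', pow_add Y A₀, pow_add s (A₀ * N'), mul_comm A₀ N', pow_mul]
      noncomm_ring
    · congr 1; ring) ?_
  nlinarith [mul_le_mul_of_nonneg_left hΓ he]

def Inv (tr : FreeMonoid Bool →* Alg M) (e : ℝ) (L : ℕ) (θ : ℝ) : Prop :=
  ∃ (x y : FreeMonoid Bool) (u s : Alg M), x ≠ y ∧ x.length = y.length ∧ x.length ≤ L ∧ Prob u ∧
    Prob s ∧ Bd (u - s) (θ • s) ∧ Slip s L ∧ ‖tr x - u‖ ≤ L * e ∧ ‖tr y - s‖ ≤ L * e

theorem len_le {R τ : ℕ} (hR : 1 ≤ R) (hτ : 1 ≤ τ) :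
    R * ((2 * 4 ^ R) ^ 2 * τ) + 2 ^ R + R * ((2 * 4 ^ R) ^ 2 * τ) ≤ (2 ^ R) ^ 9 * τ := by
  have h1 : R ≤ 2 ^ R := Nat.lt_two_pow_self.le
  have h2 : 2 ≤ 2 ^ R := by simpa using Nat.pow_le_pow_right (show 0 < 2 by norm_num) hR
  rw [show 4 ^ R = (2 ^ R) ^ 2 by rw [← pow_mul, mul_comm, pow_mul]; norm_num]
  generalize 2 ^ R = D at *
  have h3 : D ≤ D ^ 5 * τ := by
    calc D = D ^ 1 * 1 := by ring
      _ ≤ _ := by gcongr <;> omega
  calc _ ≤ D * ((2 * D ^ 2) ^ 2 * τ) + D ^ 5 * τ + D * ((2 * D ^ 2) ^ 2 * τ) := by gcongr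
    _ = 9 * (D ^ 5 * τ) := by ring
    _ ≤ 2 ^ 4 * (D ^ 5 * τ) := by gcongr; norm_num
    _ ≤ D ^ 4 * (D ^ 5 * τ) := by gcongr
    _ = _ := by ring

theorem prob_add_of_bd {Y γ : Alg M} (hY : Prob Y) {θ : ℝ} (h : Bd γ (θ • Y)) (h0 : mass γ = 0)
    (hθ : θ ≤ 1) : Prob (Y + γ) :=
  ⟨Bd.nonneg_of_sub (a := θ) (by simpa using h) hY.nonneg hθ, by rw [mass_add, hY.mass_eq, h0, add_zero]⟩

end Vale.Agent.P321
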