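import Vale.Agent.P321.Base

/-! The deletion channel as a monoid homomorphism; the pairs of close strings. -/

open Finset

namespace Vale.Agent.P321

noncomputable def tr (q : ℝ) : FreeMonoid Bool →* Alg (FreeMonoid Bool) :=
  FreeMonoid.lift fun b => q • 1 + (1 - q) • MonoidAlgebra.single (FreeMonoid.of b) 1

theorem tr_of (q : ℝ) (b : Bool) :
    tr q (FreeMonoid.of b) = q • 1 + (1 - q) • MonoidAlgebra.single (FreeMonoid.of b) 1 :=
  FreeMonoid.lift_eval_of _ _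

theorem prob_tr {q : ℝ} (hq : 0 ≤ q) (hq1 : q ≤ 1) (w : FreeMonoid Bool) : Prob (tr q w) := by
  induction w using FreeMonoid.inductionOn' with
  | one => simpa using prob_one
  | of_mul b w ih =>
    rw [map_mul, tr_of]
    refine Prob.mul ⟨(prob_one.nonneg.smul hq).add ((prob_single _).nonneg.smul (by linarith)), ?_⟩ ih
    rw [mass_add, mass_smul, mass_smul, prob_one.mass_eq, (prob_single _).mass_eq]; ring

theorem length_pow (w : FreeMonoid Bool) (n : ℕ) : (w ^ n).length = n * w.length := by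
  induction n with
  | zero => simp
  | succ n ih => rw [pow_succ, FreeMonoid.length_mul, ih]; ring

theorem seed_ne (H J : ℕ) {w S S' : FreeMonoid Bool}
    (hw : w = FreeMonoid.of false * FreeMonoid.of true) (hS : S = w ^ (H + 1 + J))
    (hS' : S' = w ^ H * FreeMonoid.of false * w ^ J) (P Q : ℕ) :
    S ^ (P + 1) * S' * S ^ Q ≠ S ^ P * S' * S ^ (Q + 1) := by
  intro h
  rw [pow_succ S P, pow_succ' S Q, ← mul_assoc _ S, mul_assoc (S ^ P), mul_assoc (S ^ P) S'] at h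
  have h1 := mul_left_cancel (mul_right_cancel h)
  rw [hS, hS', ← mul_assoc, ← mul_assoc, ← pow_add, mul_assoc _ (w ^ J), ← pow_add,
    show H + 1 + J + H = H + (J + H + 1) by ring, show J + (H + 1 + J) = J + H + J + 1 by ring,
    pow_add w H, mul_assoc (w ^ H), mul_assoc (w ^ H), mul_assoc (w ^ H), pow_succ', pow_succ'] at h1
  have h2 := mul_left_cancel h1
  generalize w ^ (J + H) = a at h2
  generalize w ^ (J + H + J) = b at h2
  generalize w ^ J = c at h2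
  have h3 := congrArg FreeMonoid.toList h2
  simp [hw] at h3

theorem base {q : ℝ} (hq : 0 < q) (hq1 : q < 1) : ∃ C : ℕ, ∀ R b : ℕ, 1 ≤ R → C ≤ 2 ^ R →
    (2 ^ R) ^ 56 ≤ b → Inv (tr q) ((1 / 2) ^ (R * R)) (b ^ 21) (1 / b ^ 14) := by
  have htr := prob_tr hq.le hq1.le
  have hof : ∀ b, Nonneg (tr q (FreeMonoid.of b) - q • 1) := fun b => by
    rw [tr_of, add_sub_cancel_left]; exact (prob_single _).nonneg.smul (by linarith)
  obtain ⟨H, J, τ, B₀, hτ1, hτ, hbd, hB0, hB1, hchi⟩ :=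
    seed_alg (htr _) (htr _) hq hq1.le (hof false) (hof true)
  obtain ⟨w, hw⟩ : ∃ w, w = FreeMonoid.of false * FreeMonoid.of true := ⟨_, rfl⟩
  obtain ⟨S, hS⟩ : ∃ S, S = w ^ (H + 1 + J) := ⟨_, rfl⟩
  obtain ⟨S', hS'⟩ : ∃ S, S = w ^ H * FreeMonoid.of false * w ^ J := ⟨_, rfl⟩
  have hne := seed_ne H J hw hS hS'
  have hlen : S'.length ≤ S.length := by
    rw [hS, hS', FreeMonoid.length_mul, FreeMonoid.length_mul, length_pow, length_pow, length_pow,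
      hw]
    simp; omega
  simp only [← map_mul, ← map_pow, ← hw, ← hS, ← hS'] at hτ hbd hchi
  obtain ⟨β, hβ⟩ : ∃ β, β = q⁻¹ + 1 := ⟨_, rfl⟩
  have hβ0 : 0 < β := by rw [hβ]; positivity
  rw [← hβ] at hbd
  obtain ⟨C₁, hC₁⟩ := exists_nat_ge β
  refine ⟨C₁ + 256 * 2 ^ (5 * τ) * (5 * τ) + 18 * τ * S.length, fun R b hR hC hb => ?_⟩
  have hRD : R ≤ 2 ^ R := Nat.lt_two_pow_self.le
  have hD2 : 2 ≤ 2 ^ R := by simpa using Nat.pow_le_pow_right (show 0 < 2 by norm_num) hR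
  have hDb : 2 ^ R ≤ b := le_trans (Nat.le_self_pow (by norm_num) _) hb
  have hD5 : (2 ^ R) ^ 5 ≤ b := le_trans (Nat.pow_le_pow_right (by omega) (by norm_num)) hb
  have hb1 : 1 ≤ b := by omega
  obtain ⟨H₀, hH₀⟩ : ∃ H, H = R * ((2 * ((b ^ 5) ^ 2 * 1) * 2 ^ R) ^ 2 * τ) := ⟨_, rfl⟩
  obtain ⟨σ, hσ⟩ : ∃ σ, σ = R * 2 ^ R * (b ^ 5) ^ 2 := ⟨_, rfl⟩
  have hσ0 : 0 < σ := by rw [hσ]; positivity
  have hσ1 : σ ^ 2 ≤ (2 ^ R) ^ 4 * b ^ 20 := by
    calc σ ^ 2 ≤ (2 ^ R * 2 ^ R * (b ^ 5) ^ 2) ^ 2 := by rw [hσ]; gcongr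
      _ = _ := by ring
  have hσ2 : σ ≤ τ * σ ^ 2 := by
    calc σ = 1 * σ ^ 1 := by ring
      _ ≤ _ := Nat.mul_le_mul hτ1 (Nat.pow_le_pow_right hσ0 (by norm_num))
  have hσ3 : H₀ ≤ 4 * (τ * σ ^ 2) := by
    calc H₀ = 1 * H₀ := by ring
      _ ≤ R * H₀ := Nat.mul_le_mul_right _ hR
      _ = _ := by rw [hH₀, hσ]; ring
  have hσ4 : R * ((b ^ 5) ^ 2 * 1) + 1 ≤ σ := by
    have a1 : 0 < R * (b ^ 5) ^ 2 := by positivity
    calc _ ≤ 2 * (R * (b ^ 5) ^ 2) := by rw [mul_one]; omega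
      _ ≤ 2 ^ R * (R * (b ^ 5) ^ 2) := Nat.mul_le_mul_right _ hD2
      _ = _ := by rw [hσ]; ring
  obtain ⟨Q, hQ⟩ : ∃ Q, 18 * (τ * σ ^ 2) = 2 * H₀ + 1 + (Q + 1) :=
    ⟨18 * (τ * σ ^ 2) - (2 * H₀ + 2), by omega⟩
  have hC5 : ∀ c : ℕ, c ≤ 2 ^ R → c * σ ^ 2 ≤ b ^ 21 := by
    intro c hc
    calc c * σ ^ 2 ≤ 2 ^ R * ((2 ^ R) ^ 4 * b ^ 20) := Nat.mul_le_mul hc hσ1
      _ = (2 ^ R) ^ 5 * b ^ 20 := by ring
      _ ≤ b * b ^ 20 := Nat.mul_le_mul_right _ hD5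
      _ = _ := by ring
  have hslip := slip_wd (htr S') (htr S) hB0 hchi hτ [true] (2 * H₀) (Q + 1)
    (N := 18 * (τ * σ ^ 2)) (σ := σ) (t := 1) (K := 5 * τ) (τ' := b ^ 21) hQ.symm hσ0 one_pos
    (by omega) (by nlinarith) (by nlinarith) (by nlinarith) (by simpa using hB1)
    (le_trans (le_of_eq (by ring)) (hC5 (256 * 2 ^ (5 * τ) * (5 * τ)) (by omega)))
  obtain ⟨D, hD⟩ : ∃ D : ℝ, D = 2 ^ R := ⟨_, rfl⟩
  have hDc : ((2 ^ R : ℕ) : ℝ) = D := by rw [hD]; push_cast; rfl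
  have rD2 : 2 ≤ D := by rw [← hDc]; exact_mod_cast hD2
  have rRD : (R : ℝ) ≤ D := by rw [← hDc]; exact_mod_cast hRD
  have rβ : β ≤ D := hC₁.trans (by rw [← hDc]; exact_mod_cast (show C₁ ≤ 2 ^ R by omega))
  have rb : D ^ 56 ≤ b := by rw [← hDc]; exact_mod_cast hb
  have rb1 : (1 : ℝ) ≤ b := by exact_mod_cast hb1
  have hbig := big_le rD2 rb
  have a1 : D * R * β ≤ D ^ 3 := by
    calc D * R * β ≤ D * D * D := by gcongr
      _ = _ := by ring
  have hdip := dipole (htr S') (htr S) hβ0.le hbd hτ hR (i := b ^ 5) (P := 2 * H₀) (Q := Q)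
    ((hRD.trans hDb).trans (Nat.le_self_pow (by norm_num) _)) hH₀ le_rfl (by omega) rfl (by
      rw [← hD]
      have a2 := hbig 3 2 (by norm_num)
      have a3 : (b : ℝ) ≤ b ^ 5 := le_self_pow₀ rb1 (by norm_num)
      push_cast
      rw [show D * (2 * R / b ^ 5 * β) = 2 * (D * R * β) / b ^ 5 by ring, div_le_iff₀ (by positivity)]
      linarith)
  rw [wd_cons, wd_nil, mul_one, if_pos rfl] at hslip
  simp only [← map_mul, ← map_pow] at hslip hdip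
  rw [← hD] at hdip
  have hy := htr (S ^ (2 * H₀) * S' * S ^ (Q + 1))
  obtain ⟨γ, g1, g2, g3⟩ := hdip.exists_mass_zero hy (by
    rw [mass_sub, (htr _).mass_eq, (htr _).mass_eq, sub_self])
  have g4 := g1.mono hy.nonneg (b := 1 / b ^ 14) (by
    have a2 := hbig 4 4 (by norm_num)
    push_cast
    rw [show 2 * (4 * D * (D * (2 * R / b ^ 5 * β)) / (b ^ 5) ^ 2)
      = 16 * D * (D * R * β) / b / b ^ 14 by field_simp; ring]
    refine div_le_div_of_nonneg_right ?_ (by positivity)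
    rw [div_le_one (by positivity)]
    nlinarith)
  have he : (0 : ℝ) ≤ (1 / 2) ^ (R * R) := by positivity
  refine ⟨_, _, _, _, hne (2 * H₀) Q, ?_, ?_, prob_add_of_bd hy g4 g2 ?_, hy, by simpa using g4,
    hslip, ?_, by simp⟩
  · simp only [FreeMonoid.length_mul, length_pow]; ring
  · simp only [FreeMonoid.length_mul, length_pow]
    refine le_trans ?_ (hC5 (18 * τ * S.length) (by omega))
    calc _ ≤ (2 * H₀ + 1 + (Q + 1)) * S.length := by nlinarith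
      _ = _ := by rw [← hQ]; ring
  · rw [div_le_one (by positivity)]; exact one_le_pow₀ rb1
  · rw [← sub_sub]
    refine g3.trans ?_
    rw [← mul_assoc]
    refine mul_le_mul_of_nonneg_right ?_ he
    have a2 := hbig 3 5 (by norm_num)
    have a3 : (b : ℝ) ≤ b ^ 21 := le_self_pow₀ rb1 (by norm_num)
    have a4 : ((D * 2 + D * 2) * (D * 2 + 1) + 2) * β ≤ (16 * D ^ 2) * D := by
      gcongr; nlinarith
    push_cast
    nlinarith

theorem levels {q : ℝ} (hq : 0 < q) (hq1 : q < 1) : ∃ C : ℕ, ∀ R : ℕ, 1 ≤ R → C ≤ 2 ^ R →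
    ∀ k : ℕ, ∃ β ϑ : ℕ, 56 * 4 ^ k ≤ β ∧ β + 2 ≤ 58 * 4 ^ k ∧ 14 * β ≤ ϑ ∧ 14 * k * 4 ^ k ≤ ϑ ∧
      Inv (tr q) ((1 / 2) ^ (R * R)) (((2 ^ R) ^ β) ^ 21) (1 / (2 ^ R) ^ ϑ) := by
  obtain ⟨C, hC⟩ := base hq hq1
  refine ⟨C, fun R hR hCR k => ?_⟩
  induction k with
  | zero =>
    refine ⟨56, 56 * 14, by norm_num, by norm_num, by norm_num, by norm_num, ?_⟩
    have := hC R _ hR hCR le_rfl
    push_cast at this
    rwa [← pow_mul _ 56 14] at this
  | succ k ih =>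
    obtain ⟨β, ϑ, h1, h2, h3, h4, h5⟩ := ih
    have h4k : 1 ≤ 4 ^ k := Nat.one_le_pow _ _ (by norm_num)
    have hD : (1 : ℝ) ≤ 2 ^ R := one_le_pow₀ (by norm_num)
    have := double_step (tr q) (prob_tr hq.le hq1.le) hR
      (Nat.pow_le_pow_right (by positivity) (by omega : 56 ≤ β)) (by positivity) (by
        push_cast
        rw [← pow_mul _ β, one_div, inv_mul_le_iff₀ (by positivity), mul_one]
        exact pow_le_pow_right₀ hD (by omega)) h5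
    refine ⟨4 + β * 4, ϑ * 4 + β, by rw [pow_succ]; omega, by rw [pow_succ]; omega, by omega,
      by rw [pow_succ]; nlinarith, ?_⟩
    rw [← pow_mul _ β 4, ← pow_add] at this
    convert this using 1
    push_cast
    rw [pow_add, pow_mul]
    field_simp

theorem exists_close {q : ℝ} (hq : 0 < q) (hq1 : q < 1) : ∃ k₀ : ℕ, ∀ k ≥ k₀, ∀ n ≥ 2 ^ (1218 * 32 ^ k),
    ∃ x y : FreeMonoid Bool, x ≠ y ∧ x.length = n ∧ y.length = n ∧
      ‖tr q x - tr q y‖ ≤ 3 / 2 ^ (14 * k * 32 ^ k) := by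
  obtain ⟨C, hC⟩ := levels hq hq1
  refine ⟨C + 11, fun k hk n hn => ?_⟩
  have h8 : k ≤ 8 ^ k := (Nat.lt_pow_self (by norm_num)).le
  obtain ⟨β, ϑ, h1, h2, h3, h4, x, y, u, s, hxy, hl, hL, hu, hs, hbd, -, ex, ey⟩ :=
    hC (8 ^ k) (by omega) (by have := (Nat.lt_two_pow_self (n := 8 ^ k)).le; omega) k
  have e32 : 32 ^ k = 8 ^ k * 4 ^ k := by rw [← mul_pow]; norm_num
  have hL2 : ((2 ^ 8 ^ k) ^ β) ^ 21 ≤ 2 ^ (1218 * 32 ^ k) := by
    rw [← pow_mul, ← pow_mul, e32]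
    refine Nat.pow_le_pow_right (by norm_num) ?_
    have : 8 ^ k * (β * 21) ≤ 8 ^ k * (1218 * 4 ^ k) := Nat.mul_le_mul_left _ (by omega)
    linarith
  obtain ⟨r, rfl⟩ := Nat.exists_eq_add_of_le (hL.trans (hL2.trans hn))
  refine ⟨x * FreeMonoid.of false ^ r, y * FreeMonoid.of false ^ r,
    fun h => hxy (mul_right_cancel h), by simp [length_pow], by simp [length_pow, hl], ?_⟩
  rw [map_mul, map_mul, ← sub_mul]
  refine ((prob_tr hq.le hq1.le _).norm_mul_le' _).trans ?_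
  have a1 : (1 : ℝ) / (2 ^ 8 ^ k) ^ ϑ ≤ 1 / 2 ^ (14 * k * 32 ^ k) := by
    rw [← pow_mul, e32]
    refine one_div_le_one_div_of_le (by positivity) (pow_le_pow_right₀ (by norm_num) ?_)
    have := Nat.mul_le_mul_left (8 ^ k) h4
    linarith
  have a2 : ((((2 ^ 8 ^ k) ^ β) ^ 21 : ℕ) : ℝ) * (1 / 2) ^ (8 ^ k * 8 ^ k)
      ≤ 1 / 2 ^ (14 * k * 32 ^ k) := by
    have b1 : ((((2 ^ 8 ^ k) ^ β) ^ 21 : ℕ) : ℝ) ≤ 2 ^ (1218 * 32 ^ k) := by exact_mod_cast hL2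
    refine (mul_le_mul_of_nonneg_right b1 (by positivity)).trans ?_
    rw [div_pow, one_pow, mul_one_div, div_le_div_iff₀ (by positivity) (by positivity), one_mul,
      ← pow_add]
    refine pow_le_pow_right₀ (by norm_num) ?_
    have b2 : ∀ j, 1218 + 14 * (j + 11) ≤ 2 ^ (j + 11) := by
      intro j
      induction j with
      | zero => norm_num
      | succ j ih => rw [add_right_comm, pow_succ]; omega
    have b3 := b2 (k - 11)
    rw [show k - 11 + 11 = k by omega] at b3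
    have b4 : 8 ^ k * 8 ^ k = 2 ^ k * 32 ^ k := by rw [← mul_pow, ← mul_pow]; norm_num
    rw [b4, ← add_mul]
    exact Nat.mul_le_mul_right _ b3
  rw [show tr q x - tr q y = (tr q x - u) + (u - s) + -(tr q y - s) by abel]
  refine norm_add₃_le.trans ?_
  rw [norm_neg]
  have a3 := hbd.norm_le_of_prob hs
  rw [show (3 : ℝ) / 2 ^ (14 * k * 32 ^ k) = 3 * (1 / 2 ^ (14 * k * 32 ^ k)) by ring]
  linarith

end Vale.Agent.P321
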