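import Vale.Agent.P321.LemmaL
import Vale.Agent.P321.Averaging

/-! Words in two letters, periodic patterns, Thue-Morse cancellation. -/

open Finset

namespace Vale.Agent.P321

section wd
variable {W : Type*} [Monoid W]

def wd (x y : W) (c : List Bool) : W := (c.map fun b => if b then x else y).prod

@[simp] theorem wd_nil (x y : W) : wd x y [] = 1 := rfl

theorem wd_cons (x y : W) (b : Bool) (c : List Bool) :
    wd x y (b :: c) = (if b then x else y) * wd x y c := by simp [wd]

theorem wd_append (x y : W) (c c' : List Bool) : wd x y (c ++ c') = wd x y c * wd x y c' := by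
  simp [wd]

theorem wd_replicate_false (x y : W) (n : ℕ) : wd x y (List.replicate n false) = y ^ n := by
  simp [wd]

theorem wd_replicate_true (x y : W) (n : ℕ) : wd x y (List.replicate n true) = x ^ n := by
  simp [wd]

theorem map_wd {W' : Type*} [Monoid W'] (f : W →* W') (x y : W) (c : List Bool) :
    f (wd x y c) = wd (f x) (f y) c := by
  induction c with
  | nil => simp
  | cons b c ih => rw [wd_cons, wd_cons, map_mul, ih]; cases b <;> simp

def ZZ {N : ℕ} (x y : W) (c : ZMod N → Bool) : ZMod N → ℕ → W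
  | _, 0 => 1
  | r, n + 1 => (if c r then x else y) * ZZ x y c (r + 1) n

theorem ZZ_add {N : ℕ} (x y : W) (c : ZMod N → Bool) (r : ZMod N) (n m : ℕ) :
    ZZ x y c r (n + m) = ZZ x y c r n * ZZ x y c (r + n) m := by
  induction n generalizing r with
  | zero => simp [ZZ]
  | succ n ih =>
    rw [add_right_comm, ZZ, ZZ, ih, mul_assoc]
    congr 3; push_cast; ring

theorem ZZ_eq_wd {N : ℕ} (x y : W) (c : ZMod N → Bool) (r : ZMod N) (n : ℕ) :
    ZZ x y c r n = wd x y ((List.range n).map fun j : ℕ => c (r + j)) := by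
  induction n generalizing r with
  | zero => simp [ZZ]
  | succ n ih =>
    rw [ZZ, ih, List.range_succ_eq_map, List.map_cons, wd_cons, List.map_map]
    congr 3
    · simp
    · ext j; simp only [Function.comp]; congr 1; push_cast; ring

theorem ZZ_list {N : ℕ} [NeZero N] (x y : W) (p : List Bool) (hp : p.length = N) :
    ZZ x y (fun r : ZMod N => p.getD r.val false) 0 N = wd x y p := by
  rw [ZZ_eq_wd]
  congr 1
  refine List.ext_getElem (by simp [hp]) fun j h1 h2 => ?_
  have hj : j < N := hp ▸ h2
  simp [Nat.mod_eq_of_lt hj, h2]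

end wd

variable {M : Type*} [Monoid M]

theorem prob_ite {u s : Alg M} (hu : Prob u) (hs : Prob s) (b : Bool) :
    Prob (if b then u else s) := by cases b <;> simpa

theorem prob_wd {u s : Alg M} (hu : Prob u) (hs : Prob s) (c : List Bool) : Prob (wd u s c) := by
  induction c with
  | nil => exact prob_one
  | cons b c ih => rw [wd_cons]; exact (prob_ite hu hs b).mul ih

theorem norm_wd_sub {x y u s : Alg M} (hx : Prob x) (hy : Prob y) (hu : Prob u) (hs : Prob s)
    {ζ : ℝ} (h1 : ‖x - u‖ ≤ ζ) (h2 : ‖y - s‖ ≤ ζ) (c : List Bool) :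
    ‖wd x y c - wd u s c‖ ≤ c.length * ζ := by
  induction c with
  | nil => simp
  | cons b c ih =>
    have h3 : ‖(if b then x else y) - (if b then u else s)‖ ≤ ζ := by cases b <;> simpa
    rw [wd_cons, wd_cons]
    have e : (if b then x else y) * wd x y c - (if b then u else s) * wd u s c
        = (if b then x else y) * (wd x y c - wd u s c)
          + ((if b then x else y) - (if b then u else s)) * wd u s c := by noncomm_ring
    rw [e]
    have h4 := (prob_ite hx hy b).norm_mul_le (wd x y c - wd u s c)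
    have h5 := (prob_wd hu hs c).norm_mul_le' ((if b then x else y) - (if b then u else s))
    refine (norm_add_le _ _).trans ?_
    simp only [List.length_cons]; push_cast; linarith

theorem walk_ZZ {N : ℕ} [NeZero N] {u s : Alg M} (hu : Prob u) (hs : Prob s) {B : ℝ}
    (hB : 0 ≤ B) (hc : Chi (u - s) s B) (c : ZMod N → Bool) {D : ℕ}
    (hD : (univ.filter fun r => c r = true).card ≤ D) :
    Walk s N (ZZ u s c) (D ^ 2 * B * (1 + B) ^ D) := by
  have hδ : mass (u - s) = 0 := by rw [mass_sub, hu.mass_eq, hs.mass_eq, sub_self]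
  have hprob : ∀ r n, Prob (ZZ u s c r n) := fun r n => by rw [ZZ_eq_wd]; exact prob_wd hu hs _
  have hcu : Chi u s (1 + B) := by simpa using hc.add_one hs hδ hB
  have hchi : ∀ n r, Chi (ZZ u s c r n) (s ^ n)
      ((1 + B) ^ ((range n).filter fun j : ℕ => c (r + j) = true).card) := by
    intro n
    induction n with
    | zero => intro r; simpa [ZZ] using (prob_one (M := M)).chi
    | succ n ih =>
      intro r
      rw [ZZ_add, pow_succ s n, Finset.range_add_one, Finset.filter_insert]
      simp only [ZZ, mul_one]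
      split_ifs with h
      · rw [Finset.card_insert_of_notMem (by simp), pow_succ]
        exact (ih r).mul hcu (hs.pow n).nonneg (by positivity)
      · simpa using (ih r).mul hs.chi (hs.pow n).nonneg (by positivity)
  have hcnt : ∀ n ≤ N, ∀ r, ((range n).filter fun j : ℕ => c (r + j) = true).card ≤ D := by
    intro n hn r
    refine le_trans (Finset.card_le_card_of_injOn (fun j : ℕ => r + (j : ZMod N))
      (fun j hj => ?_) fun j hj k hk hjk => ?_) hD
    · simp only [Finset.coe_filter, Set.mem_ofPred_eq, Finset.mem_univ, true_and] at hj ⊢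
      exact hj.2
    · simp only [Finset.coe_filter, Set.mem_ofPred_eq, Finset.mem_range] at hj hk
      have h1 : (j : ZMod N) = k := add_left_cancel hjk
      have h2 := congrArg ZMod.val h1
      rwa [ZMod.val_natCast_of_lt (by omega), ZMod.val_natCast_of_lt (by omega)] at h2
  have htel : ∀ n r, ZZ u s c r n - s ^ n = ∑ j ∈ range n,
      if c (r + j) = true then s ^ j * (u - s) * ZZ u s c (r + j + 1) (n - 1 - j) else 0 := by
    intro n
    induction n with
    | zero => intro r; simp [ZZ]
    | succ n ih =>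
      intro r
      have e : ZZ u s c r (n + 1) - s ^ (n + 1) = s * (ZZ u s c (r + 1) n - s ^ n)
          + ((if c r then u else s) - s) * ZZ u s c (r + 1) n := by
        rw [ZZ, pow_succ']; noncomm_ring
      rw [e, ih, Finset.sum_range_succ', Finset.mul_sum]
      congr 1
      · refine Finset.sum_congr rfl fun j _ => ?_
        rw [show r + 1 + (j : ZMod N) = r + ((j + 1 : ℕ) : ZMod N) by push_cast; ring,
          show n + 1 - 1 - (j + 1) = n - 1 - j by omega]
        split_ifs
        · rw [pow_succ']; simp only [mul_assoc]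
        · simp
      · simp only [Nat.cast_zero, add_zero, pow_zero, one_mul, Nat.add_sub_cancel, Nat.sub_zero]
        split_ifs <;> simp
  refine ⟨fun _ => rfl, ZZ_add u s c, hprob, fun n hn h => ?_⟩
  obtain ⟨d, hd0, hd1, hd2⟩ := bessel hs hδ hc n h
  have hC : (0 : ℝ) ≤ (1 + B) ^ D := by positivity
  have h1 : ∀ r, (pair (ZZ u s c r n - s ^ n) h) ^ 2 ≤ D * ((1 + B) ^ D * B) *
      ∑ j ∈ range n, if c (r + j) = true then d j else 0 := by
    intro r
    rw [htel, ← Finset.sum_filter, ← Finset.sum_filter, pair_sum_left]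
    refine sq_sum_le_card_mul_sum_sq.trans ?_
    rw [mul_assoc (D : ℝ), Finset.mul_sum _ _ ((1 + B) ^ D * B)]
    refine mul_le_mul (by exact_mod_cast hcnt n hn r) (Finset.sum_le_sum fun j hj => ?_)
      (Finset.sum_nonneg fun _ _ => sq_nonneg _) (Nat.cast_nonneg _)
    have hj' := Finset.mem_range.mp (Finset.mem_filter.mp hj).1
    rw [mul_assoc ((1 + B) ^ D)]
    exact hd2 j (n - 1 - j) _ _ (by omega) hC ((hchi _ _).mono (hs.pow _).nonneg
      (pow_le_pow_right₀ (by linarith) (hcnt _ (by omega) _)))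
  refine (Finset.sum_le_sum fun r _ => h1 r).trans ?_
  rw [← Finset.mul_sum, Finset.sum_comm]
  have h2 : ∀ j ∈ range n, ∑ r : ZMod N, (if c (r + j) = true then d j else 0) ≤ D * d j := by
    intro j _
    have e := Equiv.sum_comp (Equiv.addRight (j : ZMod N)) fun r => if c r = true then d j else 0
    simp only [Equiv.coe_addRight] at e
    refine e.le.trans ?_
    rw [← Finset.sum_filter, Finset.sum_const, nsmul_eq_mul]
    exact mul_le_mul_of_nonneg_right (by exact_mod_cast hD) (hd0 j)
  have h3 := Finset.sum_le_sum h2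
  rw [← Finset.mul_sum] at h3
  have h4 := h3.trans (mul_le_mul_of_nonneg_left hd1 (Nat.cast_nonneg D))
  refine (mul_le_mul_of_nonneg_left h4 (by positivity)).trans (le_of_eq ?_)
  ring

/-- Slip of a padded word. -/
theorem slip_wd {u s : Alg M} (hu : Prob u) (hs : Prob s) {B : ℝ} (hB : 0 ≤ B)
    (hc : Chi (u - s) s B) {τ : ℕ} (hτ : Slip s τ) (c : List Bool) (a b : ℕ)
    {N σ t K τ' : ℕ} (hN : a + c.length + b = N) (hσ : 0 < σ) (ht : 0 < t) (hK : 0 < K)
    (ha : (4 * σ) ^ 2 * τ + 2 * σ ≤ N) (htσ : t * (2 * σ) ^ 2 ≤ 2 * N)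
    (hKN : N ≤ K * (t * (2 * σ) ^ 2))
    (hTt : (c.length : ℝ) ^ 2 * B * (1 + B) ^ c.length * t ≤ 1 / 10 ^ 8)
    (hτ' : 64 * 2 ^ K * K * (t * (2 * σ)) ^ 2 ≤ τ') : Slip (s ^ a * wd u s c * s ^ b) τ' := by
  have : NeZero N := ⟨by omega⟩
  have hp : (List.replicate a false ++ c ++ List.replicate b false).length = N := by simp [← hN, add_assoc]
  have hW := walk_ZZ hu hs hB hc (fun r : ZMod N =>
    (List.replicate a false ++ c ++ List.replicate b false).getD r.val false) (D := c.length) (by
      refine le_trans (Finset.card_le_card_of_injOn (t := Ico a (a + c.length)) ZMod.val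
        (fun r hr => ?_) fun r _ r' _ h => ZMod.val_injective N h) (by simp)
      simp only [Finset.coe_filter, Set.mem_ofPred_eq, Finset.mem_univ, true_and] at hr
      simp only [Finset.coe_Ico, Set.mem_Ico]
      by_contra hcon
      rcases lt_or_ge r.val a with h | h
      · rw [List.append_assoc, List.getD_append _ _ _ _ (by simpa using h)] at hr
        simp [List.getD, h] at hr
      · rw [List.getD_append_right _ _ _ _ (by simp; omega)] at hr
        simp [List.getD, List.getElem?_replicate] at hr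
        split_ifs at hr <;> simp at hr)
  have := lemmaL hs hτ hW (by positivity) hσ ht hK ha htσ hKN hTt hτ'
  rwa [ZZ_list u s _ hp, wd_append, wd_append, wd_replicate_false, wd_replicate_false] at this

theorem one_add_pow_le {x : ℝ} (hx : 0 ≤ x) (n : ℕ) (h : 2 * n * x ≤ 1) :
    (1 + x) ^ n ≤ 1 + 2 * n * x := by
  induction n with
  | zero => simp
  | succ n ih =>
    push_cast at h ⊢
    have h1 := ih (by nlinarith)
    rw [pow_succ]
    nlinarith [mul_le_mul_of_nonneg_right h1 (show 0 ≤ 1 + x by linarith)]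

theorem bd_ite_sub {u s : Alg M} (hs : Prob s) {θ : ℝ} (hθ : 0 ≤ θ) (h : Bd (u - s) (θ • s))
    (b : Bool) : Bd ((if b then u else s) - s) (θ • s) := by
  cases b
  · simpa using bd_zero (hs.nonneg.smul hθ)
  · simpa using h

theorem bd_wd {u s : Alg M} (hs : Prob s) {θ : ℝ} (hθ : 0 ≤ θ) (h : Bd (u - s) (θ • s))
    (c : List Bool) : Bd (wd u s c - s ^ c.length) (((1 + θ) ^ c.length - 1) • s ^ c.length) := by
  induction c with
  | nil => simpa using bd_zero (ρ := (0 : Alg M)) fun w => by simp
  | cons b c ih =>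
    have e : wd u s (b :: c) - s ^ (b :: c).length
        = ((if b then u else s) - s) * wd u s c + s * (wd u s c - s ^ c.length) := by
      rw [wd_cons, List.length_cons, pow_succ']; noncomm_ring
    have h1 := ((bd_ite_sub hs hθ h b).mul_smul (ih.of_sub (hs.pow _).nonneg)).add_smul
      (ih.mul_left hs.nonneg)
    rw [e, List.length_cons, pow_succ' s]
    convert h1 using 2; ring

theorem bd_wd' {u s : Alg M} (hs : Prob s) {θ : ℝ} (hθ : 0 ≤ θ) (h : Bd (u - s) (θ • s))
    (c : List Bool) {D : ℕ} (hD : c.length ≤ D) (hθD : 2 * D * θ ≤ 1) :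
    Bd (wd u s c - s ^ c.length) ((2 * D * θ) • s ^ c.length) := by
  have hD' : (c.length : ℝ) ≤ D := by exact_mod_cast hD
  have h1 : 2 * (c.length : ℝ) * θ ≤ 2 * D * θ := by gcongr
  refine (bd_wd hs hθ h c).mono (hs.pow _).nonneg ?_
  linarith [one_add_pow_le hθ c.length (h1.trans hθD)]

theorem bd_pow {u s : Alg M} (hs : Prob s) {θ : ℝ} (hθ : 0 ≤ θ) (h : Bd (u - s) (θ • s))
    {n D : ℕ} (hD : n ≤ D) (hθD : 2 * D * θ ≤ 1) : Bd (u ^ n - s ^ n) ((2 * D * θ) • s ^ n) := by
  simpa [wd_replicate_true] using bd_wd' hs hθ h (List.replicate n true) (by simpa) hθD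

noncomputable def LL (u s : Alg M) : List Bool → Alg M
  | [] => 0
  | b :: c => ((if b then u else s) - s) * s ^ c.length + s * LL u s c

noncomputable def QQ (u s : Alg M) : List Bool → Alg M
  | [] => 0
  | b :: c => ((if b then u else s) - s) * (wd u s c - s ^ c.length) + s * QQ u s c

theorem wd_eq (u s : Alg M) (c : List Bool) : wd u s c = s ^ c.length + LL u s c + QQ u s c := by
  induction c with
  | nil => simp [LL, QQ]
  | cons b c ih =>
    have : s * wd u s c = s * (s ^ c.length + LL u s c + QQ u s c) := by rw [← ih]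
    rw [wd_cons, LL, QQ, List.length_cons, pow_succ']
    linear_combination (norm := noncomm_ring) this

theorem mass_QQ {u s : Alg M} (hu : Prob u) (hs : Prob s) (c : List Bool) : mass (QQ u s c) = 0 := by
  induction c with
  | nil => simp [QQ]
  | cons b c ih =>
    rw [QQ, mass_add, mass_mul, mass_mul, ih, mass_sub, (prob_ite hu hs b).mass_eq, hs.mass_eq]
    ring

theorem LL_append (u s : Alg M) (c c' : List Bool) :
    LL u s (c ++ c') = LL u s c * s ^ c'.length + s ^ c.length * LL u s c' := by
  induction c with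
  | nil => simp [LL]
  | cons b c ih =>
    rw [List.cons_append, LL, LL, ih, List.length_append, List.length_cons, pow_add, pow_succ']
    noncomm_ring

def tm : ℕ → Bool → List Bool
  | 0, b => [b]
  | r + 1, b => tm r b ++ tm r (!b)

theorem tm_length (r : ℕ) (b : Bool) : (tm r b).length = 2 ^ r := by
  induction r generalizing b with
  | zero => rfl
  | succ r ih => rw [tm, List.length_append, ih, ih]; ring

theorem tm_head (r : ℕ) (b : Bool) : ∃ c, tm r b = b :: c := by
  induction r with
  | zero => exact ⟨[], rfl⟩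
  | succ r ih => obtain ⟨c, hc⟩ := ih; exact ⟨c ++ tm r (!b), by rw [tm, hc, List.cons_append]⟩

theorem norm_LL_tm {u s : Alg M} (hs : Prob s) {τ : ℕ} (hτ : Slip s τ) {R H : ℕ}
    (hH : (2 * 4 ^ R) ^ 2 * τ ≤ H) (r : ℕ) (hr : r ≤ R) :
    ‖s ^ (r * H) * (LL u s (tm r true) - LL u s (tm r false)) * s ^ (r * H)‖
      ≤ ((1 / 2) ^ R) ^ r * ‖u - s‖ := by
  induction r with
  | zero => simp [tm, LL]
  | succ r ih =>
    have h1 := hτ.shift hs (k := 2 * 4 ^ R) (by positivity) hH hH (2 ^ r)
      (s ^ (r * H) * (LL u s (tm r true) - LL u s (tm r false)) * s ^ (r * H))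
    have e : s ^ ((r + 1) * H) * (LL u s (tm (r + 1) true) - LL u s (tm (r + 1) false))
        * s ^ ((r + 1) * H)
        = -(s ^ (H + 2 ^ r) * (s ^ (r * H) * (LL u s (tm r true) - LL u s (tm r false))
            * s ^ (r * H)) * s ^ H - s ^ H * (s ^ (r * H) * (LL u s (tm r true)
              - LL u s (tm r false)) * s ^ (r * H)) * s ^ (H + 2 ^ r)) := by
      simp only [tm, LL_append, tm_length, Bool.not_true, Bool.not_false]
      generalize LL u s (tm r true) = A
      generalize LL u s (tm r false) = B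
      have e1 : s ^ (H + 2 ^ r) * (s ^ (r * H) * (A - B) * s ^ (r * H)) * s ^ H
          = s ^ ((r + 1) * H) * (s ^ 2 ^ r * (A - B)) * s ^ ((r + 1) * H) := by
        simp only [← mul_assoc, ← pow_add]
        simp only [mul_assoc, ← pow_add]
        congr 2 <;> ring_nf
      have e2 : s ^ H * (s ^ (r * H) * (A - B) * s ^ (r * H)) * s ^ (H + 2 ^ r)
          = s ^ ((r + 1) * H) * ((A - B) * s ^ 2 ^ r) * s ^ ((r + 1) * H) := by
        simp only [← mul_assoc, ← pow_add]
        simp only [mul_assoc, ← pow_add]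
        congr 2 <;> ring_nf
      rw [e1, e2]; noncomm_ring
    rw [e, norm_neg, pow_succ' _ r, mul_assoc ((1 / 2 : ℝ) ^ R)]
    refine h1.trans (mul_le_mul ?_ (ih (by omega)) (norm_nonneg _) (by positivity))
    have h2 : (2 : ℝ) ^ r ≤ 2 ^ R := pow_le_pow_right₀ (by norm_num) (by omega)
    push_cast
    rw [div_le_iff₀ (by positivity), show (4 : ℝ) ^ R = 2 ^ R * 2 ^ R by rw [← mul_pow]; norm_num,
      one_div, inv_pow]
    field_simp
    exact h2

theorem bd_QQ {u s : Alg M} (hs : Prob s) {θ : ℝ} (hθ : 0 ≤ θ) (h : Bd (u - s) (θ • s))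
    {D : ℕ} (hθD : 2 * D * θ ≤ 1) (c : List Bool) (hD : c.length ≤ D) :
    Bd (QQ u s c) ((c.length * (θ * (2 * D * θ))) • s ^ c.length) := by
  induction c with
  | nil => simpa [QQ] using bd_zero (ρ := (0 : Alg M)) fun w => by simp
  | cons b c ih =>
    have hc : c.length ≤ D := by simp at hD; omega
    have h1 := ((bd_ite_sub hs hθ h b).mul_smul (bd_wd' hs hθ h c hc hθD)).add_smul
      ((ih hc).mul_left hs.nonneg)
    rw [QQ, List.length_cons, pow_succ' s]
    convert h1 using 2; push_cast; ring

theorem dom_QQ {u s : Alg M} (hs : Prob s) {θ : ℝ} (hθ : 0 ≤ θ) (h : Bd (u - s) (θ • s))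
    {D A₀ : ℕ} (hθD : 2 * D * θ ≤ 1) {a ζ : ℝ} (ha : 0 ≤ a) (hζ : 0 ≤ ζ)
    (hg : ∀ (Ξ : Alg M) (m A B : ℕ), m ≤ D → A₀ ≤ A → A₀ ≤ B → Bd Ξ ((2 * D * θ) • s ^ m) →
      Dom (s ^ A * (u - s) * Ξ * s ^ B) (a • s ^ (A + 1 + m + B)) ζ)
    (c : List Bool) (hD : c.length ≤ D) (A B : ℕ) (hA : A₀ ≤ A) (hB : A₀ ≤ B) :
    Dom (s ^ A * QQ u s c * s ^ B) ((c.length * a) • s ^ (A + c.length + B)) (c.length * ζ) := by
  induction c generalizing A with
  | nil => simpa [QQ] using (bd_zero (ρ := (0 : Alg M)) fun w => by simp).dom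
  | cons b c ih =>
    have hc : c.length ≤ D := by simp at hD; omega
    have h1 : Dom (s ^ A * ((if b then u else s) - s) * (wd u s c - s ^ c.length) * s ^ B)
        (a • s ^ (A + 1 + c.length + B)) ζ := by
      cases b
      · simpa using (bd_zero ((hs.pow _).nonneg.smul ha)).dom.mono_err hζ
      · simpa using hg _ _ A B hc hA hB (bd_wd' hs hθ h c hc hθD)
    have h2 := h1.add_smul (ih hc (A + 1) (by omega))
    rw [QQ, List.length_cons, show A + (c.length + 1) + B = A + 1 + c.length + B by ring]
    push_cast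
    rw [add_mul, add_mul, one_mul, one_mul, add_comm _ a, add_comm _ ζ]
    convert h2 using 1
    rw [pow_succ]; noncomm_ring

end Vale.Agent.P321
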